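import Claimed.Agent.R286.Defs.Sk
import Claimed.Agent.R286.Top.Fix
import Claimed.Agent.R286.Top.Lam

/-!
# Row 286 (S0533), unit LL04, file BRIDGE: `Defs/Sk` (hierarchies) <-> the frozen `Def_0461`      (helper245; prefix `sk_br_`, `skBr`)      0 sorry

* `sk_br_char`      characteristic function of the standard drivers `ghStd ι`
* `sk_br_map`       a linear image of `ghStd ι` with orthogonal rows (`M Mᵀ = diag v`) is `Measure.pi (N(0, v k))`;   `sk_br_map2`: the same with one extra coordinate (product form)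
* `sk_br_sum_pairs` a sum over all ordered pairs = pairs `i < j` in both orders + diagonal
* `skBrG n ξ`, `skBrZ n β ξ`   symmetrised pair drivers `(ξ_ij + ξ_ji)/√2` and the completion `β/√(2n) ∑ ξ_ii`
* `sk_br_fc`        POINTWISE: `skFc n β² ξ = skLogPartition β n (skBrG n ξ) - n log 2 + skBrZ n β ξ`   (`β ≥ 0`)
* `sk_br_law`       joint law of `(skBrG, skBrZ)` under `ghStd` = `skDisorder n ⊗ N(0, β²/2)` =: `skBrC β n`   (`n ≥ 1`)
* `sk_br_fc_law`, `sk_br_integral`, `sk_br_integrable_iff`, `sk_br_mean`      transfer of laws / integrals / integrability / mean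
* `sk_br_laplace`, `sk_br_log_laplace`, `sk_br_lam`      `log E exp(t (F^c - E F^c)) = log E exp(t skCen) + t² β²/4`;  `skLam β n t` in terms of `skFc`
* `sk_br_A4`        **LL (A4)** for step paths with first revelation at mass `0`: `skKK n a s P = log E exp(s (skG - E skG))`
* `skBare T ℓ`, `sk_br_bare_G`, `sk_br_bare`, `sk_br_bare_dyad`      the bare path `[(0, T/ℓ², 0)]` with terminal mass `ℓ`: `G = F^c/ℓ`,
                    `skKK N' ℓ s (skBare β² ℓ) = skLam β N' (s / skX N)` for `ℓ = (N'/N)^(1/6)`   (exact form of `bare0`, `bare1` of `SkPath.Ok`)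
-/

set_option autoImplicit false

namespace Claimed.Agent.R286

open MeasureTheory ProbabilityTheory Complex
open scoped ENNReal NNReal RealInnerProductSpace

section linear

variable {ι κ : Type} [Fintype ι] [Fintype κ] [DecidableEq κ]

instance sk_br_prob : IsProbabilityMeasure (ghStd ι) := by
  unfold ghStd; infer_instance

/-- the characteristic function of the standard drivers -/
theorem sk_br_char (c : ι → ℝ) :
    ∫ ξ, cexp (((∑ j, c j * ξ j : ℝ) : ℂ) * I) ∂ghStd ι = cexp (-(((∑ j, c j ^ 2 : ℝ) : ℂ) / 2)) := by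
  have h1 : ∀ ξ : ι → ℝ, cexp (((∑ j, c j * ξ j : ℝ) : ℂ) * I) = ∏ j, cexp (((c j : ℂ) * (ξ j : ℂ)) * I) := by
    intro ξ
    rw [← Complex.exp_sum]
    congr 1
    push_cast
    rw [Finset.sum_mul]
  simp_rw [h1]
  unfold ghStd
  rw [integral_fintype_prod_eq_prod (f := fun j (x : ℝ) => cexp (((c j : ℂ) * (x : ℂ)) * I))]
  have h2 : ∀ j, ∫ x : ℝ, cexp (((c j : ℂ) * (x : ℂ)) * I) ∂gaussianReal 0 1 = cexp (-((c j : ℂ) ^ 2 / 2)) := by
    intro j
    have := charFun_gaussianReal (μ := 0) (v := 1) (c j)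
    rw [charFun_apply_real] at this
    rw [this]
    congr 1
    push_cast
    ring
  simp_rw [h2]
  rw [← Complex.exp_sum]
  congr 1
  push_cast
  rw [Finset.sum_div, Finset.sum_neg_distrib]

/-- **a linear image of the standard drivers with orthogonal rows is a product of centred Gaussians** -/
theorem sk_br_map (M : κ → ι → ℝ) (v : κ → ℝ≥0)
    (h : ∀ k l, ∑ i, M k i * M l i = if k = l then (v k : ℝ) else 0) :
    (ghStd ι).map (fun ξ k => ∑ i, M k i * ξ i) = Measure.pi fun k => gaussianReal 0 (v k) := by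
  have hm : ∀ k, Measurable fun ξ : ι → ℝ => ∑ i, M k i * ξ i := fun k => by fun_prop
  -- one-dimensional laws
  have h1 : ∀ k, (ghStd ι).map (fun ξ => ∑ i, M k i * ξ i) = gaussianReal 0 (v k) := by
    intro k
    apply Measure.ext_of_charFun
    ext t
    rw [charFun_gaussianReal, charFun_apply_real, integral_map (hm k).aemeasurable (by fun_prop)]
    have e : ∀ ξ : ι → ℝ, cexp ((t : ℂ) * ((∑ i, M k i * ξ i : ℝ) : ℂ) * I)
        = cexp (((∑ i, (t * M k i) * ξ i : ℝ) : ℂ) * I) := by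
      intro ξ
      congr 2
      push_cast
      rw [Finset.mul_sum]
      exact Finset.sum_congr rfl fun i _ => by ring
    simp_rw [e]
    rw [sk_br_char]
    congr 1
    have : ∑ i, (t * M k i) ^ 2 = t ^ 2 * (v k : ℝ) := by
      have := h k k
      rw [if_pos rfl] at this
      rw [← this, Finset.mul_sum]
      exact Finset.sum_congr rfl fun i _ => by ring
    rw [this]
    push_cast
    ring
  have hind : iIndepFun (fun k (ξ : ι → ℝ) => ∑ i, M k i * ξ i) (ghStd ι) := by
    rw [iIndepFun_iff_charFun_pi (fun k => (hm k).aemeasurable)]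
    intro t
    have hmL : Measurable fun ξ : ι → ℝ => WithLp.toLp 2 (fun k => ∑ i, M k i * ξ i) :=
      (WithLp.measurable_toLp 2 _).comp (measurable_pi_lambda _ hm)
    rw [charFun_apply, integral_map hmL.aemeasurable (by fun_prop)]
    have e : ∀ ξ : ι → ℝ, cexp ((⟪WithLp.toLp 2 (fun k => ∑ i, M k i * ξ i), t⟫ : ℝ) * I)
        = cexp (((∑ i, (∑ k, t k * M k i) * ξ i : ℝ) : ℂ) * I) := by
      intro ξ
      congr 3
      rw [PiLp.inner_apply]
      simp only [RCLike.inner_apply, conj_trivial]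
      simp_rw [Finset.mul_sum, Finset.sum_mul]
      rw [Finset.sum_comm]
      exact Finset.sum_congr rfl fun i _ => Finset.sum_congr rfl fun k _ => by ring
    simp_rw [e]
    rw [sk_br_char]
    simp_rw [h1, charFun_gaussianReal]
    rw [← Complex.exp_sum]
    congr 1
    have : ∑ i, (∑ k, t k * M k i) ^ 2 = ∑ k, (v k : ℝ) * t k ^ 2 := by
      have e1 : ∀ i, (∑ k, t k * M k i) ^ 2 = ∑ k, ∑ l, t k * t l * (M k i * M l i) := by
        intro i
        rw [sq, Finset.sum_mul_sum]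
        exact Finset.sum_congr rfl fun k _ => Finset.sum_congr rfl fun l _ => by ring
      simp_rw [e1]
      rw [Finset.sum_comm]
      refine Finset.sum_congr rfl fun k _ => ?_
      rw [Finset.sum_comm]
      simp_rw [← Finset.mul_sum, h k]
      simp only [mul_ite, mul_zero, Finset.sum_ite_eq, Finset.mem_univ, if_true]
      ring
    rw [this]
    push_cast
    rw [Finset.sum_div, ← Finset.sum_neg_distrib]
    exact Finset.sum_congr rfl fun k _ => by ring
  rw [(iIndepFun_iff_map_fun_eq_pi_map (fun k => (hm k).aemeasurable)).1 hind]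
  simp_rw [h1]

/-- the same with one distinguished extra coordinate -/
theorem sk_br_map2 (M : κ → ι → ℝ) (m0 : ι → ℝ) (v : κ → ℝ≥0) (v0 : ℝ≥0)
    (h : ∀ k l, ∑ i, M k i * M l i = if k = l then (v k : ℝ) else 0)
    (h0 : ∀ k, ∑ i, M k i * m0 i = 0) (h00 : ∑ i, m0 i * m0 i = v0) :
    (ghStd ι).map (fun ξ => ((fun k => ∑ i, M k i * ξ i), ∑ i, m0 i * ξ i))
      = (Measure.pi fun k => gaussianReal 0 (v k)).prod (gaussianReal 0 v0) := by
  have key := sk_br_map (κ := κ ⊕ Unit) (Sum.elim M fun _ => m0) (Sum.elim v fun _ => v0) (by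
    rintro (k | k) (l | l)
    · simp only [Sum.elim_inl, h k l, Sum.inl.injEq]
    · simp only [Sum.elim_inl, Sum.elim_inr, h0 k, reduceCtorEq, if_false]
    · simp only [Sum.elim_inl, Sum.elim_inr, reduceCtorEq, if_false]
      rw [← h0 l]
      exact Finset.sum_congr rfl fun i _ => mul_comm _ _
    · simp only [Sum.elim_inr, h00, if_true])
  have mp1 := measurePreserving_sumPiEquivProdPi
    (fun i : κ ⊕ Unit => gaussianReal 0 (Sum.elim v (fun _ => v0) i))
  have mp2 := measurePreserving_funUnique (gaussianReal 0 v0) Unit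
  have mp3 := (MeasurePreserving.id (Measure.pi fun k => gaussianReal 0 (v k))).prod mp2
  have mp := mp3.comp mp1
  have hm : Measurable fun (ξ : ι → ℝ) (k : κ ⊕ Unit) => ∑ i, (Sum.elim M fun _ => m0) k i * ξ i := by
    fun_prop
  rw [← mp.map_eq, ← key, Measure.map_map mp.measurable hm]
  rfl

end linear

section sk

open Claims.C0461

/-- a sum over all ordered pairs = pairs `i < j` (both orders) + diagonal -/
theorem sk_br_sum_pairs {n : ℕ} (f : Fin n × Fin n → ℝ) :
    ∑ q, f q = ∑ p : SKPair n, (f p.1 + f p.1.swap) + ∑ i, f (i, i) := by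
  have h1 : ∑ q ∈ Finset.univ.filter (fun q : Fin n × Fin n => q.1 < q.2), f q = ∑ p : SKPair n, f p.1 :=
    Finset.sum_subtype _ (by simp) f
  have h2 : ∑ q ∈ Finset.univ.filter (fun q : Fin n × Fin n => q.2 < q.1), f q
      = ∑ p : SKPair n, f p.1.swap := by
    rw [← Finset.sum_subtype (Finset.univ.filter (fun q : Fin n × Fin n => q.1 < q.2)) (by simp)
      (fun q => f q.swap)]
    refine Finset.sum_nbij' Prod.swap Prod.swap ?_ ?_ ?_ ?_ ?_ <;> simp
  have h3 : ∑ q ∈ Finset.univ.filter (fun q : Fin n × Fin n => q.1 = q.2), f q = ∑ i, f (i, i) := by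
    refine Finset.sum_nbij' (fun q => q.1) (fun i => (i, i)) ?_ ?_ ?_ ?_ ?_
    · simp
    · simp
    · rintro ⟨a, b⟩ hq
      simp only [Finset.mem_filter, Finset.mem_univ, true_and] at hq
      simp [hq]
    · simp
    · rintro ⟨a, b⟩ hq
      simp only [Finset.mem_filter, Finset.mem_univ, true_and] at hq
      subst hq
      rfl
  rw [Finset.sum_add_distrib, ← h1, ← h2, ← h3,
    ← Finset.sum_filter_add_sum_filter_not Finset.univ (fun q : Fin n × Fin n => q.1 < q.2) f, add_assoc]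
  congr 1
  rw [← Finset.sum_filter_add_sum_filter_not
    (Finset.univ.filter (fun q : Fin n × Fin n => ¬ q.1 < q.2)) (fun q : Fin n × Fin n => q.2 < q.1) f,
    Finset.filter_filter, Finset.filter_filter]
  congr 1
  · refine Finset.sum_congr ?_ fun _ _ => rfl
    ext q
    simp only [Finset.mem_filter, Finset.mem_univ, true_and]
    constructor
    · exact fun h => h.2
    · exact fun h => ⟨not_lt.2 h.le, h⟩
  · refine Finset.sum_congr ?_ fun _ _ => rfl
    ext q
    simp only [Finset.mem_filter, Finset.mem_univ, true_and, not_lt]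
    constructor
    · exact fun h => le_antisymm h.2 h.1
    · exact fun h => ⟨h.ge, h.le⟩

/-- the symmetrised pair drivers -/
noncomputable def skBrG (n : ℕ) (ξ : SkDr n → ℝ) : SKPair n → ℝ :=
  fun p => (Real.sqrt 2)⁻¹ * (ξ (Sum.inl p.1) + ξ (Sum.inl p.1.swap))

/-- the completion: the diagonal drivers -/
noncomputable def skBrZ (n : ℕ) (β : ℝ) (ξ : SkDr n → ℝ) : ℝ :=
  β / Real.sqrt (2 * n) * ∑ i, ξ (Sum.inl (i, i))

theorem sk_br_sp_sq {n : ℕ} (σ : SkCfg n) (i : Fin n) : skSp σ i * skSp σ i = 1 := by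
  unfold skSp pmSpin
  split_ifs <;> norm_num

/-- the field of the physical revelation -/
theorem sk_br_field {n : ℕ} {β : ℝ} (hβ : 0 ≤ β) (ξ : SkDr n → ℝ) (σ : SkCfg n) :
    ((⟨0, β ^ 2, 0⟩ : SkInc).lv n).inc ξ σ
      = β / Real.sqrt n * ∑ p : SKPair n, skBrG n ξ p * pmSpin (σ p.1.1) * pmSpin (σ p.1.2) + skBrZ n β ξ := by
  unfold GhLv.inc SkInc.lv ghLvF
  simp only [Fintype.sum_sum_type, Sum.elim_inl, Sum.elim_inr, Real.sqrt_zero, zero_mul, Finset.sum_const_zero,
    add_zero, skPhi, Real.sqrt_sq hβ]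
  rw [sk_br_sum_pairs]
  have hs : Real.sqrt (2 * n) = Real.sqrt 2 * Real.sqrt n := Real.sqrt_mul (by norm_num) _
  congr 1
  · rw [Finset.mul_sum]
    refine Finset.sum_congr rfl fun p _ => ?_
    simp only [skBrG, Prod.fst_swap, Prod.snd_swap, skSp, hs]
    rw [div_eq_mul_inv, div_eq_mul_inv, div_eq_mul_inv, mul_inv]
    ring
  · unfold skBrZ
    rw [Finset.mul_sum]
    refine Finset.sum_congr rfl fun i _ => ?_
    rw [sk_br_sp_sq]
    ring

/-- **the completed free energy of `Defs/Sk` in terms of the frozen log partition function** -/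
theorem sk_br_fc {n : ℕ} {β : ℝ} (hβ : 0 ≤ β) (ξ : SkDr n → ℝ) :
    skFc n (β ^ 2) ξ = skLogPartition β n (skBrG n ξ) - n * Real.log 2 + skBrZ n β ξ := by
  unfold skFc skPhys
  simp only [skG, skF, skLvs, List.map_nil, ghF, ghF0, skBase, ghUnif, inv_one, one_mul]
  simp_rw [sk_br_field hβ, Real.exp_add]
  rw [← Finset.mul_sum, ← Finset.sum_mul]
  have hpos : 0 < ∑ σ : SkCfg n,
      Real.exp (β / Real.sqrt n * ∑ p : SKPair n, skBrG n ξ p * pmSpin (σ p.1.1) * pmSpin (σ p.1.2)) :=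
    Finset.sum_pos (fun σ _ => Real.exp_pos _) Finset.univ_nonempty
  have hcard : (Fintype.card (SkCfg n) : ℝ) = 2 ^ n := by
    simp [SkCfg]
  rw [Real.log_mul (by rw [hcard]; positivity) (by positivity), Real.log_mul hpos.ne' (Real.exp_pos _).ne',
    Real.log_exp, Real.log_inv, hcard, Real.log_pow]
  unfold skLogPartition
  ring

/-- pairing of two coordinate vectors -/
theorem sk_br_single {ι : Type} [Fintype ι] [DecidableEq ι] (x y : ι) :
    ∑ d, (Pi.single x (1 : ℝ) : ι → ℝ) d * (Pi.single y (1 : ℝ) : ι → ℝ) d = if x = y then 1 else 0 := by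
  simp only [Pi.single_apply, ite_mul, one_mul, zero_mul, Finset.sum_ite_eq', Finset.mem_univ, if_true]

theorem sk_br_single_mul {ι : Type} [Fintype ι] [DecidableEq ι] (x : ι) (ξ : ι → ℝ) :
    ∑ d, (Pi.single x (1 : ℝ) : ι → ℝ) d * ξ d = ξ x := by
  simp only [Pi.single_apply, ite_mul, one_mul, zero_mul, Finset.sum_ite_eq', Finset.mem_univ, if_true]

/-- **the joint law of the symmetrised drivers and of the completion** -/
theorem sk_br_law {n : ℕ} (hn : 1 ≤ n) (β : ℝ) :
    (ghStd (SkDr n)).map (fun ξ => (skBrG n ξ, skBrZ n β ξ))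
      = (skDisorder n).prod (gaussianReal 0 (Real.toNNReal (β ^ 2 / 2))) := by
  classical
  set a : SKPair n → SkDr n := fun p => Sum.inl p.1 with ha
  set b : SKPair n → SkDr n := fun p => Sum.inl p.1.swap with hb
  set dg : Fin n → SkDr n := fun i => Sum.inl (i, i) with hdg
  set c : ℝ := β / Real.sqrt (2 * n) with hc
  have haa : ∀ p p' : SKPair n, a p = a p' ↔ p = p' := by
    intro p p'
    simp only [ha, Sum.inl.injEq]
    exact Subtype.ext_iff.symm
  have hbb : ∀ p p' : SKPair n, b p = b p' ↔ p = p' := by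
    intro p p'
    simp only [hb, Sum.inl.injEq, Prod.swap_inj]
    exact Subtype.ext_iff.symm
  have hab : ∀ p p' : SKPair n, a p ≠ b p' := by
    intro p p' h
    simp only [ha, hb, Sum.inl.injEq] at h
    have h1 : p.1.1 = p'.1.2 := by rw [h]; rfl
    have h2 : p.1.2 = p'.1.1 := by rw [h]; rfl
    have := p.2
    have := p'.2
    omega
  have had : ∀ (p : SKPair n) (i : Fin n), a p ≠ dg i := by
    intro p i h
    simp only [ha, hdg, Sum.inl.injEq] at h
    have h1 : p.1.1 = i := by rw [h]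
    have h2 : p.1.2 = i := by rw [h]
    have := p.2
    omega
  have hbd : ∀ (p : SKPair n) (i : Fin n), b p ≠ dg i := by
    intro p i h
    simp only [hb, hdg, Sum.inl.injEq] at h
    have h1 : p.1.2 = i := by
      have := congrArg Prod.fst h
      simpa using this
    have h2 : p.1.1 = i := by
      have := congrArg Prod.snd h
      simpa using this
    have := p.2
    omega
  have hdd : ∀ i j : Fin n, dg i = dg j ↔ i = j := by
    intro i j
    simp only [hdg, Sum.inl.injEq, Prod.mk.injEq, and_self]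
  have hs2 : (Real.sqrt 2)⁻¹ * (Real.sqrt 2)⁻¹ = 1 / 2 := by
    rw [← mul_inv, Real.mul_self_sqrt (by norm_num)]
    norm_num
  have key := sk_br_map2 (ι := SkDr n) (κ := SKPair n)
    (fun p d => (Real.sqrt 2)⁻¹ * ((Pi.single (a p) (1 : ℝ) : SkDr n → ℝ) d + (Pi.single (b p) (1 : ℝ) : SkDr n → ℝ) d))
    (fun d => c * ∑ i, (Pi.single (dg i) (1 : ℝ) : SkDr n → ℝ) d)
    (fun _ => 1) (Real.toNNReal (β ^ 2 / 2))
    (by
      intro p p'
      have e : ∀ d : SkDr n,
          (Real.sqrt 2)⁻¹ * ((Pi.single (a p) (1 : ℝ) : SkDr n → ℝ) d + (Pi.single (b p) (1 : ℝ) : SkDr n → ℝ) d)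
            * ((Real.sqrt 2)⁻¹ * ((Pi.single (a p') (1 : ℝ) : SkDr n → ℝ) d + (Pi.single (b p') (1 : ℝ) : SkDr n → ℝ) d))
          = 1 / 2 * ((Pi.single (a p) (1 : ℝ) : SkDr n → ℝ) d * (Pi.single (a p') (1 : ℝ) : SkDr n → ℝ) d
            + (Pi.single (a p) (1 : ℝ) : SkDr n → ℝ) d * (Pi.single (b p') (1 : ℝ) : SkDr n → ℝ) d
            + (Pi.single (b p) (1 : ℝ) : SkDr n → ℝ) d * (Pi.single (a p') (1 : ℝ) : SkDr n → ℝ) d
            + (Pi.single (b p) (1 : ℝ) : SkDr n → ℝ) d * (Pi.single (b p') (1 : ℝ) : SkDr n → ℝ) d) := by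
        intro d
        rw [← hs2]
        ring
      simp_rw [e]
      rw [← Finset.mul_sum, Finset.sum_add_distrib, Finset.sum_add_distrib, Finset.sum_add_distrib,
        sk_br_single, sk_br_single, sk_br_single, sk_br_single, if_neg (hab p p'), if_neg (hab p' p).symm]
      by_cases hpp : p = p'
      · rw [if_pos ((haa p p').2 hpp), if_pos ((hbb p p').2 hpp), if_pos hpp]
        norm_num
      · rw [if_neg (fun h => hpp ((haa p p').1 h)), if_neg (fun h => hpp ((hbb p p').1 h)), if_neg hpp]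
        norm_num)
    (by
      intro p
      have e : ∀ d : SkDr n,
          (Real.sqrt 2)⁻¹ * ((Pi.single (a p) (1 : ℝ) : SkDr n → ℝ) d + (Pi.single (b p) (1 : ℝ) : SkDr n → ℝ) d)
            * (c * ∑ i, (Pi.single (dg i) (1 : ℝ) : SkDr n → ℝ) d)
          = (Real.sqrt 2)⁻¹ * c * (∑ i, ((Pi.single (a p) (1 : ℝ) : SkDr n → ℝ) d * (Pi.single (dg i) (1 : ℝ) : SkDr n → ℝ) d
            + (Pi.single (b p) (1 : ℝ) : SkDr n → ℝ) d * (Pi.single (dg i) (1 : ℝ) : SkDr n → ℝ) d)) := by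
        intro d
        rw [Finset.sum_add_distrib, ← Finset.mul_sum, ← Finset.mul_sum]
        ring
      simp_rw [e]
      rw [← Finset.mul_sum, Finset.sum_comm]
      simp_rw [Finset.sum_add_distrib, sk_br_single, if_neg (had p _), if_neg (hbd p _)]
      simp)
    (by
      have e : ∀ d : SkDr n, c * (∑ i, (Pi.single (dg i) (1 : ℝ) : SkDr n → ℝ) d)
            * (c * ∑ i, (Pi.single (dg i) (1 : ℝ) : SkDr n → ℝ) d)
          = c ^ 2 * ∑ i, ∑ j, (Pi.single (dg i) (1 : ℝ) : SkDr n → ℝ) d * (Pi.single (dg j) (1 : ℝ) : SkDr n → ℝ) d := by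
        intro d
        rw [← Finset.sum_mul_sum]
        ring
      simp_rw [e]
      rw [← Finset.mul_sum, Finset.sum_comm]
      have e2 : ∀ i : Fin n, ∑ d : SkDr n, ∑ j, (Pi.single (dg i) (1 : ℝ) : SkDr n → ℝ) d * (Pi.single (dg j) (1 : ℝ) : SkDr n → ℝ) d
          = 1 := by
        intro i
        rw [Finset.sum_comm]
        simp_rw [sk_br_single, hdd]
        simp
      simp_rw [e2]
      have hn0 : (0 : ℝ) < n := by exact_mod_cast hn
      rw [Real.coe_toNNReal _ (by positivity), hc, div_pow, Real.sq_sqrt (by positivity)]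
      simp only [Finset.sum_const, Finset.card_univ, Fintype.card_fin, nsmul_eq_mul, mul_one]
      field_simp)
  have hfun : (fun ξ : SkDr n → ℝ => (skBrG n ξ, skBrZ n β ξ))
      = fun ξ => ((fun p => ∑ d, (Real.sqrt 2)⁻¹ * ((Pi.single (a p) (1 : ℝ) : SkDr n → ℝ) d
          + (Pi.single (b p) (1 : ℝ) : SkDr n → ℝ) d) * ξ d),
        ∑ d, c * (∑ i, (Pi.single (dg i) (1 : ℝ) : SkDr n → ℝ) d) * ξ d) := by
    funext ξ
    refine Prod.ext ?_ ?_
    · funext p
      simp only [skBrG]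
      have e : ∀ d : SkDr n, (Real.sqrt 2)⁻¹ * ((Pi.single (a p) (1 : ℝ) : SkDr n → ℝ) d
          + (Pi.single (b p) (1 : ℝ) : SkDr n → ℝ) d) * ξ d
          = (Real.sqrt 2)⁻¹ * ((Pi.single (a p) (1 : ℝ) : SkDr n → ℝ) d * ξ d
            + (Pi.single (b p) (1 : ℝ) : SkDr n → ℝ) d * ξ d) := fun d => by ring
      simp_rw [e]
      rw [← Finset.mul_sum, Finset.sum_add_distrib, sk_br_single_mul, sk_br_single_mul]
    · simp only [skBrZ]
      have e : ∀ d : SkDr n, c * (∑ i, (Pi.single (dg i) (1 : ℝ) : SkDr n → ℝ) d) * ξ d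
          = c * ∑ i, (Pi.single (dg i) (1 : ℝ) : SkDr n → ℝ) d * ξ d := by
        intro d
        rw [mul_assoc, Finset.sum_mul]
      simp_rw [e]
      rw [← Finset.mul_sum, Finset.sum_comm]
      simp_rw [sk_br_single_mul]
      rfl
  rw [hfun, key]
  rfl

theorem sk_br_measG (n : ℕ) : Measurable (skBrG n) := by
  unfold skBrG; fun_prop

theorem sk_br_measZ (n : ℕ) (β : ℝ) : Measurable (skBrZ n β) := by
  unfold skBrZ; fun_prop

/-- the completed disorder -/
noncomputable def skBrC (β : ℝ) (n : ℕ) : Measure ((SKPair n → ℝ) × ℝ) :=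
  (skDisorder n).prod (gaussianReal 0 (Real.toNNReal (β ^ 2 / 2)))

instance sk_br_probC (β : ℝ) (n : ℕ) : IsProbabilityMeasure (skBrC β n) := by
  unfold skBrC; infer_instance

/-- **law of the completed free energy of `Defs/Sk`** -/
theorem sk_br_fc_law {n : ℕ} (hn : 1 ≤ n) {β : ℝ} (hβ : 0 ≤ β) :
    (ghStd (SkDr n)).map (skFc n (β ^ 2))
      = (skBrC β n).map fun w => skLogPartition β n w.1 - n * Real.log 2 + w.2 := by
  have hm : Measurable fun w : (SKPair n → ℝ) × ℝ => skLogPartition β n w.1 - n * Real.log 2 + w.2 :=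
    (((sk_top_meas β n).comp measurable_fst).sub_const _).add measurable_snd
  unfold skBrC
  rw [← sk_br_law hn β, Measure.map_map hm ((sk_br_measG n).prodMk (sk_br_measZ n β))]
  congr 1
  funext ξ
  exact sk_br_fc hβ ξ

theorem sk_br_measFc {n : ℕ} {β : ℝ} (hβ : 0 ≤ β) : Measurable (skFc n (β ^ 2)) := by
  have : skFc n (β ^ 2) = fun ξ => skLogPartition β n (skBrG n ξ) - n * Real.log 2 + skBrZ n β ξ := by
    funext ξ; exact sk_br_fc hβ ξ
  rw [this]
  exact (((sk_top_meas β n).comp (sk_br_measG n)).sub_const _).add (sk_br_measZ n β)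

/-- transfer of integrals -/
theorem sk_br_integral {n : ℕ} (hn : 1 ≤ n) {β : ℝ} (hβ : 0 ≤ β) (f : ℝ → ℝ) (hf : Measurable f) :
    ∫ ξ, f (skFc n (β ^ 2) ξ) ∂ghStd (SkDr n)
      = ∫ w, f (skLogPartition β n w.1 - n * Real.log 2 + w.2) ∂skBrC β n := by
  have hm : Measurable fun w : (SKPair n → ℝ) × ℝ => skLogPartition β n w.1 - n * Real.log 2 + w.2 :=
    (((sk_top_meas β n).comp measurable_fst).sub_const _).add measurable_snd
  rw [← integral_map (sk_br_measFc hβ).aemeasurable hf.aestronglyMeasurable, sk_br_fc_law hn hβ,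
    integral_map hm.aemeasurable hf.aestronglyMeasurable]

theorem sk_br_integrable_iff {n : ℕ} (hn : 1 ≤ n) {β : ℝ} (hβ : 0 ≤ β) (f : ℝ → ℝ) (hf : Measurable f) :
    Integrable (fun ξ => f (skFc n (β ^ 2) ξ)) (ghStd (SkDr n))
      ↔ Integrable (fun w => f (skLogPartition β n w.1 - n * Real.log 2 + w.2)) (skBrC β n) := by
  have hm : Measurable fun w : (SKPair n → ℝ) × ℝ => skLogPartition β n w.1 - n * Real.log 2 + w.2 :=
    (((sk_top_meas β n).comp measurable_fst).sub_const _).add measurable_snd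
  have h1 := integrable_map_measure (μ := ghStd (SkDr n)) (f := skFc n (β ^ 2)) (g := f)
    hf.aestronglyMeasurable (sk_br_measFc hβ).aemeasurable
  have h2 := integrable_map_measure (μ := skBrC β n)
    (f := fun w : (SKPair n → ℝ) × ℝ => skLogPartition β n w.1 - n * Real.log 2 + w.2) (g := f)
    hf.aestronglyMeasurable hm.aemeasurable
  rw [sk_br_fc_law hn hβ] at h1
  exact h1.symm.trans h2

/-- the mean of the completed free energy -/
theorem sk_br_mean {n : ℕ} (hn : 1 ≤ n) {β : ℝ} (hβ : 0 ≤ β) :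
    ∫ ξ, skFc n (β ^ 2) ξ ∂ghStd (SkDr n) = ∫ g, skLogPartition β n g ∂skDisorder n - n * Real.log 2 := by
  have h := sk_br_integral hn hβ id measurable_id
  simp only [id] at h
  rw [h]
  unfold skBrC
  have i1 : Integrable (fun w : (SKPair n → ℝ) × ℝ => skLogPartition β n w.1 - n * Real.log 2)
      ((skDisorder n).prod (gaussianReal 0 (Real.toNNReal (β ^ 2 / 2)))) :=
    ((sk_fix_integrable β n).comp_fst _).sub (integrable_const _)
  have i2 : Integrable (fun w : (SKPair n → ℝ) × ℝ => w.2)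
      ((skDisorder n).prod (gaussianReal 0 (Real.toNNReal (β ^ 2 / 2)))) :=
    Integrable.comp_snd (f := fun x : ℝ => x)
      ((memLp_id_gaussianReal (μ := 0) (v := Real.toNNReal (β ^ 2 / 2)) 1).integrable le_rfl) _
  rw [integral_add i1 i2, integral_sub ((sk_fix_integrable β n).comp_fst _) (integrable_const _)]
  have e1 : ∫ w : (SKPair n → ℝ) × ℝ, skLogPartition β n w.1
      ∂((skDisorder n).prod (gaussianReal 0 (Real.toNNReal (β ^ 2 / 2)))) = ∫ g, skLogPartition β n g ∂skDisorder n := by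
    rw [integral_fun_fst]
    simp
  have e2 : ∫ w : (SKPair n → ℝ) × ℝ, w.2
      ∂((skDisorder n).prod (gaussianReal 0 (Real.toNNReal (β ^ 2 / 2)))) = 0 := by
    rw [integral_fun_snd (f := fun x : ℝ => x)]
    simp
  rw [e1, e2]
  simp

theorem sk_br_int_exp_cen (β : ℝ) (n : ℕ) (t : ℝ) :
    Integrable (fun g => Real.exp (t * skCen β n g)) (skDisorder n) := by
  have hc : Continuous fun g => Real.exp (t * skCen β n g) := by
    have := sk_fix_continuous β n
    unfold skCen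
    fun_prop
  refine ((sk_fix_exp β n |t|).const_mul
    (Real.exp (|t| * |∫ h, skLogPartition β n h ∂skDisorder n|))).mono' hc.aestronglyMeasurable
    (Filter.Eventually.of_forall fun g => ?_)
  rw [Real.norm_eq_abs, abs_of_pos (Real.exp_pos _), ← Real.exp_add]
  apply Real.exp_le_exp.2
  unfold skCen
  calc t * (skLogPartition β n g - ∫ h, skLogPartition β n h ∂skDisorder n)
      ≤ |t * (skLogPartition β n g - ∫ h, skLogPartition β n h ∂skDisorder n)| := le_abs_self _
    _ = |t| * |skLogPartition β n g - ∫ h, skLogPartition β n h ∂skDisorder n| := abs_mul _ _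
    _ ≤ |t| * (|skLogPartition β n g| + |∫ h, skLogPartition β n h ∂skDisorder n|) := by
        gcongr
        exact abs_sub _ _
    _ = _ := by ring

/-- the Laplace transform of the centred completed free energy factorises -/
theorem sk_br_laplace {n : ℕ} (hn : 1 ≤ n) {β : ℝ} (hβ : 0 ≤ β) (t : ℝ) :
    Integrable (fun ξ => Real.exp (t * (skFc n (β ^ 2) ξ - ∫ η, skFc n (β ^ 2) η ∂ghStd (SkDr n)))) (ghStd (SkDr n)) ∧
    ∫ ξ, Real.exp (t * (skFc n (β ^ 2) ξ - ∫ η, skFc n (β ^ 2) η ∂ghStd (SkDr n))) ∂ghStd (SkDr n)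
      = (∫ g, Real.exp (t * skCen β n g) ∂skDisorder n) * Real.exp (t ^ 2 * β ^ 2 / 4) := by
  set m : ℝ := ∫ η, skFc n (β ^ 2) η ∂ghStd (SkDr n) with hm
  have hmeas : Measurable fun y : ℝ => Real.exp (t * (y - m)) := by fun_prop
  have hpt : ∀ w : (SKPair n → ℝ) × ℝ,
      Real.exp (t * (skLogPartition β n w.1 - n * Real.log 2 + w.2 - m))
        = Real.exp (t * skCen β n w.1) * Real.exp (t * w.2) := by
    intro w
    rw [← Real.exp_add, hm, sk_br_mean hn hβ]
    unfold skCen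
    congr 1
    ring
  have hg : Integrable (fun z : ℝ => Real.exp (t * z)) (gaussianReal 0 (Real.toNNReal (β ^ 2 / 2))) :=
    integrable_exp_mul_gaussianReal t
  constructor
  · rw [sk_br_integrable_iff hn hβ _ hmeas]
    simp_rw [hpt]
    unfold skBrC
    exact (sk_br_int_exp_cen β n t).mul_prod hg
  · rw [sk_br_integral hn hβ _ hmeas]
    simp_rw [hpt]
    unfold skBrC
    rw [integral_prod_mul (fun g => Real.exp (t * skCen β n g)) (fun z : ℝ => Real.exp (t * z))]
    congr 1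
    have := congrFun (mgf_id_gaussianReal (μ := 0) (v := Real.toNNReal (β ^ 2 / 2))) t
    simp only [mgf, id] at this
    rw [this, Real.coe_toNNReal _ (by positivity)]
    congr 1
    ring

/-- **log Laplace transform of the completed free energy** -/
theorem sk_br_log_laplace {n : ℕ} (hn : 1 ≤ n) {β : ℝ} (hβ : 0 ≤ β) (t : ℝ) :
    Real.log (∫ ξ, Real.exp (t * (skFc n (β ^ 2) ξ - ∫ η, skFc n (β ^ 2) η ∂ghStd (SkDr n))) ∂ghStd (SkDr n))
      = Real.log (∫ g, Real.exp (t * skCen β n g) ∂skDisorder n) + t ^ 2 * β ^ 2 / 4 := by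
  rw [(sk_br_laplace hn hβ t).2, Real.log_mul _ (Real.exp_pos _).ne', Real.log_exp]
  exact (integral_exp_pos (sk_br_int_exp_cen β n t)).ne'

/-- in the vocabulary of `Top/Lam` -/
theorem sk_br_lam {n : ℕ} (hn : 1 ≤ n) {β : ℝ} (hβ : 0 ≤ β) (t : ℝ) :
    skLam β n t = Real.log (∫ ξ, Real.exp (t * (n : ℝ) ^ (-(1 / 6 : ℝ)) *
      (skFc n (β ^ 2) ξ - ∫ η, skFc n (β ^ 2) η ∂ghStd (SkDr n))) ∂ghStd (SkDr n)) := by
  rw [sk_br_log_laplace hn hβ]
  unfold skLam
  congr 1
  have hn0 : (0 : ℝ) < n := by exact_mod_cast hn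
  have : ((n : ℝ) ^ (-(1 / 6 : ℝ))) ^ 2 = (n : ℝ) ^ (-(1 / 3 : ℝ)) := by
    rw [← Real.rpow_natCast, ← Real.rpow_mul hn0.le]
    norm_num
  rw [mul_pow, this]

/-- the level does not see the mass in its increments -/
theorem sk_br_inc_mass (n : ℕ) (e : SkInc) (s : ℝ) (ξ : SkDr n → ℝ) :
    ((⟨s, e.db, e.dh⟩ : SkInc).lv n).inc ξ = (e.lv n).inc ξ := rfl

/-- **LL (A4)** for a step path whose first revelation sits at mass `0`:
`K_n(s) = s n ψ_n(s) = log E exp(s (G_n - E G_n))` -/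
theorem sk_br_A4 {n : ℕ} (hn : 1 ≤ n) (a : ℝ) {s : ℝ} (hs : s ≠ 0) (e : SkInc) (he : e.m = 0) (P : SkStp)
    (hi : Integrable (fun ξ => Real.exp (s * skG n a (e :: P) ξ)) (ghStd (SkDr n))) :
    skKK n a s (e :: P) = Real.log (∫ ξ, Real.exp (s * (skG n a (e :: P) ξ
      - ∫ η, skG n a (e :: P) η ∂ghStd (SkDr n))) ∂ghStd (SkDr n)) := by
  have hn0 : (n : ℝ) ≠ 0 := by
    have : (0 : ℝ) < n := by exact_mod_cast hn
    exact this.ne'
  set m : ℝ := ∫ η, skG n a (e :: P) η ∂ghStd (SkDr n) with hm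
  have h0 : skF n a (e :: P) 0 = m := by
    simp only [skF, skLvs, List.map_cons, ghF, ghT, hm, skG]
    rw [if_pos (by simpa [SkInc.lv, ghLvF] using he)]
    simp only [zero_add]
  have h1 : skF n a (skTilt s (e :: P)) 0
      = s⁻¹ * Real.log (∫ ξ, Real.exp (s * skG n a (e :: P) ξ) ∂ghStd (SkDr n)) := by
    simp only [skTilt, skF, skLvs, List.map_cons, ghF, ghT, skG]
    rw [if_neg (by simpa [SkInc.lv, ghLvF] using hs)]
    simp only [zero_add, sk_br_inc_mass]
    rfl
  have htot : skTotB (skTilt s (e :: P)) = skTotB (e :: P) ∧ skTotH (skTilt s (e :: P)) = skTotH (e :: P) := by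
    simp [skTilt, skTotB, skTotH]
  have hsplit : ∀ ξ, Real.exp (s * (skG n a (e :: P) ξ - m)) = Real.exp (-(s * m)) * Real.exp (s * skG n a (e :: P) ξ) := by
    intro ξ
    rw [← Real.exp_add]
    congr 1
    ring
  simp_rw [hsplit]
  rw [integral_const_mul, Real.log_mul (Real.exp_pos _).ne' (integral_exp_pos hi).ne', Real.log_exp]
  unfold skKK skPsi skPr
  rw [h0, h1, htot.1, htot.2]
  field_simp
  ring

/-- the bare path with terminal mass `ℓ`: one matrix revelation `T / ℓ²` at mass `0` -/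
noncomputable def skBare (T ℓ : ℝ) : SkStp := [⟨0, T / ℓ ^ 2, 0⟩]

/-- scaling of the bare path: `G = F^c / ℓ` -/
theorem sk_br_bare_G (n : ℕ) {T ℓ : ℝ} (hℓ : 0 < ℓ) (ξ : SkDr n → ℝ) :
    skG n ℓ (skBare T ℓ) ξ = skFc n T ξ / ℓ := by
  have hz : ∀ σ : SkCfg n, ℓ * ((⟨0, T / ℓ ^ 2, 0⟩ : SkInc).lv n).inc ξ σ = ((⟨0, T, 0⟩ : SkInc).lv n).inc ξ σ := by
    intro σ
    unfold GhLv.inc SkInc.lv ghLvF
    simp only [Fintype.sum_sum_type, Sum.elim_inl, Sum.elim_inr, Real.sqrt_zero, zero_mul, Finset.sum_const_zero,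
      add_zero]
    rw [Finset.mul_sum]
    refine Finset.sum_congr rfl fun q _ => ?_
    rw [Real.sqrt_div' _ (by positivity), Real.sqrt_sq hℓ.le]
    field_simp
  unfold skFc skPhys skBare
  simp only [skG, skF, skLvs, List.map_nil, ghF, ghF0, skBase, ghUnif, inv_one, one_mul, hz]
  rw [div_eq_inv_mul]

/-- **the transform of the bare path is the transform of the frozen model** (LL l.345-352) -/
theorem sk_br_bare {n : ℕ} (hn : 1 ≤ n) {β : ℝ} (hβ : 0 ≤ β) {ℓ s : ℝ} (hℓ : 0 < ℓ) (hs : s ≠ 0) :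
    skKK n ℓ s (skBare (β ^ 2) ℓ) = skLam β n (s / ℓ * (n : ℝ) ^ (1 / 6 : ℝ)) := by
  have hn0 : (0 : ℝ) < n := by exact_mod_cast hn
  have hG : skG n ℓ (skBare (β ^ 2) ℓ) = fun ξ => skFc n (β ^ 2) ξ / ℓ := by
    funext ξ; exact sk_br_bare_G n hℓ ξ
  have hmean : ∫ η, skFc n (β ^ 2) η / ℓ ∂ghStd (SkDr n) = (∫ η, skFc n (β ^ 2) η ∂ghStd (SkDr n)) / ℓ :=
    integral_div _ _
  have hi : Integrable (fun ξ => Real.exp (s * skG n ℓ (skBare (β ^ 2) ℓ) ξ)) (ghStd (SkDr n)) := by
    have h1 := ((sk_br_laplace hn hβ (s / ℓ)).1).const_mul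
      (Real.exp (s / ℓ * ∫ η, skFc n (β ^ 2) η ∂ghStd (SkDr n)))
    refine h1.congr (Filter.Eventually.of_forall fun ξ => ?_)
    simp only [hG]
    rw [← Real.exp_add]
    congr 1
    field_simp
    ring
  unfold skBare at hi hG ⊢
  rw [sk_br_A4 hn ℓ hs _ rfl _ hi, sk_br_lam hn hβ, hG, hmean]
  congr 2
  funext ξ
  congr 1
  have : (n : ℝ) ^ (1 / 6 : ℝ) * (n : ℝ) ^ (-(1 / 6 : ℝ)) = 1 := by
    rw [← Real.rpow_add hn0]
    norm_num
  calc s * (skFc n (β ^ 2) ξ / ℓ - (∫ η, skFc n (β ^ 2) η ∂ghStd (SkDr n)) / ℓ)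
      = s / ℓ * ((n : ℝ) ^ (1 / 6 : ℝ) * (n : ℝ) ^ (-(1 / 6 : ℝ)))
          * (skFc n (β ^ 2) ξ - ∫ η, skFc n (β ^ 2) η ∂ghStd (SkDr n)) := by
        rw [this]
        field_simp
    _ = _ := by ring

/-- the form used at the two ends of a dyad comparison: `ℓ = (N'/N)^(1/6)`, `x = N^(-1/6)` -/
theorem sk_br_bare_dyad {N N' : ℕ} (hN : 1 ≤ N) (hN' : 1 ≤ N') {β : ℝ} (hβ : 0 ≤ β) {s : ℝ} (hs : s ≠ 0) :
    skKK N' (((N' : ℝ) / N) ^ (1 / 6 : ℝ)) s (skBare (β ^ 2) (((N' : ℝ) / N) ^ (1 / 6 : ℝ)))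
      = skLam β N' (s / skX N) := by
  have hN0 : (0 : ℝ) < N := by exact_mod_cast hN
  have hN'0 : (0 : ℝ) < N' := by exact_mod_cast hN'
  rw [sk_br_bare hN' hβ (Real.rpow_pos_of_pos (by positivity) _) hs]
  congr 1
  unfold skX
  rw [Real.div_rpow hN'0.le hN0.le, Real.rpow_neg hN0.le]
  have h1 : 0 < (N' : ℝ) ^ (1 / 6 : ℝ) := Real.rpow_pos_of_pos hN'0 _
  have h2 : 0 < (N : ℝ) ^ (1 / 6 : ℝ) := Real.rpow_pos_of_pos hN0 _
  field_simp

theorem sk_br_eqns_cite : True := by
  have := @skBrG.eq_1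
  have := @skBrZ.eq_1
  have := @skBrC.eq_1
  have := @skBare.eq_1
  trivial

end sk

end Claimed.Agent.R286
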