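import Claimed.Agent.R286.LL04.Defs
import Claimed.Agent.R286.LL04.Bridge
import Claimed.Agent.R286.Brg.Step
import Claimed.Agent.R286.Exit.ClkPr

/-!
# Row 286 (S0533), unit LL04, file Bare: THE SUPPLIES (BARE) AND (A1-Lip) AT `pres = skCPr`      (helper245; prefix `ll04_bare_`, `ll04_a1_`)      0 sorry here

`Ll04Bare 𝔹 β` for EVERY base `𝔹 : LlBase` whose pressure is the pressure of clocks `skCPr` of `Defs/Clk` (in particular the concrete world of LL/PathsBase).
Paper: 04-reduction.tex l.307-314 / l.345-352.      TEX[LL:red:prop-dyadic]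
Proof: the bare clocks `(β²/ℓ², 0)` and the tilted clocks `(β²/ℓ² 1_{s ≤ v}, 0)` are the clocks of the step paths `skBare (β²) ℓ`, `skTilt s (skBare (β²) ℓ)` on `[0,ℓ]`;
a step clock is reached exactly (`sk_stp_pr`, `sk_stp_cpr_congr` of Brg/Step, helper256); then `sk_br_bare` (LL04/Bridge).
-/

set_option autoImplicit false

namespace Claimed.Agent.R286

open MeasureTheory Set

/-- the pressure of the bare clocks -/
theorem ll04_bare_pr0 (m : ℕ) {T ell : ℝ} (hT : 0 ≤ T) (hell : 0 < ell) :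
    skCPr m ell (fun _ => T / ell ^ 2) (fun _ => 0) = skPr m ell (skBare T ell) := by
  have hadm : SkAdm ell (skBare T ell) := by
    refine ⟨by simp [skBare], fun e he => ?_⟩
    have he' : e = ⟨0, T / ell ^ 2, 0⟩ := by simpa [skBare] using he
    subst he'
    exact ⟨le_rfl, hell.le, by positivity, le_rfl⟩
  rw [← (sk_stp_pr m hell hadm).1]
  refine sk_stp_cpr_congr m hell.le (fun u hu => ?_) fun u hu => ?_
  · simp [skClkB, skBare, hu.1]
  · simp [skClkH, skBare, hu.1]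

/-- the pressure of the tilted bare clocks -/
theorem ll04_bare_pr1 (m : ℕ) {T ell s : ℝ} (hT : 0 ≤ T) (hell : 0 < ell) (hs : 0 ≤ s) (hsl : s ≤ ell) :
    skCPr m ell (fun v => if s ≤ v then T / ell ^ 2 else 0) (fun _ => 0) = skPr m ell (skTilt s (skBare T ell)) := by
  have hadm : SkAdm ell (skTilt s (skBare T ell)) := by
    refine ⟨by simp [skBare, skTilt], fun e he => ?_⟩
    have he' : e = ⟨s, T / ell ^ 2, 0⟩ := by simpa [skBare, skTilt] using he
    subst he'
    exact ⟨hs, hsl, by positivity, le_rfl⟩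
  rw [← (sk_stp_pr m hell hadm).1]
  refine sk_stp_cpr_congr m hell.le (fun u hu => ?_) fun u hu => ?_
  · by_cases h : s ≤ u <;> simp [skClkB, skBare, skTilt, h]
  · by_cases h : s ≤ u <;> simp [skClkH, skBare, skTilt, h]

/-- **SUPPLY (BARE)**, for every base whose pressure is `skCPr` -/
theorem ll04_bare_pf (𝔹 : LlBase) (h𝔹 : ∀ (m : ℕ) (a : ℝ) (b h : ℝ → ℝ), 𝔹.pres m a b h = skCPr m a b h) {β : ℝ} (hβ : 0 ≤ β) :
    Ll04Bare 𝔹 β := by
  intro m ell s hm hell hs hsl
  unfold LlBase.kap LlBase.psi LlBase.f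
  rw [h𝔹, h𝔹, ll04_bare_pr0 m (sq_nonneg β) hell, ll04_bare_pr1 m (sq_nonneg β) hell hs.le hsl.le,
    ← sk_br_bare hm hβ hell hs.ne']
  rfl

/-- **SUPPLY (A1-Lip)**, for every base whose pressure is `skCPr`: it is `exit_clk_pr_lip` (Exit/ClkPr, unit BRIDGE).      TEX[LL:found:estimates] -/
theorem ll04_a1_pf (𝔹 : LlBase) (h𝔹 : ∀ (m : ℕ) (a : ℝ) (b h : ℝ → ℝ), 𝔹.pres m a b h = skCPr m a b h) : Ll04A1 𝔹 := by
  intro m a b h b' h' hm ha hb hh hb' hh'
  unfold LlBase.f
  rw [h𝔹, h𝔹]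
  refine (exit_clk_pr_lip (by omega) ha ⟨hb, hh⟩ ⟨hb', hh'⟩).trans (le_of_eq ?_)
  ring

end Claimed.Agent.R286
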