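import Claimed.Agent.R286.LL04.Defs

/-!
# Row 286 (S0533), unit LL04, file AsmSw: CLAMPS, RANGES, THE SWITCHES `sw0`, `sw1` of `SkPath.Ok` from (P11)      (architect helper258; proofs helper245; prefix `ll04w_`)      0 sorry

`LlP11 𝔹 F` (LL/PathsDefs) is applied at the smoothed point `p = ll04Siz F N Θ γ θ`, `θ ∈ {0, Θ}`, `Θ = log (N'/N)`, with `g0 = p.gam0`, `gu = p.gu`: then `ps = p` and `pd = ll04Dir F N ℓ 2 γ 1`.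
-/

set_option autoImplicit false

namespace Claimed.Agent.R286

open MeasureTheory Set

theorem ll04w_cl_mem (y : ℝ) : ll04Cl y ∈ Icc (1 / 3 : ℝ) (2 / 3) := by
  unfold ll04Cl
  refine ⟨le_max_left _ _, max_le (by norm_num) (min_le_left _ _)⟩

theorem ll04w_U_mem {R : ℝ} (hR : 0 ≤ R) (t : ℝ) : ll04U R t ∈ Icc (0 : ℝ) R := by
  unfold ll04U
  exact ⟨le_max_left _ _, max_le hR (min_le_left _ _)⟩

theorem ll04w_U_of_mem {R t : ℝ} (ht : t ∈ Icc (0 : ℝ) R) : ll04U R t = t := by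
  unfold ll04U
  rw [min_eq_right ht.2, max_eq_right ht.1]

/-- `Θ = log (N'/N) ∈ [0, log 2]` -/
theorem ll04w_theta {N N' : ℕ} (hN : 1 ≤ N) (h1 : N ≤ N') (h2 : N' ≤ 2 * N) : Real.log ((N' : ℝ) / N) ∈ Icc (0 : ℝ) (Real.log 2) := by
  have hN0 : (0 : ℝ) < N := by exact_mod_cast hN
  have h1' : (N : ℝ) ≤ N' := by exact_mod_cast h1
  have h2' : (N' : ℝ) ≤ 2 * N := by exact_mod_cast h2
  have h3 : 1 ≤ (N' : ℝ) / N := by rw [le_div_iff₀ hN0]; linarith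
  have h4 : (N' : ℝ) / N ≤ 2 := by rw [div_le_iff₀ hN0]; linarith
  exact ⟨Real.log_nonneg h3, Real.log_le_log (by linarith) h4⟩

theorem ll04w_exp_mem {θ : ℝ} (hθ : θ ∈ Icc (0 : ℝ) (Real.log 2)) : Real.exp (θ / 6) ∈ Icc (1 : ℝ) ((2 : ℝ) ^ (1 / 6 : ℝ)) := by
  refine ⟨Real.one_le_exp (by linarith [hθ.1]), ?_⟩
  rw [Real.rpow_def_of_pos (by norm_num : (0 : ℝ) < 2)]
  exact Real.exp_le_exp.2 (by linarith [hθ.2])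

/-- `ℓ ∈ [1, 2^(1/6)]` at both ends -/
theorem ll04w_ell {N N' : ℕ} (hN : 1 ≤ N) (h1 : N ≤ N') (h2 : N' ≤ 2 * N) (e : Fin 2) : ll04Ell N N' e ∈ Icc (1 : ℝ) ((2 : ℝ) ^ (1 / 6 : ℝ)) := by
  unfold ll04Ell
  split_ifs
  · exact ⟨le_rfl, Real.one_le_rpow (by norm_num) (by norm_num)⟩
  · exact ll04w_exp_mem (ll04w_theta hN h1 h2)

theorem ll04w_x_mem {N : ℕ} (hN : 1 ≤ N) : skX N ∈ Ioc (0 : ℝ) 1 := by
  have hN0 : (1 : ℝ) ≤ N := by exact_mod_cast hN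
  unfold skX
  exact ⟨Real.rpow_pos_of_pos (by linarith) _, Real.rpow_le_one_of_one_le_of_nonpos hN0 (by norm_num)⟩

/-- the points of the size segment are admissible parameters -/
theorem ll04w_ok (F : LlFix) (hp : F.pS ≤ 12) {N : ℕ} (hN : 2 ≤ N) {Θ : ℝ} (hΘ : Θ ∈ Icc (0 : ℝ) (Real.log 2)) (γ : Fin (N + 1) → ℝ) (θ : ℝ) :
    (ll04Siz F N Θ γ θ).Ok F := by
  have hU := ll04w_U_mem hΘ.1 θ
  have hE := ll04w_exp_mem (θ := ll04U Θ θ) ⟨hU.1, hU.2.trans hΘ.2⟩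
  have hx := ll04w_x_mem (N := N) (by omega)
  have hcl : ∀ y, ll04Cl y ∈ Icc (-4 : ℝ) 4 := fun y =>
    ⟨by linarith [(ll04w_cl_mem y).1], by linarith [(ll04w_cl_mem y).2]⟩
  refine ⟨hN, hE.1, hE.2, ?_, le_rfl, hcl _, fun h => ?_, ⟨zero_le_one, le_rfl⟩, ⟨le_rfl, zero_le_one⟩, fun _ => ⟨rfl, rfl⟩⟩
  · exact Real.rpow_le_rpow_of_exponent_ge hx.1 hx.2 hp
  · show (if hh : h < N then ll04Cl (γ ⟨h + 1, Nat.succ_lt_succ hh⟩) else 1 / 2) ∈ Icc (-4 : ℝ) 4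
    split_ifs
    · exact hcl _
    · constructor <;> norm_num

theorem ll04w_pt0 (F : LlFix) (N N' : ℕ) {Θ : ℝ} (hΘ : 0 ≤ Θ) (γ : Fin (N + 1) → ℝ) :
    { ll04Siz F N Θ γ 0 with sm := false } = ll04Dir F N (ll04Ell N N' 0) 2 γ 1 := by
  have h1 : ll04U Θ 0 = 0 := ll04w_U_of_mem ⟨le_rfl, hΘ⟩
  have h2 : ll04U 1 1 = 1 := ll04w_U_of_mem ⟨zero_le_one, le_rfl⟩
  simp [ll04Dir, ll04Siz, ll04Pt, ll04Ell, h1, h2]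

theorem ll04w_pt1 (F : LlFix) (N N' : ℕ) (hΘ : 0 ≤ Real.log ((N' : ℝ) / N)) (γ : Fin (N + 1) → ℝ) :
    { ll04Siz F N (Real.log ((N' : ℝ) / N)) γ (Real.log ((N' : ℝ) / N)) with sm := false } = ll04Dir F N (ll04Ell N N' 1) 2 γ 1 := by
  have h1 : ll04U (Real.log ((N' : ℝ) / N)) (Real.log ((N' : ℝ) / N)) = Real.log ((N' : ℝ) / N) := ll04w_U_of_mem ⟨hΘ, le_rfl⟩
  have h2 : ll04U 1 1 = 1 := ll04w_U_of_mem ⟨zero_le_one, le_rfl⟩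
  simp [ll04Dir, ll04Siz, ll04Pt, ll04Ell, h1, h2]

/-- (P11) at one point of the size segment -/
theorem ll04w_one (𝔹 : LlBase) (F : LlFix) (hp : F.pS ≤ 12) {C : ℝ} {N0 : ℕ}
    (h : ∀ p : LlPt, p.Ok F → N0 ≤ p.N → p.sm = true → p.chiL = 1 →
      ∃ κ : ℝ, ∀ g0 ∈ Icc (-4 : ℝ) 4, ∀ gu : ℕ → ℝ, (∀ h, gu h ∈ Icc (-4 : ℝ) 4) →
      ∀ m : ℕ, p.N ≤ 2 * m → m ≤ 3 * p.N → ∀ s ∈ Ioo 0 p.x,
        let ps : LlPt := { p with gam0 := g0, gu := gu }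
        let pd : LlPt := { p with gam0 := g0, gu := gu, sm := false }
        |ps.psi F 𝔹 m s - pd.psi F 𝔹 m s| ≤ C * p.x ^ (5 + 1 / 8 : ℝ) ∧
        |ps.fRest F 𝔹 m - pd.fRest F 𝔹 m - κ| ≤ C * p.x ^ (5 + 1 / 8 : ℝ) ∧
        |ps.trialGap F 𝔹 m - pd.trialGap F 𝔹 m| ≤ C * p.x ^ (5 + 1 / 8 : ℝ))
    {N : ℕ} (hN : 2 ≤ N) (hN0 : N0 ≤ N) {Θ : ℝ} (hΘ : Θ ∈ Icc (0 : ℝ) (Real.log 2)) (γ : Fin (N + 1) → ℝ) (θ : ℝ)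
    {s : ℝ} (hs : s ∈ Ioo (0 : ℝ) (skX N)) {m : ℕ} (h1 : N ≤ 2 * m) (h2 : m ≤ 3 * N) :
    |(ll04Siz F N Θ γ θ).psi F 𝔹 m s - ({ ll04Siz F N Θ γ θ with sm := false } : LlPt).psi F 𝔹 m s| ≤ C * skX N ^ (5 + 1 / 8 : ℝ) := by
  have hok := ll04w_ok F hp hN hΘ γ θ
  obtain ⟨κ, hκ⟩ := h (ll04Siz F N Θ γ θ) hok hN0 rfl rfl
  exact (hκ _ hok.g0 _ hok.gu m h1 h2 s hs).1

/-- **EXIT of the file** -/
theorem ll04w_main (𝔹 : LlBase) (F : LlFix) (hp : F.pS ≤ 12) (hP11 : LlP11 𝔹 F) : ∃ c C : ℝ, 0 < c ∧ ∃ N0 : ℕ, ∀ N : ℕ, N0 ≤ N → ∀ N' : ℕ, N ≤ N' → N' ≤ 2 * N →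
    ∀ s ∈ Ioo (0 : ℝ) (skX N), ∀ (γ : Fin (N + 1) → ℝ) (m : ℕ), N ≤ 2 * m → m ≤ 3 * N →
      |(ll04Path 𝔹 F N N' s).siz γ 0 m - (ll04Path 𝔹 F N N' s).dir 0 2 γ 1 m| ≤ C * skX N ^ (5 + c) ∧
      |(ll04Path 𝔹 F N N' s).siz γ (Real.log ((N' : ℝ) / N)) m - (ll04Path 𝔹 F N N' s).dir 1 2 γ 1 m| ≤ C * skX N ^ (5 + c) := by
  obtain ⟨C, N0, h⟩ := hP11
  refine ⟨1 / 8, C, by norm_num, max N0 2, fun N hN N' h1 h2 s hs γ m hm1 hm2 => ?_⟩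
  have hN2 : 2 ≤ N := le_trans (le_max_right _ _) hN
  have hN0 : N0 ≤ N := le_trans (le_max_left _ _) hN
  have hΘ := ll04w_theta (N := N) (N' := N') (by omega) h1 h2
  constructor
  · have := ll04w_one 𝔹 F hp h hN2 hN0 hΘ γ 0 hs hm1 hm2
    rw [ll04w_pt0 F N N' hΘ.1 γ] at this
    exact this
  · have := ll04w_one 𝔹 F hp h hN2 hN0 hΘ γ (Real.log ((N' : ℝ) / N)) hs hm1 hm2
    rw [ll04w_pt1 F N N' hΘ.1 γ] at this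
    exact this

end Claimed.Agent.R286
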