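import Claimed.Agent.R286.LL04.AsmLip
import Claimed.Agent.R286.LL04.AsmSw

/-!
# Row 286 (S0533), unit LL04, file AsmBare: THE BARE ENDPOINTS `bare0`, `bare1` of `SkPath.Ok`      (architect helper258; proofs helper245; prefix `ll04b_`)      0 sorry here

At `τ = 0` of the strength sweep the clocks are `(T/ℓ², 0)` up to `C x^6` in `L¹` (`Ll04End`); `ψ` is `L¹`-Lipschitz (`ll04l_psi_le`); the bare clocks give `skLam` (`Ll04Bare`).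
-/

set_option autoImplicit false

namespace Claimed.Agent.R286

open MeasureTheory Set

theorem ll04b_arg0 {N : ℕ} (hN : 1 ≤ N) (s : ℝ) : s / 1 * (N : ℝ) ^ (1 / 6 : ℝ) = s / skX N := by
  have hN0 : (0 : ℝ) < N := by exact_mod_cast hN
  unfold skX
  rw [Real.rpow_neg hN0.le, div_one, div_inv_eq_mul]

theorem ll04b_arg1 {N N' : ℕ} (hN : 1 ≤ N) (h1 : N ≤ N') (s : ℝ) : s / ll04Ell N N' 1 * (N' : ℝ) ^ (1 / 6 : ℝ) = s / skX N := by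
  have hN0 : (0 : ℝ) < N := by exact_mod_cast hN
  have hN'0 : (0 : ℝ) < N' := by exact_mod_cast (le_trans hN h1)
  have h2 : ll04Ell N N' 1 = ((N' : ℝ) / N) ^ (1 / 6 : ℝ) := by
    unfold ll04Ell
    rw [if_neg (by decide), Real.rpow_def_of_pos (by positivity)]
    congr 1
    ring
  rw [h2]
  unfold skX
  rw [Real.div_rpow hN'0.le hN0.le, Real.rpow_neg hN0.le]
  have h3 : 0 < (N' : ℝ) ^ (1 / 6 : ℝ) := Real.rpow_pos_of_pos hN'0 _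
  have h4 : 0 < (N : ℝ) ^ (1 / 6 : ℝ) := Real.rpow_pos_of_pos hN0 _
  field_simp

/-- one end, any `m` -/
theorem ll04b_end (𝔹 : LlBase) (F : LlFix) (β : ℝ) (hT : F.T = β ^ 2) (hA1 : Ll04A1 𝔹) (hBare : Ll04Bare 𝔹 β) {C : ℝ} {N : ℕ} {ell : ℝ} (hell : 1 ≤ ell)
    (hclk : Ll04ClkAt 𝔹 F C N (ll04Dir F N ell 0)) (γ : Fin (N + 1) → ℝ) {D : ℝ}
    (hend : ∫ v in (0 : ℝ)..ell, (|(ll04Dir F N ell 0 γ 0).b F 𝔹 v - F.T / ell ^ 2| + |(ll04Dir F N ell 0 γ 0).h F 𝔹 v|) ≤ D)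
    {m : ℕ} (hm : 1 ≤ m) {s : ℝ} (hs : s ∈ Ioo (0 : ℝ) 1) :
    |s * m * (ll04Dir F N ell 0 γ 0).psi F 𝔹 m s - skLam β m (s / ell * (m : ℝ) ^ (1 / 6 : ℝ))| ≤ s * m * D := by
  have hl0 : 0 < ell := by linarith
  have ha : (ll04Dir F N ell 0 γ 0).a = ell := by simp [ll04Dir, ll04Pt, LlPt.a]
  have hb := hclk.adm_b γ 0
  have hh := hclk.adm_h γ 0
  rw [ha] at hb hh
  have hc1 : GhClk1 ell (fun _ : ℝ => β ^ 2 / ell ^ 2) := ⟨fun _ _ _ _ _ => le_rfl, by positivity⟩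
  have hc2 : GhClk1 ell (fun _ : ℝ => (0 : ℝ)) := ⟨fun _ _ _ _ _ => le_rfl, le_rfl⟩
  have h1 := ll04l_psi_le 𝔹 hA1 hm hl0 s hb hh hc1 hc2
  have h2 := hBare m ell s hm hl0 hs.1 (by linarith [hs.2])
  have h3 : (ll04Dir F N ell 0 γ 0).psi F 𝔹 m s
      = 𝔹.psi m ell ((ll04Dir F N ell 0 γ 0).b F 𝔹) ((ll04Dir F N ell 0 γ 0).h F 𝔹) s := by
    unfold LlPt.psi
    rw [ha]
  have h4 : (∫ v in (0 : ℝ)..ell, (|(ll04Dir F N ell 0 γ 0).b F 𝔹 v - β ^ 2 / ell ^ 2| + |(ll04Dir F N ell 0 γ 0).h F 𝔹 v - 0|)) ≤ D := by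
    simpa [hT] using hend
  have hm0 : (0 : ℝ) < m := by exact_mod_cast hm
  rw [← h2, h3]
  unfold LlBase.kap
  rw [← mul_sub, abs_mul, abs_of_pos (mul_pos hs.1 hm0)]
  exact mul_le_mul_of_nonneg_left (h1.trans h4) (mul_pos hs.1 hm0).le

/-- **EXIT of the file** -/
theorem ll04b_main (𝔹 : LlBase) (F : LlFix) (β : ℝ) (hT : F.T = β ^ 2) (hClk : Ll04Clk 𝔹 F) (hEnd : Ll04End 𝔹 F) (hA1 : Ll04A1 𝔹) (hBare : Ll04Bare 𝔹 β) :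
    ∃ (C : ℝ) (N0 : ℕ), 0 ≤ C ∧ ∀ N : ℕ, N0 ≤ N → ∀ N' : ℕ, N ≤ N' → N' ≤ 2 * N → ∀ s ∈ Ioo (0 : ℝ) 1, ∀ γ : Fin (N + 1) → ℝ,
      |s * N * (ll04Path 𝔹 F N N' s).dir 0 0 γ 0 N - skLam β N (s / skX N)| ≤ s * N * (C * skX N ^ (6 : ℝ)) ∧
      |s * N' * (ll04Path 𝔹 F N N' s).dir 1 0 γ 0 N' - skLam β N' (s / skX N)| ≤ s * N * (C * skX N ^ (6 : ℝ)) := by
  obtain ⟨C1, N1, h1⟩ := hClk
  obtain ⟨C2, N2, h2⟩ := hEnd
  refine ⟨2 * |C2|, max (max N1 N2) 1, by positivity, fun N hN N' hNN hN2 s hs γ => ?_⟩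
  have hN1 : N1 ≤ N := le_trans (le_trans (le_max_left _ _) (le_max_left _ _)) hN
  have hN2' : N2 ≤ N := le_trans (le_trans (le_max_right _ _) (le_max_left _ _)) hN
  have hN0 : 1 ≤ N := le_trans (le_max_right _ _) hN
  have hx : 0 < skX N ^ (6 : ℝ) := Real.rpow_pos_of_pos (ll04w_x_mem hN0).1 _
  have hNr : (0 : ℝ) < N := by exact_mod_cast hN0
  have hN'r : (N' : ℝ) ≤ 2 * N := by exact_mod_cast hN2
  have hC : C2 * skX N ^ (6 : ℝ) ≤ |C2| * skX N ^ (6 : ℝ) := mul_le_mul_of_nonneg_right (le_abs_self _) hx.le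
  have key : ∀ (e : Fin 2) (m : ℕ), 1 ≤ m →
      |s * m * (ll04Dir F N (ll04Ell N N' e) 0 γ 0).psi F 𝔹 m s - skLam β m (s / ll04Ell N N' e * (m : ℝ) ^ (1 / 6 : ℝ))|
        ≤ s * m * (C2 * skX N ^ (6 : ℝ)) := fun e m hm =>
    ll04b_end 𝔹 F β hT hA1 hBare (ll04w_ell hN0 hNN hN2 e).1 ((h1 N hN1).1 _ (ll04w_ell hN0 hNN hN2 e) 0) γ
      (h2 N hN2' _ (ll04w_ell hN0 hNN hN2 e) γ) hm hs
  constructor
  · have h3 := key 0 N hN0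
    have h4 : ll04Ell N N' 0 = 1 := by simp [ll04Ell]
    rw [h4, ll04b_arg0 hN0] at h3
    have h5 : (ll04Path 𝔹 F N N' s).dir 0 0 γ 0 N = (ll04Dir F N 1 0 γ 0).psi F 𝔹 N s := by
      show (ll04Dir F N (ll04Ell N N' 0) 0 γ 0).psi F 𝔹 N s = _
      rw [h4]
    rw [h5]
    refine h3.trans (mul_le_mul_of_nonneg_left ?_ (mul_pos hs.1 hNr).le)
    nlinarith [abs_nonneg C2]
  · have h3 := key 1 N' (le_trans hN0 hNN)
    rw [ll04b_arg1 hN0 hNN] at h3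
    refine h3.trans ?_
    have h6 : 0 ≤ |C2| * skX N ^ (6 : ℝ) := by positivity
    calc s * N' * (C2 * skX N ^ (6 : ℝ)) ≤ s * N' * (|C2| * skX N ^ (6 : ℝ)) :=
          mul_le_mul_of_nonneg_left hC (mul_nonneg hs.1.le (Nat.cast_nonneg _))
      _ ≤ s * (2 * N) * (|C2| * skX N ^ (6 : ℝ)) :=
          mul_le_mul_of_nonneg_right (mul_le_mul_of_nonneg_left hN'r hs.1.le) h6
      _ = s * N * (2 * |C2| * skX N ^ (6 : ℝ)) := by ring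

end Claimed.Agent.R286
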