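import Claimed.Agent.R286.LL04.Defs

/-!
# Row 286 (S0533), unit LL04, file AsmEnv: ENVELOPE FORM ⟹ WEIGHTED FORM of LL Prop. 4.1 (2)      (architect helper258; proof helper245; prefix `ll04e_`)      0 sorry

Generic on `SkPath` (no model).   `∫∫ ∑_m W_m(θ) aS_m = ∫_θ ∑_m W_m(θ) ∫_γ aS_m ≤ ∫_θ env`.
-/

set_option autoImplicit false

namespace Claimed.Agent.R286

open MeasureTheory Set

theorem ll04e_aS_nonneg (P : SkPath) (s L : ℝ) (r : ℕ) (c : ℕ → ℝ) (m : ℕ) (p : (Fin P.k → ℝ) × ℝ) : 0 ≤ P.aS s L r c m p := by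
  unfold SkPath.aS
  split_ifs
  · exact abs_nonneg _
  · exact le_rfl

theorem ll04e_main (P : SkPath) [IsProbabilityMeasure P.μ] (N r : ℕ) (c : ℕ → ℝ) (s L Θ B : ℝ)
    (hint : ∀ m, N ≤ 2 * m → m + r ≤ 3 * N → Integrable (P.aS s L r c m) (P.μ.prod (volume.restrict (Icc (0 : ℝ) Θ))))
    (env : ℝ → ℝ) (henv : IntegrableOn env (Icc (0 : ℝ) Θ)) (hB : ∫ θ in Icc (0 : ℝ) Θ, env θ ≤ B)
    (hex : ∃ m, N ≤ 2 * m ∧ m + r ≤ 3 * N)
    (h : ∀ᵐ θ : ℝ, θ ∈ Icc (0 : ℝ) Θ → ∀ m : ℕ, N ≤ 2 * m → m + r ≤ 3 * N → ∫ γ, P.aS s L r c m (γ, θ) ∂P.μ ≤ env θ)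
    (W : ℕ → ℝ → ℝ) (hWc : ∀ m, Continuous (W m)) (hW0 : ∀ m θ, 0 ≤ W m θ) (hW1 : ∀ θ, ∑ m ∈ Finset.range (3 * N + 1), W m θ ≤ 1)
    (hWs : ∀ m θ, W m θ ≠ 0 → N ≤ 2 * m ∧ m + r ≤ 3 * N) :
    ∫ p, ∑ m ∈ Finset.range (3 * N + 1), W m p.2 * P.aS s L r c m p ∂(P.μ.prod (volume.restrict (Icc (0 : ℝ) Θ))) ≤ B := by
  set ν : Measure ℝ := volume.restrict (Icc (0 : ℝ) Θ) with hν
  -- each weight is at most one on the range
  have hWle : ∀ m ∈ Finset.range (3 * N + 1), ∀ θ, W m θ ≤ 1 := fun m hm θ =>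
    (Finset.single_le_sum (f := fun m => W m θ) (fun i _ => hW0 i θ) hm).trans (hW1 θ)
  -- integrability of the terms
  have hg : ∀ m ∈ Finset.range (3 * N + 1), Integrable (fun p : (Fin P.k → ℝ) × ℝ => W m p.2 * P.aS s L r c m p) (P.μ.prod ν) := by
    intro m hm
    by_cases hr : N ≤ 2 * m ∧ m + r ≤ 3 * N
    · refine (hint m hr.1 hr.2).bdd_mul (c := 1) ((hWc m).measurable.comp measurable_snd).aestronglyMeasurable
        (Filter.Eventually.of_forall fun p => ?_)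
      rw [Real.norm_eq_abs, abs_of_nonneg (hW0 m p.2)]
      exact hWle m hm p.2
    · have h0 : ∀ θ, W m θ = 0 := fun θ => by
        by_contra hne
        exact hr (hWs m θ hne)
      simp only [h0, zero_mul]
      exact integrable_zero _ _ _
  have hG : Integrable (fun p : (Fin P.k → ℝ) × ℝ => ∑ m ∈ Finset.range (3 * N + 1), W m p.2 * P.aS s L r c m p) (P.μ.prod ν) :=
    integrable_finsetSum _ hg
  rw [integral_prod_symm _ hG]
  refine le_trans (integral_mono_ae hG.integral_prod_right henv ?_) hB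
  have h1 : ∀ᵐ θ ∂ν, ∀ m ∈ Finset.range (3 * N + 1), Integrable (fun γ => W m θ * P.aS s L r c m (γ, θ)) P.μ :=
    (Finset.eventually_all _).2 fun m hm => (hg m hm).prod_left_ae
  have h2 : ∀ᵐ θ ∂ν, ∀ m : ℕ, N ≤ 2 * m → m + r ≤ 3 * N → ∫ γ, P.aS s L r c m (γ, θ) ∂P.μ ≤ env θ :=
    (ae_restrict_iff' measurableSet_Icc).2 h
  filter_upwards [h1, h2] with θ hθ1 hθ2
  obtain ⟨m0, hm0, hm0'⟩ := hex
  have henv0 : 0 ≤ env θ := le_trans (integral_nonneg fun γ => ll04e_aS_nonneg P s L r c m0 (γ, θ)) (hθ2 m0 hm0 hm0')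
  show ∫ γ, ∑ m ∈ Finset.range (3 * N + 1), W m θ * P.aS s L r c m (γ, θ) ∂P.μ ≤ env θ
  rw [integral_finsetSum _ hθ1]
  calc ∑ m ∈ Finset.range (3 * N + 1), ∫ γ, W m θ * P.aS s L r c m (γ, θ) ∂P.μ
      ≤ ∑ m ∈ Finset.range (3 * N + 1), W m θ * env θ := by
        refine Finset.sum_le_sum fun m _ => ?_
        rw [integral_const_mul]
        by_cases hW : W m θ = 0
        · rw [hW, zero_mul, zero_mul]
        · exact mul_le_mul_of_nonneg_left (hθ2 m (hWs m θ hW).1 (hWs m θ hW).2) (hW0 m θ)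
    _ = (∑ m ∈ Finset.range (3 * N + 1), W m θ) * env θ := by rw [Finset.sum_mul]
    _ ≤ 1 * env θ := mul_le_mul_of_nonneg_right (hW1 θ) henv0
    _ = env θ := one_mul _

end Claimed.Agent.R286
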