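import Claimed.Agent.R286.LL04.AsmLip
import Claimed.Agent.R286.LL04.AsmEnv
import Claimed.Agent.R286.LL04.AsmSw
import Claimed.Agent.R286.LL04.AsmBare
import Claimed.Agent.R286.Top.Num

/-!
# Row 286 (S0533), unit LL04, file Asm: THE ASSEMBLY `seven supplies ⟹ SkIncr β`      (architect helper258; proofs helper220; prefix `ll04a_`)

* `ll04a_prob`       the law of `γ` is a probability
* `ll04a_seg`        `ψ_m(s)` is jointly Lipschitz in `(γ, t)` along a segment with constant terminal mass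
* `ll04a_psi_abs`    `|ψ_m(s)| ≤ a b(a) / 4` for EVERY real `s`
* `ll04a_int_gen`    integrability of a stopped speed
* `ll04a_int_dir`, `ll04a_int_siz`, `ll04a_main`
-/

set_option autoImplicit false

namespace Claimed.Agent.R286

open MeasureTheory Set
open scoped ENNReal

theorem ll04a_prob (N : ℕ) : IsProbabilityMeasure (ll04Mu N) := by
  have h1 : IsProbabilityMeasure ((3 : ℝ≥0∞) • (volume : Measure ℝ).restrict (Icc (1 / 3 : ℝ) (2 / 3))) := by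
    refine ⟨?_⟩
    rw [Measure.smul_apply, Measure.restrict_apply MeasurableSet.univ, univ_inter, Real.volume_Icc, smul_eq_mul,
      show (2 / 3 : ℝ) - 1 / 3 = 1 / 3 by norm_num, show (3 : ℝ≥0∞) = ENNReal.ofReal 3 by simp, ← ENNReal.ofReal_mul (by norm_num)]
    norm_num
  unfold ll04Mu
  infer_instance

theorem ll04a_dir_a (F : LlFix) (N : ℕ) (ell : ℝ) (i : Fin 3) (γ : Fin (N + 1) → ℝ) (τ : ℝ) : (ll04Dir F N ell i γ τ).a = ell := by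
  simp [ll04Dir, ll04Pt, LlPt.a]

theorem ll04a_siz_a (F : LlFix) (N : ℕ) (Θ : ℝ) (γ : Fin (N + 1) → ℝ) (θ : ℝ) : (ll04Siz F N Θ γ θ).a = 4 := by
  simp [ll04Siz, ll04Pt, LlPt.a]

/-- `ψ` is jointly Lipschitz along a segment -/
theorem ll04a_seg (𝔹 : LlBase) (F : LlFix) (hA1 : Ll04A1 𝔹) {C : ℝ} {N : ℕ} {pt : (Fin (N + 1) → ℝ) → ℝ → LlPt} (h : Ll04ClkAt 𝔹 F C N pt)
    {a : ℝ} (ha : 0 < a) (hpa : ∀ γ t, (pt γ t).a = a) {m : ℕ} (hm : 1 ≤ m) (s : ℝ) (γ γ' : Fin (N + 1) → ℝ) (t t' : ℝ) :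
    |(pt γ t).psi F 𝔹 m s - (pt γ' t').psi F 𝔹 m s| ≤ C * skX N ^ (-(1 / 8 : ℝ)) * (|t - t'| + dist γ γ') := by
  have h1 := h.adm_b γ t
  have h2 := h.adm_h γ t
  have h3 := h.adm_b γ' t'
  have h4 := h.adm_h γ' t'
  have h5 := h.lip γ γ' t t'
  unfold ll04D at h5
  rw [hpa] at h1 h2 h3 h4 h5
  unfold LlPt.psi
  rw [hpa, hpa]
  exact (ll04l_psi_le 𝔹 hA1 hm ha s h1 h2 h3 h4).trans h5

/-- crude bound of `ψ`, every real `s` -/
theorem ll04a_psi_abs (𝔹 : LlBase) (hA1 : Ll04A1 𝔹) {m : ℕ} (hm : 1 ≤ m) {a : ℝ} (ha : 0 < a) (s : ℝ) {b h : ℝ → ℝ}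
    (hb : GhClk1 a b) (hh : GhClk1 a h) : |𝔹.psi m a b h s| ≤ a * b a / 4 := by
  have h1 := hA1 m a (fun v => if s ≤ v then b v else 0) h b h hm ha (ll04l_tilt_adm hb s) hh hb hh
  have h2 : ∫ v in (0 : ℝ)..a, |h v - h v| = 0 := by simp
  have h3 : ∫ v in (0 : ℝ)..a, |(if s ≤ v then b v else 0) - b v| ≤ a * b a := by
    have i1 : IntervalIntegrable (fun v => |(if s ≤ v then b v else 0) - b v|) volume 0 a :=
      ((ll04l_ii ha.le (ll04l_tilt_adm hb s)).sub (ll04l_ii ha.le hb)).abs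
    have := intervalIntegral.integral_mono_on ha.le i1 (intervalIntegrable_const (c := b a)) (fun v hv => by
      have hv0 := ll04l_nonneg hb hv
      have hva : b v ≤ b a := hb.1 hv ⟨ha.le, le_rfl⟩ hv.2
      split_ifs
      · rw [sub_self, abs_zero]
        exact hv0.trans hva
      · rw [zero_sub, abs_neg, abs_of_nonneg hv0]
        exact hva)
    rwa [intervalIntegral.integral_const, sub_zero, smul_eq_mul] at this
  unfold LlBase.psi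
  rw [h2] at h1
  linarith

open Classical in
/-- integrability of a stopped speed -/
theorem ll04a_int_gen {N : ℕ} (R : ℝ) (f : (Fin (N + 1) → ℝ) → ℝ → ℝ) (K : ℝ) (hf : ∀ γ γ' t t', |f γ t - f γ' t'| ≤ K * (|t - t'| + dist γ γ'))
    (A : Set ((Fin (N + 1) → ℝ) × ℝ)) (hA : MeasurableSet A) (g : (Fin (N + 1) → ℝ) × ℝ → ℝ) (hg : Measurable g) (G : ℝ) (hG : ∀ p, |g p| ≤ G) :
    Integrable (fun p => if p ∈ A then |deriv (f p.1) p.2 + g p| else 0) ((ll04Mu N).prod (volume.restrict (Icc (0 : ℝ) R))) := by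
  have := ll04a_prob N
  obtain ⟨-, -, hK, hm⟩ := ll04l_kit f K hf
  have hK0 : 0 ≤ K := (abs_nonneg _).trans (hK 0 0)
  have hG0 : 0 ≤ G := (abs_nonneg _).trans (hG (0, 0))
  refine Integrable.of_bound (Measurable.ite hA (hm.add hg).abs measurable_const).aestronglyMeasurable (K + G) (Filter.Eventually.of_forall fun p => ?_)
  rw [Real.norm_eq_abs]
  split_ifs
  · rw [abs_abs]
    exact (abs_add_le _ _).trans (add_le_add (hK _ _) (hG _))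
  · rw [abs_zero]
    exact add_nonneg hK0 hG0

theorem ll04a_int_dir (𝔹 : LlBase) (F : LlFix) (hClk : Ll04Clk 𝔹 F) (hA1 : Ll04A1 𝔹) : ∃ N0 : ℕ, ∀ N : ℕ, N0 ≤ N → ∀ N' : ℕ, N ≤ N' → N' ≤ 2 * N →
    ∀ (s L : ℝ) (e : Fin 2) (i : Fin 3) (m : ℕ), 1 ≤ m →
      Integrable ((ll04Path 𝔹 F N N' s).aD s L e i m) ((ll04Path 𝔹 F N N' s).μ.prod (volume.restrict (Icc (0 : ℝ) 1))) := by
  classical
  obtain ⟨C, N0, h⟩ := hClk
  refine ⟨max N0 1, fun N hN N' h1 h2 s L e i m hm => ?_⟩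
  have hN1 : 1 ≤ N := (le_max_right _ _).trans hN
  have hell := ll04w_ell hN1 h1 h2 e
  have hlip := ll04a_seg 𝔹 F hA1 ((h N ((le_max_left _ _).trans hN)).1 _ hell i) (a := ll04Ell N N' e) (by linarith [hell.1]) (fun γ t => ll04a_dir_a F N _ i γ t) hm s
  have hcont := (ll04l_kit (fun γ t => (ll04Dir F N (ll04Ell N N' e) i γ t).psi F 𝔹 m s) _ hlip).1
  have hA : MeasurableSet {p : (Fin (N + 1) → ℝ) × ℝ | s * m * (ll04Dir F N (ll04Ell N N' e) i p.1 p.2).psi F 𝔹 m s ≤ 3 * L} :=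
    measurableSet_le (measurable_const.mul hcont.measurable) measurable_const
  have hint := ll04a_int_gen 1 (fun γ t => (ll04Dir F N (ll04Ell N N' e) i γ t).psi F 𝔹 m s) _ hlip _ hA (fun _ => 0) measurable_const 0 (fun _ => by simp)
  have key : Integrable (fun p : (Fin (N + 1) → ℝ) × ℝ => (ll04Path 𝔹 F N N' s).aD s L e i m p) ((ll04Mu N).prod (volume.restrict (Icc (0 : ℝ) 1))) := by
    refine Integrable.congr hint (Filter.Eventually.of_forall fun (p : (Fin (N + 1) → ℝ) × ℝ) => ?_)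
    beta_reduce
    by_cases hc : s * m * (ll04Dir F N (ll04Ell N N' e) i p.1 p.2).psi F 𝔹 m s ≤ 3 * L
    · rw [if_pos (show p ∈ {p : (Fin (N + 1) → ℝ) × ℝ | s * m * (ll04Dir F N (ll04Ell N N' e) i p.1 p.2).psi F 𝔹 m s ≤ 3 * L} from hc), add_zero]
      exact (if_pos hc).symm
    · rw [if_neg (show p ∉ {p : (Fin (N + 1) → ℝ) × ℝ | s * m * (ll04Dir F N (ll04Ell N N' e) i p.1 p.2).psi F 𝔹 m s ≤ 3 * L} from hc)]
      exact (if_neg hc).symm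
  exact key

theorem ll04a_int_siz (𝔹 : LlBase) (F : LlFix) (hClk : Ll04Clk 𝔹 F) (hA1 : Ll04A1 𝔹) : ∃ N0 : ℕ, ∀ N : ℕ, N0 ≤ N → ∀ N' : ℕ, N ≤ N' → N' ≤ 2 * N →
    ∀ (s L : ℝ) (r : ℕ) (c : ℕ → ℝ) (m : ℕ), 1 ≤ m →
      Integrable ((ll04Path 𝔹 F N N' s).aS s L r c m) ((ll04Path 𝔹 F N N' s).μ.prod (volume.restrict (Icc (0 : ℝ) (Real.log ((N' : ℝ) / N))))) := by
  classical
  obtain ⟨C, N0, h⟩ := hClk
  refine ⟨max N0 1, fun N hN N' h1 h2 s L r c m hm => ?_⟩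
  have hN1 : 1 ≤ N := (le_max_right _ _).trans hN
  have hΘ := ll04w_theta hN1 h1 h2
  have hseg := (h N ((le_max_left _ _).trans hN)).2 _ hΘ
  have hlip := fun (k : ℕ) (hk : 1 ≤ k) => ll04a_seg 𝔹 F hA1 hseg (a := 4) (by norm_num) (fun γ t => ll04a_siz_a F N _ γ t) hk s
  have hcont := fun (k : ℕ) (hk : 1 ≤ k) => (ll04l_kit (fun γ t => (ll04Siz F N (Real.log ((N' : ℝ) / N)) γ t).psi F 𝔹 k s) _ (hlip k hk)).1
  have hbd : ∀ (k : ℕ), 1 ≤ k → ∀ p : (Fin (N + 1) → ℝ) × ℝ, |(ll04Siz F N (Real.log ((N' : ℝ) / N)) p.1 p.2).psi F 𝔹 k s| ≤ C * skX N ^ (-(1 / 8 : ℝ)) := by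
    intro k hk p
    have b1 := hseg.adm_b p.1 p.2
    have b2 := hseg.adm_h p.1 p.2
    have b3 := hseg.bd p.1 p.2
    rw [ll04a_siz_a] at b1 b2 b3
    have b4 := ll04a_psi_abs 𝔹 hA1 hk (a := 4) (by norm_num) s b1 b2
    have b5 : 0 ≤ (ll04Siz F N (Real.log ((N' : ℝ) / N)) p.1 p.2).h F 𝔹 4 := ll04l_nonneg b2 ⟨by norm_num, le_rfl⟩
    unfold LlPt.psi
    rw [ll04a_siz_a]
    linarith
  have hA : MeasurableSet {p : (Fin (N + 1) → ℝ) × ℝ | ∀ j ∈ Finset.range (r + 1), s * ((m + j : ℕ) : ℝ) * (ll04Siz F N (Real.log ((N' : ℝ) / N)) p.1 p.2).psi F 𝔹 (m + j) s ≤ 3 * L} := by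
    have e0 : {p : (Fin (N + 1) → ℝ) × ℝ | ∀ j ∈ Finset.range (r + 1), s * ((m + j : ℕ) : ℝ) * (ll04Siz F N (Real.log ((N' : ℝ) / N)) p.1 p.2).psi F 𝔹 (m + j) s ≤ 3 * L}
        = ⋂ j ∈ Finset.range (r + 1), {p : (Fin (N + 1) → ℝ) × ℝ | s * ((m + j : ℕ) : ℝ) * (ll04Siz F N (Real.log ((N' : ℝ) / N)) p.1 p.2).psi F 𝔹 (m + j) s ≤ 3 * L} := by
      ext p
      simp only [mem_ofPred_eq, mem_iInter]
    rw [e0]
    exact Finset.measurableSet_biInter _ fun j _ => measurableSet_le (measurable_const.mul (hcont (m + j) (by omega)).measurable) measurable_const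
  have hg : Measurable (fun p : (Fin (N + 1) → ℝ) × ℝ => ∑ j ∈ Finset.range (r + 1), c j * (((m + j : ℕ) : ℝ) * (ll04Siz F N (Real.log ((N' : ℝ) / N)) p.1 p.2).psi F 𝔹 (m + j) s)) :=
    Finset.measurable_fun_sum _ fun j _ => measurable_const.mul (measurable_const.mul (hcont (m + j) (by omega)).measurable)
  have hG : ∀ p : (Fin (N + 1) → ℝ) × ℝ, |∑ j ∈ Finset.range (r + 1), c j * (((m + j : ℕ) : ℝ) * (ll04Siz F N (Real.log ((N' : ℝ) / N)) p.1 p.2).psi F 𝔹 (m + j) s)|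
      ≤ ∑ j ∈ Finset.range (r + 1), |c j| * (((m + j : ℕ) : ℝ) * (C * skX N ^ (-(1 / 8 : ℝ)))) := by
    intro p
    refine (Finset.abs_sum_le_sum_abs _ _).trans (Finset.sum_le_sum fun j _ => ?_)
    rw [abs_mul, abs_mul, abs_of_nonneg (Nat.cast_nonneg (m + j) : (0 : ℝ) ≤ ((m + j : ℕ) : ℝ))]
    exact mul_le_mul_of_nonneg_left (mul_le_mul_of_nonneg_left (hbd (m + j) (by omega) p) (Nat.cast_nonneg _)) (abs_nonneg _)
  have hint := ll04a_int_gen (Real.log ((N' : ℝ) / N)) (fun γ t => (ll04Siz F N (Real.log ((N' : ℝ) / N)) γ t).psi F 𝔹 m s) _ (hlip m hm) _ hA _ hg _ hG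
  have key : Integrable (fun p : (Fin (N + 1) → ℝ) × ℝ => (ll04Path 𝔹 F N N' s).aS s L r c m p) ((ll04Mu N).prod (volume.restrict (Icc (0 : ℝ) (Real.log ((N' : ℝ) / N))))) := by
    refine Integrable.congr hint (Filter.Eventually.of_forall fun (p : (Fin (N + 1) → ℝ) × ℝ) => ?_)
    beta_reduce
    by_cases hc : ∀ j ∈ Finset.range (r + 1), s * ((m + j : ℕ) : ℝ) * (ll04Siz F N (Real.log ((N' : ℝ) / N)) p.1 p.2).psi F 𝔹 (m + j) s ≤ 3 * L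
    · rw [if_pos (show p ∈ {p : (Fin (N + 1) → ℝ) × ℝ | ∀ j ∈ Finset.range (r + 1), s * ((m + j : ℕ) : ℝ) * (ll04Siz F N (Real.log ((N' : ℝ) / N)) p.1 p.2).psi F 𝔹 (m + j) s ≤ 3 * L} from hc)]
      exact (if_pos hc).symm
    · rw [if_neg (show p ∉ {p : (Fin (N + 1) → ℝ) × ℝ | ∀ j ∈ Finset.range (r + 1), s * ((m + j : ℕ) : ℝ) * (ll04Siz F N (Real.log ((N' : ℝ) / N)) p.1 p.2).psi F 𝔹 (m + j) s ≤ 3 * L} from hc)]
      exact (if_neg hc).symm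
  exact key

theorem ll04a_join1 (F : LlFix) (N : ℕ) (ell : ℝ) (γ : Fin (N + 1) → ℝ) : ll04Dir F N ell 0 γ 1 = ll04Dir F N ell 1 γ 0 := by
  simp [ll04Dir, ll04U]

theorem ll04a_join2 (F : LlFix) (N : ℕ) (ell : ℝ) (γ : Fin (N + 1) → ℝ) : ll04Dir F N ell 1 γ 1 = ll04Dir F N ell 2 γ 0 := by
  simp [ll04Dir, ll04U]

/-- raising the constant, lowering the power -/
theorem ll04a_up {y C' Cf x a b : ℝ} (h : y ≤ C' * x ^ b) (hC : C' ≤ Cf) (hCf : 0 ≤ Cf) (hx0 : 0 < x) (hx1 : x ≤ 1) (hab : a ≤ b) : y ≤ Cf * x ^ a :=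
  h.trans ((mul_le_mul_of_nonneg_right hC (Real.rpow_nonneg hx0.le _)).trans (mul_le_mul_of_nonneg_left (Real.rpow_le_rpow_of_exponent_ge hx0 hx1 hab) hCf))

/-- (4.1) for `ψ` along a segment -/
theorem ll04a_nb (𝔹 : LlBase) (F : LlFix) {C5 : ℝ}
    (hNb : ∀ (m : ℕ) (a : ℝ) (b h : ℝ → ℝ), 1 ≤ m → 1 ≤ a → a ≤ 4 → GhClk1 a b → GhClk1 a h →
      |((m + 1 : ℕ) : ℝ) * 𝔹.f (m + 1) a b h - (m : ℝ) * 𝔹.f m a b h| ≤ C5 * (b a + h a))
    {C : ℝ} {N : ℕ} {pt : (Fin (N + 1) → ℝ) → ℝ → LlPt} (h : Ll04ClkAt 𝔹 F C N pt) {a : ℝ} (ha1 : 1 ≤ a) (ha4 : a ≤ 4) (hpa : ∀ γ t, (pt γ t).a = a)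
    {m : ℕ} (hm : 1 ≤ m) (s : ℝ) (γ : Fin (N + 1) → ℝ) (t : ℝ) :
    |((m + 1 : ℕ) : ℝ) * (pt γ t).psi F 𝔹 (m + 1) s - m * (pt γ t).psi F 𝔹 m s| ≤ 2 * |C5| * (C * skX N ^ (-(1 / 8 : ℝ))) := by
  have h1 := h.adm_b γ t
  have h2 := h.adm_h γ t
  have h3 := h.bd γ t
  rw [hpa] at h1 h2 h3
  have ha0 : (0 : ℝ) ≤ a := by linarith
  have hb0 : 0 ≤ (pt γ t).b F 𝔹 a := ll04l_nonneg h1 ⟨ha0, le_rfl⟩
  have hh0 : 0 ≤ (pt γ t).h F 𝔹 a := ll04l_nonneg h2 ⟨ha0, le_rfl⟩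
  have n1 := hNb m a _ _ hm ha1 ha4 (ll04l_tilt_adm h1 s) h2
  have n2 := hNb m a _ _ hm ha1 ha4 h1 h2
  have hbt : (if s ≤ a then (pt γ t).b F 𝔹 a else 0) ≤ (pt γ t).b F 𝔹 a := by
    split_ifs
    · exact le_rfl
    · exact hb0
  have hbt0 : 0 ≤ (if s ≤ a then (pt γ t).b F 𝔹 a else 0) := by
    split_ifs
    · exact hb0
    · exact le_rfl
  have m1 : C5 * ((if s ≤ a then (pt γ t).b F 𝔹 a else 0) + (pt γ t).h F 𝔹 a) ≤ |C5| * (C * skX N ^ (-(1 / 8 : ℝ))) :=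
    (mul_le_mul_of_nonneg_right (le_abs_self C5) (add_nonneg hbt0 hh0)).trans (mul_le_mul_of_nonneg_left (by linarith) (abs_nonneg _))
  have m2 : C5 * ((pt γ t).b F 𝔹 a + (pt γ t).h F 𝔹 a) ≤ |C5| * (C * skX N ^ (-(1 / 8 : ℝ))) :=
    (mul_le_mul_of_nonneg_right (le_abs_self C5) (add_nonneg hb0 hh0)).trans (mul_le_mul_of_nonneg_left h3 (abs_nonneg _))
  unfold LlPt.psi LlBase.psi
  rw [hpa]
  have n1' := abs_le.1 (n1.trans m1)
  have n2' := abs_le.1 (n2.trans m2)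
  refine abs_le.2 ⟨?_, ?_⟩
  · linarith [n1'.1, n2'.2]
  · linarith [n1'.2, n2'.1]

theorem ll04a_main (𝔹 : LlBase) (F : LlFix) (β : ℝ) (hF : F.Ok) (hT : F.T = β ^ 2) (hp : F.pS ≤ 12)
    (hInc : Ll04Inc 𝔹 F) (hP11 : LlP11 𝔹 F) (hClk : Ll04Clk 𝔹 F) (hEnd : Ll04End 𝔹 F)
    (hA1 : Ll04A1 𝔹) (hNb : Ll04Nb 𝔹) (hBare : Ll04Bare 𝔹 β) : SkIncr β := by
  obtain ⟨c1, hc1, ε0, hε0, hInc⟩ := hInc
  obtain ⟨c2, C2, hc2, N2, hSw⟩ := ll04w_main 𝔹 F hp hP11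
  obtain ⟨C4, N4, hC4, hBr⟩ := ll04b_main 𝔹 F β hT hClk hEnd hA1 hBare
  obtain ⟨N6, hID⟩ := ll04a_int_dir 𝔹 F hClk hA1
  obtain ⟨N7, hIS⟩ := ll04a_int_siz 𝔹 F hClk hA1
  obtain ⟨C3, N3, hCk⟩ := hClk
  obtain ⟨C5, hNb⟩ := hNb
  obtain ⟨c0, hc0⟩ : ∃ c0 : ℝ, c0 = min (min c1 c2) 1 := ⟨_, rfl⟩
  have hc0p : 0 < c0 := hc0 ▸ lt_min (lt_min hc1 hc2) one_pos
  have hc01 : c0 ≤ c1 := hc0 ▸ (min_le_left _ _).trans (min_le_left _ _)
  have hc02 : c0 ≤ c2 := hc0 ▸ (min_le_left _ _).trans (min_le_right _ _)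
  have hc03 : c0 ≤ 1 := hc0 ▸ min_le_right _ _
  refine ⟨c0, hc0p, ε0, hε0, fun ε hε hεε q hq => ?_⟩
  obtain ⟨r0, hr0⟩ := hInc ε hε hεε q hq
  refine ⟨r0, fun r hr c hc => ?_⟩
  obtain ⟨C1, N1, hI⟩ := hr0 r hr c hc
  obtain ⟨N8, hN8⟩ := sk_nm_small (K := q) (δ := ε) (η := 1 / 2) hε (by norm_num)
  obtain ⟨Cf, hCf⟩ : ∃ Cf : ℝ, Cf = |C1| + |C2| + C4 + 2 * |C5| * |C3| + q * |C3| + |C3| := ⟨_, rfl⟩
  have a1 := abs_nonneg C1
  have a2 := abs_nonneg C2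
  have a3 := abs_nonneg C3
  have a5 := abs_nonneg C5
  have a53 : 0 ≤ 2 * |C5| * |C3| := by positivity
  have aq3 : 0 ≤ q * |C3| := by positivity
  have hCf0 : 0 ≤ Cf := by rw [hCf]; positivity
  refine ⟨Cf, max (max (max N1 N2) (max N3 N4)) (max (max N6 N7) (max N8 (r + 1))), fun N hN N' hNN hN2 => ?_⟩
  have hNa : N1 ≤ N := ((le_max_left _ _).trans ((le_max_left _ _).trans (le_max_left _ _))).trans hN
  have hNb2 : N2 ≤ N := ((le_max_right _ _).trans ((le_max_left _ _).trans (le_max_left _ _))).trans hN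
  have hNc : N3 ≤ N := ((le_max_left _ _).trans ((le_max_right _ _).trans (le_max_left _ _))).trans hN
  have hNd : N4 ≤ N := ((le_max_right _ _).trans ((le_max_right _ _).trans (le_max_left _ _))).trans hN
  have hNe : N6 ≤ N := ((le_max_left _ _).trans ((le_max_left _ _).trans (le_max_right _ _))).trans hN
  have hNf : N7 ≤ N := ((le_max_right _ _).trans ((le_max_left _ _).trans (le_max_right _ _))).trans hN
  have hNg : N8 ≤ N := ((le_max_left _ _).trans ((le_max_right _ _).trans (le_max_right _ _))).trans hN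
  have hNr : r + 1 ≤ N := ((le_max_right _ _).trans ((le_max_right _ _).trans (le_max_right _ _))).trans hN
  have hN1 : 1 ≤ N := by omega
  have hx0 : 0 < skX N := sk_nm_x_pos hN1
  have hx1 : skX N ≤ 1 := sk_nm_x_le_one hN1
  obtain ⟨s, hs⟩ : ∃ s : ℝ, s = q * skX N ^ (1 + ε) := ⟨_, rfl⟩
  have hs0 : 0 < s := by rw [hs]; positivity
  have hsx' : s = q * skX N ^ ε * skX N := by rw [hs, add_comm, Real.rpow_add hx0, Real.rpow_one]; ring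
  have hsx : s < skX N := by
    rw [hsx']
    have := hN8 N hNg
    nlinarith
  have hs1 : s < 1 := lt_of_lt_of_le hsx hx1
  rw [← hs]
  have hell := fun e => ll04w_ell hN1 hNN hN2 e
  have hell0 : ∀ e, 0 < ll04Ell N N' e := fun e => lt_of_lt_of_le one_pos (hell e).1
  have hell4 : ∀ e, ll04Ell N N' e ≤ 4 := fun e => (hell e).2.trans (by
    calc (2 : ℝ) ^ (1 / 6 : ℝ) ≤ (2 : ℝ) ^ (1 : ℝ) := Real.rpow_le_rpow_of_exponent_le (by norm_num) (by norm_num)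
      _ ≤ 4 := by norm_num)
  have hΘ := ll04w_theta hN1 hNN hN2
  have hΘ1 : Real.log ((N' : ℝ) / N) ≤ 1 := hΘ.2.trans (by have := Real.log_two_lt_d9; linarith)
  have segD := fun e i => (hCk N hNc).1 _ (hell e) i
  have segS := (hCk N hNc).2 _ hΘ
  have lipD := fun (e : Fin 2) (i : Fin 3) (m : ℕ) (hm : 1 ≤ m) => ll04a_seg 𝔹 F hA1 (segD e i) (hell0 e) (fun γ t => ll04a_dir_a F N _ i γ t) hm s
  have lipS := fun (m : ℕ) (hm : 1 ≤ m) => ll04a_seg 𝔹 F hA1 segS (a := 4) (by norm_num) (fun γ t => ll04a_siz_a F N _ γ t) hm s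
  have kitD := fun (e : Fin 2) (i : Fin 3) (m : ℕ) (hm : 1 ≤ m) => ll04l_kit _ _ (lipD e i m hm)
  have kitS := fun (m : ℕ) (hm : 1 ≤ m) => ll04l_kit _ _ (lipS m hm)
  have hK0 : 0 ≤ C3 * skX N ^ (-(1 / 8 : ℝ)) := (abs_nonneg _).trans ((kitS 1 le_rfl).2.2.1 0 0)
  have hprob := ll04a_prob N
  obtain ⟨hI1, hI2⟩ := hI N hNa N' hNN hN2
  rw [← hs] at hI1 hI2
  have hsw := hSw N hNb2 N' hNN hN2 s ⟨hs0, hsx⟩
  have hbr := hBr N hNd N' hNN hN2 s ⟨hs0, hs1⟩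
  have hsN0 : 0 ≤ s * (N : ℝ) := by positivity
  have hbd : ∀ (γ : Fin (N + 1) → ℝ) (θ : ℝ) (m : ℕ), 1 ≤ m → |(ll04Siz F N (Real.log ((N' : ℝ) / N)) γ θ).psi F 𝔹 m s| ≤ Cf := by
    intro γ θ m hm
    have b1 := segS.adm_b γ θ
    have b2 := segS.adm_h γ θ
    have b3 := segS.bd γ θ
    rw [ll04a_siz_a] at b1 b2 b3
    have b4 := ll04l_psi_abs 𝔹 hA1 (m := m) hm (a := 4) (by norm_num) hs0.le b1 b2
    have b5 : 0 ≤ (ll04Siz F N (Real.log ((N' : ℝ) / N)) γ θ).h F 𝔹 4 := ll04l_nonneg b2 ⟨by norm_num, le_rfl⟩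
    have b6 : s * skX N ^ (-(1 / 8 : ℝ)) ≤ q := by
      rw [hs, mul_assoc, ← Real.rpow_add hx0]
      exact mul_le_of_le_one_right hq.le (Real.rpow_le_one hx0.le hx1 (by linarith))
    have b7 : s * (ll04Siz F N (Real.log ((N' : ℝ) / N)) γ θ).b F 𝔹 4 ≤ q * |C3| := by
      calc s * (ll04Siz F N (Real.log ((N' : ℝ) / N)) γ θ).b F 𝔹 4 ≤ s * (C3 * skX N ^ (-(1 / 8 : ℝ))) := mul_le_mul_of_nonneg_left (by linarith) hs0.le
        _ = s * skX N ^ (-(1 / 8 : ℝ)) * C3 := by ring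
        _ ≤ s * skX N ^ (-(1 / 8 : ℝ)) * |C3| := mul_le_mul_of_nonneg_left (le_abs_self _) (by positivity)
        _ ≤ q * |C3| := mul_le_mul_of_nonneg_right b6 a3
    unfold LlPt.psi
    rw [ll04a_siz_a, hCf]
    linarith
  refine ⟨ll04Path 𝔹 F N N' s, ?_⟩
  exact
    { prob := hprob
      ac_dir := fun e i γ m h1 _ => (kitD e i m (by omega)).2.1 γ 0 1
      ac_siz := fun γ m h1 _ => (kitS m (by omega)).2.1 γ 0 _
      join1 := fun e γ m _ _ => congrArg (fun p : LlPt => p.psi F 𝔹 m s) (ll04a_join1 F N (ll04Ell N N' e) γ)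
      join2 := fun e γ m _ _ => congrArg (fun p : LlPt => p.psi F 𝔹 m s) (ll04a_join2 F N (ll04Ell N N' e) γ)
      sw0 := fun γ m h1 h2 => ll04a_up (hsw γ m h1 h2).1 (by rw [hCf]; linarith [le_abs_self C2]) hCf0 hx0 hx1 (by linarith)
      sw1 := fun γ m h1 h2 => ll04a_up (hsw γ m h1 h2).2 (by rw [hCf]; linarith [le_abs_self C2]) hCf0 hx0 hx1 (by linarith)
      bare0 := fun γ => (hbr γ).1.trans (mul_le_mul_of_nonneg_left (ll04a_up le_rfl (by rw [hCf]; linarith) hCf0 hx0 hx1 (by linarith)) hsN0)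
      bare1 := fun γ => (hbr γ).2.trans (mul_le_mul_of_nonneg_left (ll04a_up le_rfl (by rw [hCf]; linarith) hCf0 hx0 hx1 (by linarith)) hsN0)
      nb_dir := fun e i γ τ m _ h1 _ => by
        have := ll04a_nb 𝔹 F hNb (segD e i) (hell e).1 (hell4 e) (fun γ t => ll04a_dir_a F N _ i γ t) (m := m) (by omega) s γ τ
        refine ll04a_up (C' := 2 * |C5| * C3) (b := -(1 / 8 : ℝ)) (this.trans (le_of_eq (by ring))) ?_ hCf0 hx0 hx1 (by norm_num)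
        rw [hCf]
        nlinarith [le_abs_self C3]
      nb_siz := fun γ θ m _ h1 _ => by
        have := ll04a_nb 𝔹 F hNb segS (a := 4) (by norm_num) le_rfl (fun γ t => ll04a_siz_a F N _ γ t) (m := m) (by omega) s γ θ
        refine ll04a_up (C' := 2 * |C5| * C3) (b := -(1 / 8 : ℝ)) (this.trans (le_of_eq (by ring))) ?_ hCf0 hx0 hx1 (by norm_num)
        rw [hCf]
        nlinarith [le_abs_self C3]
      bd_siz := fun γ θ m _ h1 _ => hbd γ θ m (by omega)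
      mid := fun γ => by
        refine ⟨fun _ => C3 * skX N ^ (-(1 / 8 : ℝ)), intervalIntegrable_const, ?_, fun m h1 _ => Filter.Eventually.of_forall fun θ _ => (kitS m (by omega)).2.2.1 γ θ⟩
        rw [intervalIntegral.integral_const, sub_zero, smul_eq_mul]
        refine ll04a_up (C' := C3) (b := -(1 / 8 : ℝ)) ?_ (by rw [hCf]; linarith [le_abs_self C3]) hCf0 hx0 hx1 (by norm_num)
        exact mul_le_of_le_one_left hK0 hΘ1
      int_dir := fun e i m h1 _ => hID N hNe N' hNN hN2 s _ e i m (by omega)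
      inc_dir := fun e i m h1 h2 => ll04a_up (hI1 e i m h1 h2) (by rw [hCf]; linarith [le_abs_self C1]) hCf0 hx0 hx1 (by linarith)
      int_siz := fun m h1 _ => hIS N hNf N' hNN hN2 s _ r c m (by omega)
      inc_siz := fun W hWc hW0 hW1 hWs =>
        ll04a_up (hI2 W hWc hW0 hW1 hWs) (by rw [hCf]; linarith [le_abs_self C1]) hCf0 hx0 hx1 (by linarith) }

end Claimed.Agent.R286
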