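import Claimed.Agent.R286.Top.LcSk
import Claimed.Agent.R286.Defs.GhBasic
import Claimed.Agent.R286.Defs.SkLem
import Claimed.Agent.R286.Gh.Reg

/-!
# Row 286, LL Lemma 4.2 (`red:lem-augmentation`): augmentation along the paths      (owner: helper129; prefix `sk_au_`, `skAu`; file LL04/AugP.lean)      TEX[LL:red:lem-augmentation]

(ii) abstract (any probability space, `F ∈ L²`, `SkLc (law (F + 𝓔))`; use `F = ρ G`, `t = s/ρ`):
* `sk_au_sd`  : `log E e^{t(F-EF)} ≤ κ ≤ 1`, `0 ≤ t ≤ 1/4`  ⟹  `t² (Var F + 1) ≤ skAuC (κ + t²)`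
* `sk_au_Kp`  : then `log E e^{p t (F-EF)} ≤ C p² (κ + t²)` as soon as `p² skAuC (κ + t²) ≤ skLcc²`
(i) finite Gaussian hierarchies (`Defs/Gh`):
* `skAuPs B ls σ z` planted probability of the terminal spin `σ`;  `sk_au_cvx` : `skAuPs · exp (v F)` is log-concave in the revealed field (`v ≤` the later masses):
  the telescoped pinned density of the paper, marginalised level by level with Prékopa's theorem
* `GhGauge`, `sk_au_F_gauge`, `sk_au_E_gauge`, `sk_au_pin`
* **`sk_au_gh`** : `SkLc (law (ρ G + 𝓔))`, `G` = continuation after the first revelation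
SK step paths (`Defs/Sk`): **`sk_au_sk`** (i), **`sk_au_step`** (iii) for `skKK`, `sk_au_dens` (`L^p` norm of the tilt density).
-/

set_option autoImplicit false
set_option linter.unusedSectionVars false

namespace Claimed.Agent.R286

open MeasureTheory ProbabilityTheory Filter Topology Set
open scoped ENNReal NNReal
open Claimed.Agent.PL

/-! ## (ii) one-dimensional consequences -/

/-- the Laplace factor of the centred exponential noise -/
theorem sk_au_noise_le {t : ℝ} (ht0 : 0 ≤ t) (ht : t ≤ 1 / 4) : Real.exp (-t) / (1 - t) ≤ Real.exp (2 * t ^ 2) := by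
  have h1t : 0 < 1 - t := by linarith
  rw [div_le_iff₀ h1t]
  have h1 : 1 - (1 - t)⁻¹ ≤ Real.log (1 - t) := Real.one_sub_inv_le_log_of_pos h1t
  have h2 : -t - 2 * t ^ 2 ≤ Real.log (1 - t) := by
    refine le_trans ?_ h1
    have h3 : (1 - t)⁻¹ ≤ 1 + t + 2 * t ^ 2 := by
      rw [inv_le_comm₀ h1t (by positivity), ← one_div, div_le_iff₀ (by positivity)]
      nlinarith [mul_nonneg ht0 ht0, mul_nonneg (mul_nonneg ht0 ht0) ht0]
    linarith
  calc Real.exp (-t) = Real.exp (2 * t ^ 2) * Real.exp (-t - 2 * t ^ 2) := by rw [← Real.exp_add]; congr 1; ring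
    _ ≤ Real.exp (2 * t ^ 2) * Real.exp (Real.log (1 - t)) := by gcongr
    _ = Real.exp (2 * t ^ 2) * (1 - t) := by rw [Real.exp_log h1t]

/-- the constant of LL Lemma 4.2 (ii)(b) -/
noncomputable def skAuC : ℝ := 131072 * skLcK ^ 4

section cons

variable {E : Type*} [MeasurableSpace E] {γ : Measure E} [IsProbabilityMeasure γ] {F : E → ℝ}

/-- the Laplace transform of a centred variable is at least one -/
theorem sk_au_one_le (hF1 : Integrable F γ) {t : ℝ} (hint : Integrable (fun g => Real.exp (t * (F g - ∫ g, F g ∂γ))) γ) :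
    1 ≤ ∫ g, Real.exp (t * (F g - ∫ g, F g ∂γ)) ∂γ := by
  have h1 : ∫ g, (t * (F g - ∫ g, F g ∂γ) + 1) ∂γ ≤ ∫ g, Real.exp (t * (F g - ∫ g, F g ∂γ)) ∂γ :=
    integral_mono (((hF1.sub (integrable_const _)).const_mul t).add (integrable_const _)) hint fun g => Real.add_one_le_exp _
  have i1 : Integrable (fun g => t * (F g - ∫ g, F g ∂γ)) γ := (hF1.sub (integrable_const _)).const_mul t
  rw [integral_add i1 (integrable_const _), integral_const_mul,
    integral_sub hF1 (integrable_const _)] at h1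
  simpa using h1

/-- **LL Lemma 4.2 (ii)(b)**: a small Laplace transform at `t` bounds the augmented standard deviation on the scale `1/t` -/
theorem sk_au_sd (hFm : Measurable F) (hF2 : MemLp F 2 γ) (hlc : SkLc ((γ.prod skExpM).map (fun w => F w.1 + w.2))) {t κ : ℝ}
    (ht0 : 0 ≤ t) (ht : t ≤ 1 / 4) (hint : Integrable (fun g => Real.exp (t * (F g - ∫ g, F g ∂γ))) γ)
    (hK : Real.log (∫ g, Real.exp (t * (F g - ∫ g, F g ∂γ)) ∂γ) ≤ κ) (hκ : κ ≤ 1) :
    t ^ 2 * (Var[F; γ] + 1) ≤ skAuC * (κ + t ^ 2) := by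
  classical
  have hF1 : Integrable F γ := hF2.integrable one_le_two
  have ht1 : t < 1 := by linarith
  have hM := sk_lc_G_mass hFm hF2 hlc
  have hV0 : 0 ≤ Var[F; γ] := variance_nonneg _ _
  set s := Real.sqrt (Var[F; γ] + 1) with hs
  have hs0 : 0 < s := Real.sqrt_pos.2 (by linarith)
  have hs2 : s ^ 2 = Var[F; γ] + 1 := Real.sq_sqrt (by linarith)
  have hK1 := sk_lc_K_ge
  have hK0 : 0 < skLcK := by linarith
  set a := 1 / (16 * skLcK) * s with ha
  have ha0 : 0 < a := by positivity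
  set Z : E × ℝ → ℝ := fun w => (F w.1 - ∫ g, F g ∂γ) + (w.2 - 1) with hZ
  have hZm : Measurable Z := ((hFm.comp measurable_fst).sub_const _).add (measurable_snd.sub_const _)
  set A : Set (E × ℝ) := {w | a ≤ Z w} with hA
  have hAm : MeasurableSet A := measurableSet_le measurable_const hZm
  have hI : Integrable (fun w => Real.exp (t * Z w)) (γ.prod skExpM) :=
    sk_noise_integrable_mgf_add γ skExpM (fun g => F g - ∫ g, F g ∂γ) (fun e : ℝ => e - 1) t hint (sk_lc_cen_mgf ht1).1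
  have hZi : Integrable Z (γ.prod skExpM) := ((hF1.sub (integrable_const _)).comp_fst _).add (sk_lc_cen_int.comp_snd _)
  have hZ0 : ∫ w, Z w ∂(γ.prod skExpM) = 0 := by
    rw [hZ, sk_noise_mean_add γ skExpM (fun g => F g - ∫ g, F g ∂γ) (fun e : ℝ => e - 1) (hF1.sub (integrable_const _)) sk_lc_cen_int,
      sk_lc_cen_mean, integral_sub hF1 (integrable_const _)]
    simp
  have hpt : ∀ w, (t * a) ^ 2 / 2 * A.indicator (fun _ => (1 : ℝ)) w ≤ Real.exp (t * Z w) - 1 - t * Z w := by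
    intro w
    by_cases hw : w ∈ A
    · rw [indicator_of_mem hw, mul_one]
      have hw' : a ≤ Z w := hw
      have h1 : 0 ≤ t * Z w := mul_nonneg ht0 (ha0.le.trans hw')
      have h2 := Real.quadratic_le_exp_of_nonneg h1
      have h3 : (t * a) ^ 2 ≤ (t * Z w) ^ 2 := by
        have : t * a ≤ t * Z w := mul_le_mul_of_nonneg_left hw' ht0
        have h0 : 0 ≤ t * a := by positivity
        nlinarith
      linarith
    · rw [indicator_of_notMem hw, mul_zero]
      have := Real.add_one_le_exp (t * Z w)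
      linarith
  have hind : Integrable (A.indicator (fun _ => (1 : ℝ))) (γ.prod skExpM) := (integrable_const _).indicator hAm
  have h1 : ∫ w, (t * a) ^ 2 / 2 * A.indicator (fun _ => (1 : ℝ)) w ∂(γ.prod skExpM) ≤ ∫ w, (Real.exp (t * Z w) - 1 - t * Z w) ∂(γ.prod skExpM) :=
    integral_mono (hind.const_mul _) ((hI.sub (integrable_const _)).sub (hZi.const_mul _)) hpt
  have i2 : Integrable (fun w => Real.exp (t * Z w) - 1) (γ.prod skExpM) := hI.sub (integrable_const _)
  rw [integral_const_mul, integral_indicator hAm, integral_sub i2 (hZi.const_mul _),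
    integral_sub hI (integrable_const _), integral_const_mul, hZ0] at h1
  simp only [integral_const, smul_eq_mul, mul_one, probReal_univ, mul_zero, sub_zero, measureReal_restrict_apply_univ] at h1
  have h2 := sk_noise_mgf_add γ skExpM (fun g => F g - ∫ g, F g ∂γ) (fun e : ℝ => e - 1) t
  rw [(sk_lc_cen_mgf ht1).2] at h2
  have h2' : ∫ w, Real.exp (t * Z w) ∂(γ.prod skExpM) = (∫ g, Real.exp (t * (F g - ∫ g, F g ∂γ)) ∂γ) * (Real.exp (-t) / (1 - t)) := h2
  rw [h2'] at h1
  set M := ∫ g, Real.exp (t * (F g - ∫ g, F g ∂γ)) ∂γ with hMdef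
  have hM1 : 1 ≤ M := sk_au_one_le hF1 hint
  have hM0 : 0 < M := by linarith
  have hκ0 : 0 ≤ κ := le_trans (Real.log_nonneg hM1) hK
  have hMκ : M ≤ Real.exp κ := by
    rw [← Real.log_le_iff_le_exp hM0]; exact hK
  set y := κ + 2 * t ^ 2 with hy
  have hy0 : 0 ≤ y := by positivity
  have hy1 : y ≤ 9 / 8 := by
    have : t ^ 2 ≤ 1 / 16 := by nlinarith
    linarith
  have h3 : M * (Real.exp (-t) / (1 - t)) ≤ Real.exp y := by
    rw [hy, Real.exp_add]
    exact mul_le_mul hMκ (sk_au_noise_le ht0 ht) (by have : 0 < 1 - t := by linarith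
                                                     positivity) (Real.exp_pos _).le
  have h4 : Real.exp y - 1 ≤ 4 * y := by
    have h5 : Real.exp y ≤ 4 := by
      calc Real.exp y ≤ Real.exp (9 / 8) := Real.exp_le_exp.2 hy1
        _ ≤ Real.exp 1 * Real.exp (1 / 8) := by rw [← Real.exp_add]; norm_num
        _ ≤ 2.7182818286 * (1 / (1 - 1 / 8)) := by
            refine mul_le_mul Real.exp_one_lt_d9.le ?_ (Real.exp_pos _).le (by norm_num)
            have := Real.exp_bound_div_one_sub_of_interval (x := 1 / 8) (by norm_num) (by norm_num)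
            exact this
        _ ≤ 4 := by norm_num
    have h6 : 1 - y ≤ Real.exp (-y) := by have := Real.add_one_le_exp (-y); linarith
    have h7 : Real.exp y * (1 - y) ≤ 1 := by
      calc Real.exp y * (1 - y) ≤ Real.exp y * Real.exp (-y) := mul_le_mul_of_nonneg_left h6 (Real.exp_pos _).le
        _ = 1 := by rw [← Real.exp_add]; simp
    nlinarith
  have h8 : (t * a) ^ 2 / 2 * (1 / (32 * skLcK ^ 2)) ≤ 4 * y := by
    have : (t * a) ^ 2 / 2 * (1 / (32 * skLcK ^ 2)) ≤ (t * a) ^ 2 / 2 * (γ.prod skExpM).real A :=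
      mul_le_mul_of_nonneg_left hM (by positivity)
    linarith
  have h9 : (t * a) ^ 2 / 2 * (1 / (32 * skLcK ^ 2)) = t ^ 2 * s ^ 2 / (16384 * skLcK ^ 4) := by
    rw [ha]; field_simp; ring
  rw [h9, div_le_iff₀ (by positivity)] at h8
  rw [← hs2]
  unfold skAuC
  have h10 : y ≤ 2 * (κ + t ^ 2) := by rw [hy]; linarith
  have h11 : 0 < skLcK ^ 4 := by positivity
  nlinarith

/-- **LL Lemma 4.2 (iii), abstract**: a small transform at `t` bounds the transform at the fixed multiple `p t` -/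
theorem sk_au_Kp (hFm : Measurable F) (hF2 : MemLp F 2 γ) (hlc : SkLc ((γ.prod skExpM).map (fun w => F w.1 + w.2))) {t κ p : ℝ}
    (ht0 : 0 ≤ t) (ht : t ≤ 1 / 4) (hint : Integrable (fun g => Real.exp (t * (F g - ∫ g, F g ∂γ))) γ)
    (hK : Real.log (∫ g, Real.exp (t * (F g - ∫ g, F g ∂γ)) ∂γ) ≤ κ) (hκ : κ ≤ 1) (hp : 0 ≤ p)
    (hsm : p ^ 2 * (skAuC * (κ + t ^ 2)) ≤ skLcc ^ 2) :
    Integrable (fun g => Real.exp (p * t * (F g - ∫ g, F g ∂γ))) γ ∧
      Real.log (∫ g, Real.exp (p * t * (F g - ∫ g, F g ∂γ)) ∂γ) ≤ 8 * skLcC / skLcT ^ 2 * (p ^ 2 * (skAuC * (κ + t ^ 2))) := by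
  have h1 := sk_au_sd hFm hF2 hlc ht0 ht hint hK hκ
  have hV0 : 0 ≤ Var[F; γ] := variance_nonneg _ _
  set s := Real.sqrt (Var[F; γ] + 1) with hs
  have hs0 : 0 < s := Real.sqrt_pos.2 (by linarith)
  have hs2 : s ^ 2 = Var[F; γ] + 1 := Real.sq_sqrt (by linarith)
  have h2 : (p * t * s) ^ 2 ≤ p ^ 2 * (skAuC * (κ + t ^ 2)) := by
    have := mul_le_mul_of_nonneg_left h1 (sq_nonneg p)
    rw [← hs2] at this
    nlinarith
  have h3 : p * t * s ≤ skLcc := by
    have h4 : (p * t * s) ^ 2 ≤ skLcc ^ 2 := h2.trans hsm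
    exact abs_le_of_sq_le_sq' h4 sk_lc_c_pos.le |>.2
  have hpt : 0 ≤ p * t := mul_nonneg hp ht0
  refine ⟨(sk_lc_F_up hFm hF2 hlc (t := p * t) (by rw [abs_of_nonneg hpt]; exact h3.trans (min_le_left _ _))).1, ?_⟩
  refine (sk_lc_F_logU hFm hF2 hlc hpt h3).trans ?_
  have hc : 0 ≤ 8 * skLcC / skLcT ^ 2 := by
    have := sk_lc_C_nonneg
    have := sk_lc_T_pos
    positivity
  calc 8 * skLcC / skLcT ^ 2 * (p * t) ^ 2 * s ^ 2 = 8 * skLcC / skLcT ^ 2 * (p * t * s) ^ 2 := by ring
    _ ≤ _ := mul_le_mul_of_nonneg_left h2 hc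

end cons

/-! ## (i) finite Gaussian hierarchies -/

section gh

variable {S ι : Type} [Fintype S] [Fintype ι]

open Classical in
/-- the planted probability that the terminal spin is `σ`, given the revealed field `z` -/
noncomputable def skAuPs (B : GhB S) (ls : List (GhLv S ι)) (σ : S) (z : S → ℝ) : ℝ :=
  ghE B ls (fun s => if s = σ then 1 else 0) z

theorem sk_au_ps_nil (B : GhB S) (σ : S) (z : S → ℝ) : skAuPs (ι := ι) B [] σ z = ghGw B z σ := by
  classical
  unfold skAuPs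
  rw [gh_b_E_nil]
  simp

theorem sk_au_ps_cons (B : GhB S) (l : GhLv S ι) (ls : List (GhLv S ι)) (σ : S) (z : S → ℝ) :
    skAuPs B (l :: ls) σ z = ∫ ξ, ghD B l ls z ξ * skAuPs B ls σ (z + l.inc ξ) ∂ghStd ι := rfl

theorem sk_au_ps_cont {B : GhB S} (hB : B.Ok) {ls : List (GhLv S ι)} (h : GhNn ls) (σ : S) : Continuous (skAuPs B ls σ) :=
  gh_b_E_continuous hB _ h

theorem sk_au_ps_le_one {B : GhB S} (hB : B.Ok) {ls : List (GhLv S ι)} (h : GhNn ls) (σ : S) (z : S → ℝ) : |skAuPs B ls σ z| ≤ 1 := by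
  classical
  refine gh_b_E_abs_le hB (fun s => ?_) h z
  split_ifs <;> simp

theorem sk_au_ps_sum {B : GhB S} (hB : B.Ok) {ls : List (GhLv S ι)} (h : GhNn ls) (z : S → ℝ) : ∑ σ, skAuPs B ls σ z = 1 := by
  classical
  unfold skAuPs
  rw [← gh_b_E_sum hB Finset.univ (fun σ s => if s = σ then (1 : ℝ) else 0) h z]
  simp only [Finset.sum_ite_eq, Finset.mem_univ, if_true]
  exact gh_b_E_const hB 1 h z

theorem sk_au_ps_int {B : GhB S} (hB : B.Ok) {l : GhLv S ι} {ls : List (GhLv S ι)} (h : GhNn ls) (σ : S) (z : S → ℝ) :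
    Integrable (fun ξ => ghD B l ls z ξ * skAuPs B ls σ (z + l.inc ξ)) (ghStd ι) := by
  refine (gh_b_D_integrable hB h l z).mul_bdd (c := 1) ?_ (ae_of_all _ fun ξ => ?_)
  · exact ((sk_au_ps_cont hB h σ).comp (continuous_const.add (gh_b_inc_continuous l))).aestronglyMeasurable
  · rw [Real.norm_eq_abs]; exact sk_au_ps_le_one hB h σ _

theorem sk_au_ps_pos {B : GhB S} (hB : B.Ok) (σ : S) (hσ : 0 < B.w σ) :
    ∀ {ls : List (GhLv S ι)}, GhNn ls → ∀ z, 0 < skAuPs B ls σ z
  | [], _, z => by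
      rw [sk_au_ps_nil]
      exact div_pos (mul_pos hσ (Real.exp_pos _)) (gh_b_Z_pos hB z)
  | l :: ls, h, z => by
      rw [sk_au_ps_cons]
      have hp : ∀ ξ, 0 < ghD B l ls z ξ * skAuPs B ls σ (z + l.inc ξ) := fun ξ =>
        mul_pos (gh_b_D_pos B l ls z ξ) (sk_au_ps_pos hB σ hσ h.tail _)
      rw [integral_pos_iff_support_of_nonneg (fun ξ => (hp ξ).le) (sk_au_ps_int hB h.tail σ z)]
      have : Function.support (fun ξ => ghD B l ls z ξ * skAuPs B ls σ (z + l.inc ξ)) = univ := by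
        ext ξ
        simp only [Function.mem_support, mem_univ, iff_true]
        exact (hp ξ).ne'
      rw [this]; simp

theorem sk_au_pl_std : PLProp (ι → ℝ) (ghStd ι) := sk_lc_pl_pi _ fun _ => sk_lc_pl_gauss 1

theorem sk_au_adm_tail {B : GhB S} {v : ℝ} {l : GhLv S ι} {ls : List (GhLv S ι)} (h : GhAdm B v (l :: ls)) : GhAdm B l.m ls := by
  obtain ⟨h1, h2⟩ := h
  rw [List.pairwise_cons] at h1
  exact ⟨h1.2, fun l' hl' => ⟨h1.1 l' hl', (h2 l' (List.mem_cons_of_mem _ hl')).2⟩⟩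

/-- **telescoped pin, in inductive form**: the planted probability of one terminal spin, times `exp (v F)`, is log-concave in the revealed field,
as long as `v` does not exceed the masses still to come -/
theorem sk_au_cvx {B : GhB S} (hB : B.Ok) (σ : S) (hσ : 0 < B.w σ) :
    ∀ (ls : List (GhLv S ι)) (v : ℝ), 0 ≤ v → v ≤ B.a → GhAdm B v ls →
      ConvexOn ℝ univ (fun z => -Real.log (skAuPs B ls σ z) - v * ghF B ls z)
  | [], v, hv0, hva, _ => by
      have hF := ghF_convexOn (ι := ι) hB [] (fun l hl => absurd hl List.not_mem_nil)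
      have e : (fun z => -Real.log (skAuPs (ι := ι) B [] σ z) - v * ghF (ι := ι) B [] z) =
          fun z => (B.a - v) • ghF (ι := ι) B [] z + (-Real.log (B.w σ) - B.a * z σ) := by
        funext z
        rw [sk_au_ps_nil]
        unfold ghGw
        rw [Real.log_div (mul_pos hσ (Real.exp_pos _)).ne' (gh_b_Z_pos hB z).ne', Real.log_mul hσ.ne' (Real.exp_pos _).ne', Real.log_exp]
        simp only [ghF, ghF0, smul_eq_mul]
        have := hB.pos.ne'
        field_simp
        ring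
      rw [e]
      refine (hF.smul (sub_nonneg.2 hva)).add ⟨convex_univ, fun x _ y _ a b _ _ hab => le_of_eq ?_⟩
      simp only [Pi.add_apply, Pi.smul_apply, smul_eq_mul]
      have : Real.log (B.w σ) = (a + b) * Real.log (B.w σ) := by rw [hab, one_mul]
      linear_combination (-1 : ℝ) * this
  | l :: ls, v, hv0, hva, hadm => by
      have hnn : GhNn (l :: ls) := hadm.ghNn hv0
      have hm : v ≤ l.m := (hadm.2 l List.mem_cons_self).1
      have hma : l.m ≤ B.a := (hadm.2 l List.mem_cons_self).2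
      have ih := sk_au_cvx hB σ hσ ls l.m (hv0.trans hm) hma (sk_au_adm_tail hadm)
      have hF := ghF_convexOn hB (l :: ls) hnn
      set W : (S → ℝ) → (ι → ℝ) → ℝ := fun z ξ => -Real.log (skAuPs B ls σ (z + l.inc ξ)) - l.m * ghF B ls (z + l.inc ξ) with hW
      have hexpW : ∀ z ξ, Real.exp (-W z ξ) = skAuPs B ls σ (z + l.inc ξ) * Real.exp (l.m * ghF B ls (z + l.inc ξ)) := by
        intro z ξ
        rw [hW]; simp only
        rw [neg_sub, sub_neg_eq_add, Real.exp_add, Real.exp_log (sk_au_ps_pos hB σ hσ hnn.tail _), mul_comm]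
      have hWc : ∀ z, Continuous (W z) := by
        intro z
        have c1 : Continuous fun ξ => skAuPs B ls σ (z + l.inc ξ) := (sk_au_ps_cont hB hnn.tail σ).comp (continuous_const.add (gh_b_inc_continuous l))
        have c2 : Continuous fun ξ => ghF B ls (z + l.inc ξ) := (gh_b_nice hB hnn.tail).continuous_inc l z
        exact ((c1.log fun ξ => (sk_au_ps_pos hB σ hσ hnn.tail _).ne').neg).sub (continuous_const.mul c2)
      have hint : ∀ z, Integrable (fun ξ => Real.exp (-W z ξ)) (ghStd ι) := by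
        intro z
        simp only [hexpW]
        refine ((gh_b_nice hB hnn.tail).integrable_exp l l.m z).bdd_mul (c := 1) ?_ (ae_of_all _ fun ξ => ?_)
        · exact ((sk_au_ps_cont hB hnn.tail σ).comp (continuous_const.add (gh_b_inc_continuous l))).aestronglyMeasurable
        · rw [Real.norm_eq_abs]; exact sk_au_ps_le_one hB hnn.tail σ _
      have hP := pl_prekopa_convexOn (E := S → ℝ) (F := ι → ℝ) (ν := ghStd ι) sk_au_pl_std (IsProbabilityMeasure.ne_zero _) convex_univ (W := W)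
        (fun z _ => (hWc z).measurable)
        (fun x₀ _ x₁ _ y₀ y₁ a b ha hb hab => by
          have := ih.2 (mem_univ (x₀ + l.inc y₀)) (mem_univ (x₁ + l.inc y₁)) ha.le hb.le hab
          simp only [smul_eq_mul] at this
          have e : a • x₀ + b • x₁ + l.inc (a • y₀ + b • y₁) = a • (x₀ + l.inc y₀) + b • (x₁ + l.inc y₁) := by
            rw [gh_b_inc_add, gh_b_inc_smul, gh_b_inc_smul, smul_add, smul_add]; abel
          rw [hW]; simp only
          rw [e]
          exact this)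
        (fun z _ => hint z)
      have e : (fun z => -Real.log (skAuPs B (l :: ls) σ z) - v * ghF B (l :: ls) z) =
          fun z => (l.m - v) • ghF B (l :: ls) z + (-Real.log (∫ ξ, Real.exp (-W z ξ) ∂ghStd ι)) := by
        funext z
        have h1 : skAuPs B (l :: ls) σ z = Real.exp (-(l.m * ghF B (l :: ls) z)) * ∫ ξ, Real.exp (-W z ξ) ∂ghStd ι := by
          rw [sk_au_ps_cons, ← integral_const_mul]
          refine integral_congr_ae (ae_of_all _ fun ξ => ?_)
          simp only [hexpW]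
          unfold ghD
          rw [mul_sub, sub_eq_add_neg, Real.exp_add]
          ring
        have hpos : 0 < ∫ ξ, Real.exp (-W z ξ) ∂ghStd ι := integral_exp_pos (hint z)
        rw [h1, Real.log_mul (Real.exp_pos _).ne' hpos.ne', Real.log_exp, smul_eq_mul]
        ring
      rw [e]
      exact (hF.smul (sub_nonneg.2 hm)).add hP

/-- a gauge transformation of a hierarchy: a permutation of the states which preserves the prior and all covariance increments -/
structure GhGauge (B : GhB S) (ls : List (GhLv S ι)) (π : Equiv.Perm S) : Prop where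
  w : ∀ s, B.w (π s) = B.w s
  cov : ∀ l ∈ ls, ∀ s t, l.cov (π s) (π t) = l.cov s t

theorem GhGauge.tail {B : GhB S} {l : GhLv S ι} {ls : List (GhLv S ι)} {π : Equiv.Perm S} (h : GhGauge B (l :: ls) π) : GhGauge B ls π :=
  ⟨h.w, fun l' hl' => h.cov l' (List.mem_cons_of_mem _ hl')⟩

/-- the law of a field increment is gauge invariant -/
theorem sk_au_law (l : GhLv S ι) (π : Equiv.Perm S) (h : ∀ s t, l.cov (π s) (π t) = l.cov s t) :
    (ghStd ι).map (fun ξ => l.inc ξ ∘ π) = (ghStd ι).map l.inc :=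
  gh_l_law_congr (fun s i => l.A (π s) i) l.A h

theorem sk_au_inc_comp_meas (l : GhLv S ι) (π : Equiv.Perm S) : Measurable fun ξ => l.inc ξ ∘ π := by
  refine measurable_pi_lambda _ fun s => ?_
  exact (measurable_pi_apply (π s)).comp (gh_l_inc_meas l)

theorem sk_au_int_gauge (l : GhLv S ι) (π : Equiv.Perm S) (h : ∀ s t, l.cov (π s) (π t) = l.cov s t) (H : (S → ℝ) → ℝ) (hH : Measurable H) :
    ∫ ξ, H (l.inc ξ ∘ π) ∂ghStd ι = ∫ ξ, H (l.inc ξ) ∂ghStd ι := by
  rw [← integral_map (sk_au_inc_comp_meas l π).aemeasurable hH.aestronglyMeasurable,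
    ← integral_map (gh_l_inc_meas l).aemeasurable hH.aestronglyMeasurable, sk_au_law l π h]

theorem sk_au_lint_gauge (l : GhLv S ι) (π : Equiv.Perm S) (h : ∀ s t, l.cov (π s) (π t) = l.cov s t) (H : (S → ℝ) → ℝ≥0∞) (hH : Measurable H) :
    ∫⁻ ξ, H (l.inc ξ ∘ π) ∂ghStd ι = ∫⁻ ξ, H (l.inc ξ) ∂ghStd ι := by
  rw [← lintegral_map hH (sk_au_inc_comp_meas l π), ← lintegral_map hH (gh_l_inc_meas l), sk_au_law l π h]

/-- the continuations are gauge invariant -/
theorem sk_au_F_gauge {B : GhB S} (hB : B.Ok) {π : Equiv.Perm S} :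
    ∀ {ls : List (GhLv S ι)}, GhNn ls → GhGauge B ls π → ∀ z : S → ℝ, ghF B ls (z ∘ π) = ghF B ls z
  | [], _, hg, z => by
      simp only [ghF, ghF0]
      congr 2
      rw [← Equiv.sum_comp π fun s => B.w s * Real.exp (B.a * z s)]
      exact Finset.sum_congr rfl fun s _ => by rw [hg.w]; rfl
  | l :: ls, hn, hg, z => by
      have ih := sk_au_F_gauge hB hn.tail hg.tail
      have hc := gh_b_continuous hB hn.tail
      have hcov := hg.cov l List.mem_cons_self
      simp only [ghF, ghT]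
      have e1 : ∀ ξ, ghF B ls (z + l.inc ξ) = ghF B ls (z ∘ π + l.inc ξ ∘ π) := fun ξ => by
        rw [← ih (z + l.inc ξ)]; rfl
      simp only [e1]
      rw [sk_au_int_gauge l π hcov (fun y => ghF B ls (z ∘ π + y)) (hc.comp (continuous_const.add continuous_id)).measurable,
        sk_au_int_gauge l π hcov (fun y => Real.exp (l.m * ghF B ls (z ∘ π + y)))
          (Real.continuous_exp.comp (continuous_const.mul (hc.comp (continuous_const.add continuous_id)))).measurable]

/-- the planted conditional expectations are gauge equivariant -/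
theorem sk_au_E_gauge {B : GhB S} (hB : B.Ok) {π : Equiv.Perm S} (Φ : S → ℝ) :
    ∀ {ls : List (GhLv S ι)}, GhNn ls → GhGauge B ls π → ∀ z : S → ℝ, ghE B ls Φ (z ∘ π) = ghE B ls (Φ ∘ π.symm) z
  | [], _, hg, z => by
      rw [gh_b_E_nil, gh_b_E_nil, ← Equiv.sum_comp π fun s => ghGw B z s * (Φ ∘ π.symm) s]
      refine Finset.sum_congr rfl fun s _ => ?_
      simp only [Function.comp_apply, Equiv.symm_apply_apply]
      congr 1
      unfold ghGw
      rw [hg.w, ← Equiv.sum_comp π fun s => B.w s * Real.exp (B.a * z s)]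
      simp only [hg.w, Function.comp_apply]
  | l :: ls, hn, hg, z => by
      have ih := sk_au_E_gauge hB Φ hn.tail hg.tail
      have ihF := sk_au_F_gauge hB hn.tail hg.tail
      have hF0 := sk_au_F_gauge hB hn hg z
      have hc := gh_b_continuous hB hn.tail
      have hcE := gh_b_E_continuous hB Φ hn.tail
      have hcov := hg.cov l List.mem_cons_self
      rw [gh_b_E_tower, gh_b_E_tower]
      unfold ghD
      have e1 : ∀ ξ, Real.exp (l.m * (ghF B ls (z + l.inc ξ) - ghF B (l :: ls) z)) * ghE B ls (Φ ∘ π.symm) (z + l.inc ξ) =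
          Real.exp (l.m * (ghF B ls (z ∘ π + l.inc ξ ∘ π) - ghF B (l :: ls) (z ∘ π))) * ghE B ls Φ (z ∘ π + l.inc ξ ∘ π) := fun ξ => by
        rw [← ih (z + l.inc ξ), ← ihF (z + l.inc ξ), hF0]; rfl
      simp only [e1]
      rw [sk_au_int_gauge l π hcov (fun y => Real.exp (l.m * (ghF B ls (z ∘ π + y) - ghF B (l :: ls) (z ∘ π))) * ghE B ls Φ (z ∘ π + y))]
      exact ((Real.continuous_exp.comp (continuous_const.mul ((hc.comp (continuous_const.add continuous_id)).sub continuous_const))).mul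
        (hcE.comp (continuous_const.add continuous_id))).measurable

theorem sk_au_ps_gauge {B : GhB S} (hB : B.Ok) {π : Equiv.Perm S} {ls : List (GhLv S ι)} (hn : GhNn ls) (hg : GhGauge B ls π) (σ : S) (z : S → ℝ) :
    skAuPs B ls σ (z ∘ π) = skAuPs B ls (π σ) z := by
  classical
  unfold skAuPs
  rw [sk_au_E_gauge hB _ hn hg]
  congr 1
  funext s
  simp only [Function.comp_apply, Equiv.symm_apply_eq]

/-- **the pin of a hierarchy** (gauge symmetry): weighting by the planted probability of one terminal spin does not change the law of the continuation -/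
theorem sk_au_pin {B : GhB S} (hB : B.Ok) (l0 : GhLv S ι) {ls : List (GhLv S ι)} (hn : GhNn ls) (σ0 : S)
    (hg : ∀ σ : S, ∃ π : Equiv.Perm S, π σ0 = σ ∧ GhGauge B (l0 :: ls) π) (Φ : ℝ → ℝ≥0∞) (hΦ : Measurable Φ) :
    ∫⁻ ξ, Φ (ghF B ls (l0.inc ξ)) ∂ghStd ι =
      ∫⁻ ξ, ENNReal.ofReal ((Fintype.card S : ℝ) * skAuPs B ls σ0 (l0.inc ξ)) * Φ (ghF B ls (l0.inc ξ)) ∂ghStd ι := by
  have hFc := gh_b_continuous hB hn
  have hw : ∀ σ, 0 ≤ B.w σ := hB.nonneg
  have hps0 : ∀ σ z, 0 ≤ skAuPs B ls σ z := by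
    classical
    intro σ z
    exact gh_b_E_nonneg hB (fun s => by split_ifs <;> simp) hn z
  have hHm : ∀ σ, Measurable fun y : S → ℝ => ENNReal.ofReal (skAuPs B ls σ y) * Φ (ghF B ls y) := fun σ =>
    ((sk_au_ps_cont hB hn σ).measurable.ennreal_ofReal).mul (hΦ.comp hFc.measurable)
  have hinc := gh_l_inc_meas l0
  have h2 : ∀ σ, ∫⁻ ξ, ENNReal.ofReal (skAuPs B ls σ (l0.inc ξ)) * Φ (ghF B ls (l0.inc ξ)) ∂ghStd ι =
      ∫⁻ ξ, ENNReal.ofReal (skAuPs B ls σ0 (l0.inc ξ)) * Φ (ghF B ls (l0.inc ξ)) ∂ghStd ι := by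
    intro σ
    obtain ⟨π, hπ, hgπ⟩ := hg σ
    rw [← sk_au_lint_gauge l0 π (hgπ.cov l0 List.mem_cons_self) _ (hHm σ0)]
    simp only [sk_au_ps_gauge hB hn hgπ.tail, sk_au_F_gauge hB hn hgπ.tail, hπ]
  calc ∫⁻ ξ, Φ (ghF B ls (l0.inc ξ)) ∂ghStd ι
      = ∫⁻ ξ, ∑ σ, ENNReal.ofReal (skAuPs B ls σ (l0.inc ξ)) * Φ (ghF B ls (l0.inc ξ)) ∂ghStd ι := by
        refine lintegral_congr fun ξ => ?_
        rw [← Finset.sum_mul, ← ENNReal.ofReal_sum_of_nonneg fun σ _ => hps0 σ _, sk_au_ps_sum hB hn]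
        simp
    _ = ∑ σ, ∫⁻ ξ, ENNReal.ofReal (skAuPs B ls σ (l0.inc ξ)) * Φ (ghF B ls (l0.inc ξ)) ∂ghStd ι := by
        rw [lintegral_finsetSum]
        intro σ _
        exact (hHm σ).comp hinc
    _ = (Fintype.card S : ℝ≥0∞) * ∫⁻ ξ, ENNReal.ofReal (skAuPs B ls σ0 (l0.inc ξ)) * Φ (ghF B ls (l0.inc ξ)) ∂ghStd ι := by
        simp only [h2]
        rw [Finset.sum_const, Finset.card_univ, nsmul_eq_mul]
    _ = _ := by
        have hm : Measurable fun ξ => ENNReal.ofReal (skAuPs B ls σ0 (l0.inc ξ)) * Φ (ghF B ls (l0.inc ξ)) := (hHm σ0).comp hinc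
        rw [← lintegral_const_mul _ hm]
        refine lintegral_congr fun ξ => ?_
        rw [← mul_assoc, ENNReal.ofReal_mul (Nat.cast_nonneg _), ENNReal.ofReal_natCast]

/-- **LL Lemma 4.2 (i)** for a finite Gaussian hierarchy with a transitive gauge group: `G` = the continuation just after the first revelation `l0`,
`ρ` below all later masses.  Then `ρ G + 𝓔` has log-concave tails. -/
theorem sk_au_gh {B : GhB S} (hB : B.Ok) (l0 : GhLv S ι) (ls : List (GhLv S ι)) {ρ : ℝ} (hρ0 : 0 ≤ ρ) (hρa : ρ ≤ B.a) (hadm : GhAdm B ρ ls)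
    (σ0 : S) (hσ0 : 0 < B.w σ0) (hg : ∀ σ : S, ∃ π : Equiv.Perm S, π σ0 = σ ∧ GhGauge B (l0 :: ls) π) :
    SkLc (((ghStd ι).prod skExpM).map (fun w => ρ * ghF B ls (l0.inc w.1) + w.2)) := by
  have hn : GhNn ls := hadm.ghNn hρ0
  have hFc := gh_b_continuous hB hn
  have hinc := gh_b_inc_continuous l0
  have hcard : (0 : ℝ) < Fintype.card S := by
    have : Nonempty S := ⟨σ0⟩
    exact_mod_cast Fintype.card_pos
  have hpos : ∀ ξ, 0 < (Fintype.card S : ℝ) * skAuPs B ls σ0 (l0.inc ξ) := fun ξ => mul_pos hcard (sk_au_ps_pos hB σ0 hσ0 hn _)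
  have hlin : ∀ (a b : ℝ) (x y : ι → ℝ), l0.inc (a • x + b • y) = a • l0.inc x + b • l0.inc y := fun a b x y => by
    rw [gh_b_inc_add, gh_b_inc_smul, gh_b_inc_smul]
  refine sk_lc_aug (E := ι → ℝ) (γ := ghStd ι) (F := fun ξ => ρ * ghF B ls (l0.inc ξ))
    (U := fun ξ => -Real.log ((Fintype.card S : ℝ) * skAuPs B ls σ0 (l0.inc ξ))) sk_au_pl_std ?_ ?_ ?_ ?_ ?_
  · exact (continuous_const.mul (hFc.comp hinc)).measurable
  · exact (((continuous_const.mul ((sk_au_ps_cont hB hn σ0).comp hinc)).log fun ξ => (hpos ξ).ne').neg).measurable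
  · refine ⟨convex_univ, fun x _ y _ a b ha hb hab => ?_⟩
    have := (ghF_convexOn hB ls hn).2 (mem_univ (l0.inc x)) (mem_univ (l0.inc y)) ha hb hab
    simp only [smul_eq_mul] at this ⊢
    rw [hlin]
    nlinarith [mul_le_mul_of_nonneg_left this hρ0]
  · refine ⟨convex_univ, fun x _ y _ a b ha hb hab => ?_⟩
    have := (sk_au_cvx hB σ0 hσ0 ls ρ hρ0 hρa hadm).2 (mem_univ (l0.inc x)) (mem_univ (l0.inc y)) ha hb hab
    simp only [smul_eq_mul] at this ⊢
    rw [hlin]
    simp only [Real.log_mul hcard.ne' (sk_au_ps_pos hB σ0 hσ0 hn _).ne']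
    have e : Real.log (Fintype.card S : ℝ) = (a + b) * Real.log (Fintype.card S : ℝ) := by rw [hab, one_mul]
    linarith
  · intro Φ hΦ
    have := sk_au_pin hB l0 hn σ0 hg (fun y => Φ (ρ * y)) (hΦ.comp (measurable_const.mul measurable_id))
    simp only [neg_neg, Real.exp_log (hpos _)]
    exact this

end gh

/-! ## SK step paths -/

theorem sk_au_base_ok (n : ℕ) {a : ℝ} (ha : 0 < a) : (skBase n a).Ok := by
  have hc : (0 : ℝ) < Fintype.card (SkCfg n) := by exact_mod_cast Fintype.card_pos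
  refine ⟨fun s => ?_, ?_, ha⟩
  · simp only [skBase, ghUnif]; positivity
  · simp only [skBase, ghUnif, Finset.sum_const, Finset.card_univ, nsmul_eq_mul]
    exact mul_inv_cancel₀ hc.ne'

theorem sk_au_adm {n : ℕ} {a ρ : ℝ} {P : SkStp} (h : SkAdm a P) (hρ : ∀ e ∈ P, ρ ≤ e.m) : GhAdm (skBase n a) ρ (skLvs n P) := by
  constructor
  · unfold skLvs
    rw [List.pairwise_map]
    exact h.1
  · intro l hl
    unfold skLvs at hl
    obtain ⟨e, he, rfl⟩ := List.mem_map.1 hl
    exact ⟨hρ e he, (h.2 e he).2.1⟩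

theorem sk_au_sp_mul {n : ℕ} (σ τ : SkCfg n) (i : Fin n) : skSp (skSpMul σ τ) i = skSp σ i * skSp τ i :=
  sk_lc_spin_mul _ _

theorem sk_au_ov {n : ℕ} (σ σ' τ : SkCfg n) : skOv (skSpMul σ τ) (skSpMul σ' τ) = skOv σ σ' := by
  unfold skOv
  congr 1
  refine Finset.sum_congr rfl fun i _ => ?_
  rw [sk_au_sp_mul, sk_au_sp_mul]
  have := sk_d_sp_mul τ i
  linear_combination (skSp σ i * skSp σ' i) * this

theorem sk_au_gauge {n : ℕ} (hn : 0 < n) {a : ℝ} {P : SkStp} (h : SkAdm a P) (τ : SkCfg n) :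
    GhGauge (skBase n a) (skLvs n P) (sk_lc_spMul_invol τ).toPerm := by
  refine ⟨fun s => rfl, fun l hl s t => ?_⟩
  unfold skLvs at hl
  obtain ⟨e, he, rfl⟩ := List.mem_map.1 hl
  obtain ⟨-, -, hb, hh⟩ := h.2 e he
  rw [sk_d_cov n hn e hb hh, sk_d_cov n hn e hb hh]
  simp only [Function.Involutive.coe_toPerm, sk_au_ov]

theorem sk_au_G_eq (n : ℕ) (a : ℝ) (e : SkInc) (P : SkStp) (ξ : SkDr n → ℝ) :
    skG n a (e :: P) ξ = ghF (skBase n a) (skLvs n P) ((e.lv n).inc ξ) := rfl

/-- **LL Lemma 4.2 (i)** for SK step paths: `ρ G_n + 𝓔` has log-concave tails when `ρ` is below all masses after the first revelation -/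
theorem sk_au_sk {n : ℕ} (hn : 0 < n) {a ρ : ℝ} (hρ0 : 0 ≤ ρ) (ha : 0 < a) (hρa : ρ ≤ a) {e : SkInc} {P : SkStp} (hadm : SkAdm a (e :: P))
    (hρ : ∀ e' ∈ P, ρ ≤ e'.m) :
    SkLc (((ghStd (SkDr n)).prod skExpM).map (fun w => ρ * skG n a (e :: P) w.1 + w.2)) := by
  have hP : SkAdm a P := ⟨(List.pairwise_cons.1 hadm.1).2, fun e' he' => hadm.2 e' (List.mem_cons_of_mem _ he')⟩
  have hc : (0 : ℝ) < Fintype.card (SkCfg n) := by exact_mod_cast Fintype.card_pos
  refine sk_au_gh (sk_au_base_ok n ha) (e.lv n) (skLvs n P) hρ0 hρa (sk_au_adm hP hρ) (skSpOne n) ?_ fun σ => ?_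
  · simp only [skBase, ghUnif]; positivity
  · refine ⟨(sk_lc_spMul_invol σ).toPerm, ?_, ?_⟩
    · funext i
      simp [skSpMul, skSpOne]
    · exact sk_au_gauge hn hadm σ

end Claimed.Agent.R286
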