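import Claimed.Agent.R286.LL04.Defs
import Claimed.Agent.R286.Gh.Reg
import Claimed.Agent.R286.LL04.AugP

/-!
# Row 286 (S0533), unit LL04, file Aug: LL LEMMA 4.2, FIRST HALF, FOR STEP PATHS      (architect helper258; PROVED by helper129 in LL04/AugP.lean = `sk_au_sk`; 61, 64 are FREE; prefix `ll04g_`)

`e :: P` admissible, first revelation at mass `0`, the other masses `≥ r`, `r ≤ a`:   `r G_n + 𝓔` has log-concave tails (`SkLc`, Top/Lc).      Paper: 04 l.84-127.
PLAN (all on the FLAT drivers `x : PinV n (e :: P)`, `γ = ghFlat`; `G⁰ x := skG n a (e :: P) (pinX n (e :: P) x 0)`; `U := pinPhi n a (e :: P) (skUp n)`):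
 G1  `∫ Φ(G ξ) ∂ghStd = ghPath (skBase n a) (skLvs n (e :: P)) 0 (fun ξ _ => Φ (G (ξ 0)))` for bounded measurable `Φ`:   first level has mass `0`, so `ghD = 1`; then `pin_path_one` (and homogeneity of `ghPath` in the test).
 G2  the test `fun ξ _ => Φ (G (ξ 0))` is `PinInv` (gauge: `inc (skFlD η ξ) = skFlZ η (inc ξ)`, `ghF` is invariant under `skFlZ η` for the uniform prior).
 G3  `pin_path_phi` + `pin_gauge_int` + `∑ w = 1`:   `∫ Φ(G ξ) ∂ghStd = ∫ Φ(G⁰ x) exp (-U x) ∂ghFlat`.
 G4  marginal: `∫ Φ(G⁰ x) ∂ghFlat = ∫ Φ(G ξ) ∂ghStd` (`measurePreserving_piEquivPiSubtypeProd` / `measurePreserving_piCongrLeft`, or `pin_path_flat`-style Fubini).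
 G5  `U - r G⁰` convex: `pin_R_gap`: `ghR = ∑_j gap_j F_j(prefix_j)`, `gap_0 = 0`, `gap_1 = v_1 ≥ r`, `F_1(prefix_1) = G⁰`, all `gap_j ≥ 0` (`pin_gap_nonneg`), `ghF_convexOn` composed with the LINEAR prefix maps; the term `-a (…)(s)` is linear.   If `P = []`: `gap_1 = a ≥ r`.
 G6  `sk_lc_aug` with `F = r G⁰` (`hpin` for all measurable `Φ : ℝ → ℝ≥0∞` from G3, G4: the two finite measures `γ.map F`, `(γ.withDensity e^{-U}).map F` agree on measurable sets);   `PLProp` of `ghFlat`: `sk_lc_pl_pi`, `sk_lc_pl_gauss`.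
 G7  the law of `(r G⁰ x + e)` under `ghFlat ⊗ skExpM` = the law of `(r G ξ + e)` under `ghStd ⊗ skExpM` (G4 with one more variable).
The contracts of Fd/PinC (helper278) may be used as they are (sorried there until their provers land).
-/

set_option autoImplicit false

namespace Claimed.Agent.R286

open MeasureTheory Set

/-- **EXIT of the file** = `ll04_aug` of LL04/Contract -/
theorem ll04g_main (n : ℕ) (a r : ℝ) (e : SkInc) (P : SkStp) (hn : 1 ≤ n) (hadm : SkAdm a (e :: P)) (he : e.m = 0) (hr : 0 < r)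
    (hP : ∀ e' ∈ P, r ≤ e'.m) (hra : r ≤ a) :
    SkLc (((ghStd (SkDr n)).prod skExpM).map fun w => r * skG n a (e :: P) w.1 + w.2) :=
  -- PROVED (helper129): `sk_au_sk` of LL04/AugP.lean (inductive Prekopa on the hierarchy; `he` is not needed)
  sk_au_sk (by omega) hr.le (lt_of_lt_of_le hr hra) hra hadm hP

end Claimed.Agent.R286
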