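import Claimed.Agent.R286.Top.LcSk
import Claimed.Agent.R286.Gk.Reg
import Claimed.Agent.R286.LL04.Bridge
import Claimed.Agent.R286.Brg.Step

/-!
# Row 286 (S0533), unit LL04, file STOP: LL Lemma 4.2, second half = THE STOPPED CHANGE OF MEASURE      (helper245; prefix `ll04_st_`)      0 sorry

TEX[LL:red:lem-augmentation] (04-reduction.tex l.133-161).      Closes `ll04_stop`, `ll04_stop_x` of LL04/Contract from `ll04_aug` (hypothesis `Ll04Aug` = its statement verbatim).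

Abstract part (any probability space `γ`, `F ∈ L²`, `SkLc (law (F + 𝓔))`; tools of Top/LcSk), `Λ(u) = log E e^{u (F - E F)}`:
* `ll04_st_one_le`   `E e^{u (F - E F)} ≥ 1`;      `ll04_st_noise`   `e^{-u}/(1-u) ≤ e^{4u²/3}`, `u ≤ 1/4`
* `ll04_st_var`      `u² (Var F + 1) ≤ A (Λ(u) + u²)` if `0 ≤ u ≤ 1/4`, `Λ(u) + u² ≤ 1/2`      (mass of the positive side + `e^t - 1 - t ≥ t²/2`)
* `ll04_st_abs`      `p² (Λ(u) + u²) ≤ c ⟹ Λ(p u) ≤ C p² (Λ(u) + u²)`
SK part (step paths of `Defs/Sk`):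
* `ll04_st_G`        `G_n = skG n a (e :: P)` is continuous, in `L²`, and has all exponential moments (from `ghr_F`, Gk/Reg)
* `ll04_st_KK`       `skKK n a t (e :: P) = Λ_{ρ G}(t/ρ)`      ((A4) = `sk_br_A4`)
* `ll04_st_main`     = `ll04_stop`;      `ll04_st_x` = `ll04_stop_x`
-/

set_option autoImplicit false

namespace Claimed.Agent.R286

open MeasureTheory ProbabilityTheory Filter Topology Set
open scoped ENNReal NNReal

section abs

variable {E : Type*} [MeasurableSpace E] {γ : Measure E} [IsProbabilityMeasure γ] {F : E → ℝ}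

/-- the constant of the variance bound -/
noncomputable def ll04A : ℝ := 65536 * skLcK ^ 4

theorem ll04_st_A_pos : 0 < ll04A := by
  have := sk_lc_K_ge
  unfold ll04A
  positivity

/-- Jensen: the centred Laplace transform is `≥ 1` -/
theorem ll04_st_one_le (hF : Integrable F γ) {u : ℝ}
    (hint : Integrable (fun g => Real.exp (u * (F g - ∫ g, F g ∂γ))) γ) :
    1 ≤ ∫ g, Real.exp (u * (F g - ∫ g, F g ∂γ)) ∂γ := by
  have hFc : Integrable (fun g => F g - ∫ g, F g ∂γ) γ := hF.sub (integrable_const _)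
  have hc : Integrable (fun g => u * (F g - ∫ g, F g ∂γ) + 1) γ :=
    (hFc.const_mul u).add (integrable_const _)
  have h1 : ∫ g, (u * (F g - ∫ g, F g ∂γ) + 1) ∂γ = 1 := by
    rw [integral_add (hFc.const_mul u) (integrable_const _), integral_const_mul,
      integral_sub hF (integrable_const _)]
    simp
  rw [← h1]
  exact integral_mono hc hint fun g => Real.add_one_le_exp _

/-- the noise factor -/
theorem ll04_st_noise {u : ℝ} (hu : u ≤ 1 / 4) :
    Real.exp (-u) / (1 - u) ≤ Real.exp (4 / 3 * u ^ 2) := by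
  have h1 : 0 < 1 - u := by linarith
  rw [div_le_iff₀ h1]
  have h2 := Real.one_sub_inv_le_log_of_pos h1
  have h3 : -u - 4 / 3 * u ^ 2 ≤ Real.log (1 - u) := by
    refine le_trans ?_ h2
    rw [← sub_nonneg]
    have : 1 - (1 - u)⁻¹ - (-u - 4 / 3 * u ^ 2) = u ^ 2 * (1 / 3 - 4 / 3 * u) / (1 - u) := by
      field_simp
      ring
    rw [this]
    apply div_nonneg _ h1.le
    apply mul_nonneg (by positivity)
    linarith
  have h4 : Real.exp (-u - 4 / 3 * u ^ 2) ≤ 1 - u := by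
    rw [← Real.le_log_iff_exp_le h1]
    exact h3
  calc Real.exp (-u) = Real.exp (4 / 3 * u ^ 2) * Real.exp (-u - 4 / 3 * u ^ 2) := by
        rw [← Real.exp_add]; congr 1; ring
    _ ≤ Real.exp (4 / 3 * u ^ 2) * (1 - u) := by gcongr

/-- **the positive Laplace transform controls the variance** (LL l.141-156) -/
theorem ll04_st_var (hFm : Measurable F) (hF2 : MemLp F 2 γ)
    (hlc : SkLc ((γ.prod skExpM).map (fun w => F w.1 + w.2))) {u : ℝ} (hu0 : 0 ≤ u) (hu : u ≤ 1 / 4)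
    (hint : Integrable (fun g => Real.exp (u * (F g - ∫ g, F g ∂γ))) γ)
    (hκ : Real.log (∫ g, Real.exp (u * (F g - ∫ g, F g ∂γ)) ∂γ) + u ^ 2 ≤ 1 / 2) :
    0 ≤ Real.log (∫ g, Real.exp (u * (F g - ∫ g, F g ∂γ)) ∂γ) ∧
    u ^ 2 * (Var[F; γ] + 1) ≤ ll04A * (Real.log (∫ g, Real.exp (u * (F g - ∫ g, F g ∂γ)) ∂γ) + u ^ 2) := by
  have hK := sk_lc_K_ge
  have hF1 : Integrable F γ := hF2.integrable (by norm_num)
  set m : ℝ := ∫ g, F g ∂γ with hm
  set M : ℝ := ∫ g, Real.exp (u * (F g - m)) ∂γ with hM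
  set σ : ℝ := Real.sqrt (Var[F; γ] + 1) with hσ
  have hV0 : 0 ≤ Var[F; γ] := variance_nonneg _ _
  have hσ2 : σ ^ 2 = Var[F; γ] + 1 := Real.sq_sqrt (by linarith)
  have hσ0 : 0 ≤ σ := Real.sqrt_nonneg _
  have hM1 : 1 ≤ M := ll04_st_one_le hF1 hint
  have hM0 : 0 < M := by linarith
  have hΛ0 : 0 ≤ Real.log M := Real.log_nonneg hM1
  refine ⟨hΛ0, ?_⟩
  set Z : E × ℝ → ℝ := fun w => (F w.1 - m) + (w.2 - 1) with hZ
  have hZm : Measurable Z := ((hFm.comp measurable_fst).sub_const _).add (measurable_snd.sub_const _)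
  have hu1 : u < 1 := by linarith
  -- (a) the Laplace transform of `Z` factorises
  have hexp : ∀ w : E × ℝ, Real.exp (u * Z w) = Real.exp (u * (F w.1 - m)) * Real.exp (u * (w.2 - 1)) := by
    intro w
    rw [← Real.exp_add]; congr 1; simp only [hZ]; ring
  have hEi : Integrable (fun w => Real.exp (u * Z w)) (γ.prod skExpM) := by
    simp_rw [hexp]
    exact hint.mul_prod (sk_lc_cen_mgf hu1).1
  have hEv : ∫ w, Real.exp (u * Z w) ∂(γ.prod skExpM) = M * (Real.exp (-u) / (1 - u)) := by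
    simp_rw [hexp]
    rw [integral_prod_mul (fun g => Real.exp (u * (F g - m))) (fun e : ℝ => Real.exp (u * (e - 1))),
      (sk_lc_cen_mgf hu1).2]
  -- (b) `Z` is centred
  have hFc : Integrable (fun g => F g - m) γ := hF1.sub (integrable_const _)
  have hZ1 : Integrable (fun w : E × ℝ => F w.1 - m) (γ.prod skExpM) := hFc.comp_fst _
  have hZ2 : Integrable (fun w : E × ℝ => w.2 - 1) (γ.prod skExpM) := sk_lc_cen_int.comp_snd _
  have hZi : Integrable Z (γ.prod skExpM) := hZ1.add hZ2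
  have hZ0 : ∫ w, Z w ∂(γ.prod skExpM) = 0 := by
    simp only [hZ]
    rw [integral_add hZ1 hZ2,
      integral_fun_fst (fun g => F g - m), integral_fun_snd (fun e : ℝ => e - 1), sk_lc_cen_mean,
      integral_sub hF1 (integrable_const _)]
    simp [hm]
  -- (c), (d) the mass of the positive side
  set ca : ℝ := 1 / (16 * skLcK) with hca
  set cb : ℝ := 1 / (32 * skLcK ^ 2) with hcb
  have hca0 : 0 < ca := by positivity
  have hcb0 : 0 < cb := by positivity
  set S : Set (E × ℝ) := {w | ca * σ ≤ Z w} with hS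
  have hSm : MeasurableSet S := measurableSet_le measurable_const hZm
  have hmass : cb ≤ (γ.prod skExpM).real S := sk_lc_G_mass hFm hF2 hlc
  have hpt : ∀ w, S.indicator (fun _ => (u * (ca * σ)) ^ 2 / 2) w ≤ Real.exp (u * Z w) - 1 - u * Z w := by
    intro w
    by_cases hw : w ∈ S
    · rw [indicator_of_mem hw]
      have h1 : u * (ca * σ) ≤ u * Z w := mul_le_mul_of_nonneg_left hw hu0
      have h0 : 0 ≤ u * (ca * σ) := by positivity
      have h2 := Real.quadratic_le_exp_of_nonneg (le_trans h0 h1)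
      have h3 : (u * (ca * σ)) ^ 2 ≤ (u * Z w) ^ 2 := pow_le_pow_left₀ h0 h1 2
      linarith
    · rw [indicator_of_notMem hw]
      linarith [Real.add_one_le_exp (u * Z w)]
  have hE1 : Integrable (fun w => Real.exp (u * Z w) - 1) (γ.prod skExpM) := hEi.sub (integrable_const _)
  have hI : (u * (ca * σ)) ^ 2 / 2 * (γ.prod skExpM).real S
      ≤ ∫ w, (Real.exp (u * Z w) - 1 - u * Z w) ∂(γ.prod skExpM) := by
    have h1 : ∫ w, S.indicator (fun _ => (u * (ca * σ)) ^ 2 / 2) w ∂(γ.prod skExpM)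
        = (u * (ca * σ)) ^ 2 / 2 * (γ.prod skExpM).real S := by
      rw [integral_indicator hSm, setIntegral_const, smul_eq_mul, mul_comm]
    rw [← h1]
    exact integral_mono ((integrable_const _).indicator hSm) (hE1.sub (hZi.const_mul u)) hpt
  have hI2 : ∫ w, (Real.exp (u * Z w) - 1 - u * Z w) ∂(γ.prod skExpM) = M * (Real.exp (-u) / (1 - u)) - 1 := by
    rw [integral_sub hE1 (hZi.const_mul u), integral_sub hEi (integrable_const _),
      integral_const_mul, hZ0, hEv]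
    simp
  -- (f) the upper bound
  set κ : ℝ := Real.log M + u ^ 2 with hκdef
  have hκ0 : 0 ≤ κ := by positivity
  have hup : M * (Real.exp (-u) / (1 - u)) - 1 ≤ 4 * κ := by
    have h1 : M * (Real.exp (-u) / (1 - u)) ≤ Real.exp (4 / 3 * κ) := by
      calc M * (Real.exp (-u) / (1 - u)) ≤ M * Real.exp (4 / 3 * u ^ 2) := by
            gcongr
            exact ll04_st_noise hu
        _ = Real.exp (Real.log M + 4 / 3 * u ^ 2) := by rw [Real.exp_add, Real.exp_log hM0]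
        _ ≤ Real.exp (4 / 3 * κ) := by
            apply Real.exp_le_exp.2
            simp only [hκdef]
            linarith
    have h2 : (4 : ℝ) / 3 * κ < 1 := by linarith
    have h3 := Real.exp_bound_div_one_sub_of_interval (x := 4 / 3 * κ) (by positivity) h2
    have h4 : 1 / (1 - 4 / 3 * κ) ≤ 1 + 4 * κ := by
      rw [div_le_iff₀ (by linarith)]
      nlinarith
    linarith
  -- conclusion
  have hfin : (u * (ca * σ)) ^ 2 / 2 * cb ≤ 4 * κ := by
    calc (u * (ca * σ)) ^ 2 / 2 * cb ≤ (u * (ca * σ)) ^ 2 / 2 * (γ.prod skExpM).real S := by gcongr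
      _ ≤ _ := hI
      _ = _ := hI2
      _ ≤ _ := hup
  rw [← hσ2]
  have e : (u * (ca * σ)) ^ 2 / 2 * cb = u ^ 2 * σ ^ 2 / (16384 * skLcK ^ 4) := by
    simp only [hca, hcb]
    field_simp
    ring
  rw [e, div_le_iff₀ (by positivity)] at hfin
  unfold ll04A
  linarith

/-- the two universal constants of the stopped change of measure -/
noncomputable def ll04c : ℝ := min (1 / 2) (skLcc ^ 2 / ll04A)
noncomputable def ll04C : ℝ := (8 * skLcC / skLcT ^ 2 + 1) * ll04A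

theorem ll04_st_c_pos : 0 < ll04c := by
  have h1 := sk_lc_c_pos
  have h2 := ll04_st_A_pos
  unfold ll04c
  positivity

theorem ll04_st_c_lt : ll04c < 1 := lt_of_le_of_lt (min_le_left _ _) (by norm_num)

theorem ll04_st_C_pos : 0 < ll04C := by
  have h1 := sk_lc_C_nonneg
  have h2 := ll04_st_A_pos
  have h3 := sk_lc_T_pos
  unfold ll04C
  positivity

/-- **stopped change of measure, abstract form**: `Λ(u) = log E e^{u (F - E F)}`, `κ = Λ(u) + u²`; `p² κ ≤ c ⟹ Λ(p u) ≤ C p² κ` -/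
theorem ll04_st_abs (hFm : Measurable F) (hF2 : MemLp F 2 γ)
    (hlc : SkLc ((γ.prod skExpM).map (fun w => F w.1 + w.2))) {u p : ℝ} (hu0 : 0 ≤ u) (hu : u ≤ 1 / 4) (hp : 1 ≤ p)
    (hint : Integrable (fun g => Real.exp (u * (F g - ∫ g, F g ∂γ))) γ)
    (hκ : p ^ 2 * (Real.log (∫ g, Real.exp (u * (F g - ∫ g, F g ∂γ)) ∂γ) + u ^ 2) ≤ ll04c) :
    Real.log (∫ g, Real.exp (p * u * (F g - ∫ g, F g ∂γ)) ∂γ)
      ≤ ll04C * p ^ 2 * (Real.log (∫ g, Real.exp (u * (F g - ∫ g, F g ∂γ)) ∂γ) + u ^ 2) := by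
  have hA := ll04_st_A_pos
  have hF1 : Integrable F γ := hF2.integrable (by norm_num)
  have hΛ0 : 0 ≤ Real.log (∫ g, Real.exp (u * (F g - ∫ g, F g ∂γ)) ∂γ) :=
    Real.log_nonneg (ll04_st_one_le hF1 hint)
  set κ : ℝ := Real.log (∫ g, Real.exp (u * (F g - ∫ g, F g ∂γ)) ∂γ) + u ^ 2 with hκdef
  have hκ0 : 0 ≤ κ := by positivity
  have hp2 : 1 ≤ p ^ 2 := one_le_pow₀ hp
  have hκle : κ ≤ p ^ 2 * κ := le_mul_of_one_le_left hκ0 hp2
  have hκ12 : κ ≤ 1 / 2 := le_trans hκle (le_trans hκ (min_le_left _ _))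
  obtain ⟨-, hvar⟩ := ll04_st_var hFm hF2 hlc hu0 hu hint hκ12
  set σ : ℝ := Real.sqrt (Var[F; γ] + 1) with hσ
  have hV0 : 0 ≤ Var[F; γ] := variance_nonneg _ _
  have hσ2 : σ ^ 2 = Var[F; γ] + 1 := Real.sq_sqrt (by linarith)
  have hσ0 : 0 ≤ σ := Real.sqrt_nonneg _
  rw [← hσ2] at hvar
  have hsq : (p * u * σ) ^ 2 ≤ skLcc ^ 2 := by
    calc (p * u * σ) ^ 2 = p ^ 2 * (u ^ 2 * σ ^ 2) := by ring
      _ ≤ p ^ 2 * (ll04A * κ) := by gcongr
      _ = ll04A * (p ^ 2 * κ) := by ring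
      _ ≤ ll04A * (skLcc ^ 2 / ll04A) := by
          gcongr
          exact le_trans hκ (min_le_right _ _)
      _ = skLcc ^ 2 := by field_simp
  have hsmall : p * u * σ ≤ skLcc :=
    le_of_pow_le_pow_left₀ (by norm_num) sk_lc_c_pos.le hsq
  have hU := sk_lc_F_logU hFm hF2 hlc (t := p * u) (by positivity) hsmall
  have hB : 0 ≤ 8 * skLcC / skLcT ^ 2 := by
    have h1 := sk_lc_C_nonneg
    have h3 := sk_lc_T_pos
    positivity
  calc Real.log (∫ g, Real.exp (p * u * (F g - ∫ g, F g ∂γ)) ∂γ)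
      ≤ 8 * skLcC / skLcT ^ 2 * (p * u) ^ 2 * σ ^ 2 := hU
    _ = 8 * skLcC / skLcT ^ 2 * (p ^ 2 * (u ^ 2 * σ ^ 2)) := by ring
    _ ≤ 8 * skLcC / skLcT ^ 2 * (p ^ 2 * (ll04A * κ)) := by gcongr
    _ ≤ (8 * skLcC / skLcT ^ 2 + 1) * (p ^ 2 * (ll04A * κ)) := by
        gcongr
        linarith
    _ = ll04C * p ^ 2 * κ := by unfold ll04C; ring

end abs

section sk

/-- regularity of `G_n` as a function of the first driver -/
theorem ll04_st_G (n : ℕ) {a : ℝ} (ha : 0 < a) (e : SkInc) (P : SkStp) :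
    Continuous (skG n a (e :: P)) ∧ MemLp (skG n a (e :: P)) 2 (ghStd (SkDr n)) ∧
      ∀ t c : ℝ, Integrable (fun ξ => Real.exp (t * (skG n a (e :: P) ξ - c))) (ghStd (SkDr n)) := by
  have hB : (skBase n a).Ok := by
    refine ⟨fun s => ?_, ?_, ha⟩
    · simp only [skBase, ghUnif]; positivity
    · simp only [skBase, ghUnif, Finset.sum_const, Finset.card_univ, nsmul_eq_mul]
      exact mul_inv_cancel₀ (by positivity)
  have hR : GkReg (ghF (skBase n a) (skLvs n P)) := ghr_F hB _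
  have hn := ghr_noise (e.lv n)
  have hG : skG n a (e :: P) = fun ξ => ghF (skBase n a) (skLvs n P) (0 + (e.lv n).inc ξ) := by
    funext ξ
    simp only [skG, skF, zero_add]
  have hcF : Continuous (ghF (skBase n a) (skLvs n P)) := (hR.eg 0).1.continuous
  have hcI : Continuous (e.lv n).inc := (ghrInc (e.lv n)).continuous
  have hc : Continuous (skG n a (e :: P)) := by
    rw [hG]
    exact hcF.comp (continuous_const.add hcI)
  refine ⟨hc, ?_, ?_⟩
  · rw [memLp_two_iff_integrable_sq hc.aestronglyMeasurable, hG]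
    obtain ⟨A, K, hA, hK, hgr⟩ := hR.gr
    refine gk_int hn (u := fun z => ghF (skBase n a) (skLvs n P) z ^ 2) (hcF.pow 2)
      ⟨A ^ 2, 2 * K, by positivity, by positivity, fun z => ?_⟩ 0
    rw [norm_pow, show 2 * K * ‖z‖ = K * ‖z‖ + K * ‖z‖ by ring, Real.exp_add, sq, sq]
    have := hgr z
    calc ‖ghF (skBase n a) (skLvs n P) z‖ * ‖ghF (skBase n a) (skLvs n P) z‖
        ≤ (A * Real.exp (K * ‖z‖)) * (A * Real.exp (K * ‖z‖)) := by gcongr
      _ = _ := by ring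
  · intro t c
    rw [hG]
    have hR2 : GkReg fun z => t * ghF (skBase n a) (skLvs n P) z + (-(t * c)) := (hR.const_mul t).add_const _
    have hP := hR2.exp
    have h0 := gk_int hn (hP.eg 0).1.continuous (hP.eg 0).gr 0
    refine h0.congr (Eventually.of_forall fun ξ => ?_)
    simp only
    congr 1
    ring

/-- the statement of `ll04_aug` (LL Lemma 4.2, first half; file LL04/Contract, proof LL04/Aug) -/
def Ll04Aug : Prop :=
  ∀ (n : ℕ) (a r : ℝ) (e : SkInc) (P : SkStp), 1 ≤ n → SkAdm a (e :: P) → e.m = 0 → 0 < r →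
    (∀ e' ∈ P, r ≤ e'.m) → r ≤ a →
    SkLc (((ghStd (SkDr n)).prod skExpM).map fun w => r * skG n a (e :: P) w.1 + w.2)

/-- `K_n(t)` as a centred log Laplace transform of `ρ G_n` at the parameter `t / ρ` -/
theorem ll04_st_KK {n : ℕ} (hn : 1 ≤ n) {a ρ t : ℝ} (ha : 0 < a) (hρ : 0 < ρ) (ht : t ≠ 0) (e : SkInc) (he : e.m = 0)
    (P : SkStp) :
    skKK n a t (e :: P) = Real.log (∫ ξ, Real.exp (t / ρ * (ρ * skG n a (e :: P) ξ
      - ∫ η, ρ * skG n a (e :: P) η ∂ghStd (SkDr n))) ∂ghStd (SkDr n)) := by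
  have hi : Integrable (fun ξ => Real.exp (t * skG n a (e :: P) ξ)) (ghStd (SkDr n)) := by
    simpa using (ll04_st_G n ha e P).2.2 t 0
  rw [sk_br_A4 hn a ht e he P hi, integral_const_mul]
  congr 2
  funext ξ
  congr 1
  field_simp

/-- **LL Lemma 4.2, second half (stopped change of measure), non-asymptotic**, from the augmentation -/
theorem ll04_st_main (haug : Ll04Aug) :
    ∃ c C : ℝ, 0 < c ∧ c < 1 ∧ 0 < C ∧ ∀ (n : ℕ) (a ρ s p : ℝ) (e : SkInc) (P : SkStp), 1 ≤ n → SkAdm a (e :: P) → e.m = 0 → 0 < ρ →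
    (∀ e' ∈ P, ρ ≤ e'.m) → ρ ≤ a → 0 < s → s ≤ ρ / 4 → 1 ≤ p →
    p ^ 2 * (skKK n a s (e :: P) + s ^ 2 / ρ ^ 2) ≤ c →
    skKK n a (p * s) (e :: P) ≤ C * p ^ 2 * (skKK n a s (e :: P) + s ^ 2 / ρ ^ 2) := by
  refine ⟨ll04c, ll04C, ll04_st_c_pos, ll04_st_c_lt, ll04_st_C_pos, ?_⟩
  intro n a ρ s p e P hn hadm he hρ hP hρa hs hsρ hp hκ
  have ha : 0 < a := lt_of_lt_of_le hρ hρa
  obtain ⟨hc, h2, hexp⟩ := ll04_st_G n ha e P
  have hp0 : 0 < p := by linarith
  have hlc := haug n a ρ e P hn hadm he hρ hP hρa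
  have hFm : Measurable fun ξ => ρ * skG n a (e :: P) ξ := (hc.measurable).const_mul ρ
  have hF2 : MemLp (fun ξ => ρ * skG n a (e :: P) ξ) 2 (ghStd (SkDr n)) := h2.const_mul ρ
  have hu0 : 0 ≤ s / ρ := by positivity
  have hu : s / ρ ≤ 1 / 4 := by
    rw [div_le_iff₀ hρ]; linarith
  have hint : Integrable (fun ξ => Real.exp (s / ρ * (ρ * skG n a (e :: P) ξ
      - ∫ η, ρ * skG n a (e :: P) η ∂ghStd (SkDr n)))) (ghStd (SkDr n)) := by
    refine (hexp s (∫ η, skG n a (e :: P) η ∂ghStd (SkDr n))).congr (Eventually.of_forall fun ξ => ?_)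
    simp only
    rw [integral_const_mul]
    congr 1
    field_simp
  have e1 := ll04_st_KK hn ha hρ hs.ne' e he P
  have e2 := ll04_st_KK hn ha hρ (mul_pos hp0 hs).ne' e he P
  have e3 : p * s / ρ = p * (s / ρ) := by ring
  have e4 : s ^ 2 / ρ ^ 2 = (s / ρ) ^ 2 := by rw [div_pow]
  rw [e3] at e2
  rw [e1, e4] at hκ
  rw [e1, e2, e4]
  exact ll04_st_abs hFm hF2 hlc hu0 hu hp hint hκ

/-- **the paper's form** (`K_m(s) ≤ 4 x^ε ⟹ K_m(p s) ≤ 1` for `N ≥ N0(ε, q, p)`) -/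
theorem ll04_st_x (haug : Ll04Aug) (ε q p : ℝ) (hε : 0 < ε) (hq : 0 < q) (hp : 1 ≤ p) :
    ∃ N0 : ℕ, ∀ N : ℕ, N0 ≤ N → ∀ (n : ℕ) (a : ℝ) (e : SkInc) (P : SkStp),
    1 ≤ n → SkAdm a (e :: P) → e.m = 0 → (∀ e' ∈ P, skX N ≤ e'.m) → skX N ≤ a →
    skKK n a (q * skX N ^ (1 + ε)) (e :: P) ≤ 4 * skX N ^ ε →
    skKK n a (p * (q * skX N ^ (1 + ε))) (e :: P) ≤ 1 := by
  obtain ⟨c, C, hc0, -, hC0, hmain⟩ := ll04_st_main haug
  -- `x^ε → 0`
  have hlim : Tendsto (fun N : ℕ => skX N ^ ε) atTop (𝓝 0) := by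
    have h1 : Tendsto (fun N : ℕ => (N : ℝ) ^ (-(ε / 6))) atTop (𝓝 0) :=
      (tendsto_rpow_neg_atTop (by positivity : 0 < ε / 6)).comp tendsto_natCast_atTop_atTop
    refine h1.congr fun N => ?_
    unfold skX
    rw [← Real.rpow_mul (Nat.cast_nonneg N)]
    congr 1
    ring
  set δ : ℝ := min (min (1 / (4 * q)) 1) (min (c / (p ^ 2 * (4 + q ^ 2))) (1 / (C * p ^ 2 * (4 + q ^ 2)))) with hδ
  have hp0 : 0 < p := by linarith
  have hδ0 : 0 < δ := by
    simp only [hδ]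
    positivity
  obtain ⟨N0, hN0⟩ := eventually_atTop.1 (hlim.eventually (gt_mem_nhds hδ0))
  refine ⟨max N0 1, fun N hN n a e P hn hadm he hP hxa hK => ?_⟩
  have hN1 : 1 ≤ N := le_trans (le_max_right _ _) hN
  have hx0 : 0 < skX N := Real.rpow_pos_of_pos (by exact_mod_cast hN1) _
  set y : ℝ := skX N ^ ε with hy
  have hy0 : 0 < y := Real.rpow_pos_of_pos hx0 _
  have hyδ : y < δ := hN0 N (le_trans (le_max_left _ _) hN)
  have hy1 : y ≤ 1 / (4 * q) := le_trans hyδ.le (le_trans (min_le_left _ _) (min_le_left _ _))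
  have hy2 : y ≤ 1 := le_trans hyδ.le (le_trans (min_le_left _ _) (min_le_right _ _))
  have hy3 : y ≤ c / (p ^ 2 * (4 + q ^ 2)) := le_trans hyδ.le (le_trans (min_le_right _ _) (min_le_left _ _))
  have hy4 : y ≤ 1 / (C * p ^ 2 * (4 + q ^ 2)) := le_trans hyδ.le (le_trans (min_le_right _ _) (min_le_right _ _))
  have hs : q * skX N ^ (1 + ε) = q * y * skX N := by
    rw [Real.rpow_add hx0, Real.rpow_one]; ring
  have hs0 : 0 < q * skX N ^ (1 + ε) := by positivity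
  have hs4 : q * skX N ^ (1 + ε) ≤ skX N / 4 := by
    rw [hs]
    have : q * y ≤ 1 / 4 := by
      rw [le_div_iff₀ (by positivity)] at hy1
      linarith
    nlinarith
  have hsq : (q * skX N ^ (1 + ε)) ^ 2 / skX N ^ 2 = q ^ 2 * y ^ 2 := by
    rw [hs]; field_simp
  have hκ : skKK n a (q * skX N ^ (1 + ε)) (e :: P) + (q * skX N ^ (1 + ε)) ^ 2 / skX N ^ 2 ≤ (4 + q ^ 2) * y := by
    rw [hsq]
    have : y ^ 2 ≤ y := by nlinarith
    nlinarith [sq_nonneg q]
  have h1 : p ^ 2 * (skKK n a (q * skX N ^ (1 + ε)) (e :: P) + (q * skX N ^ (1 + ε)) ^ 2 / skX N ^ 2) ≤ c := by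
    calc p ^ 2 * (skKK n a (q * skX N ^ (1 + ε)) (e :: P) + (q * skX N ^ (1 + ε)) ^ 2 / skX N ^ 2)
        ≤ p ^ 2 * ((4 + q ^ 2) * y) := by gcongr
      _ = (p ^ 2 * (4 + q ^ 2)) * y := by ring
      _ ≤ (p ^ 2 * (4 + q ^ 2)) * (c / (p ^ 2 * (4 + q ^ 2))) := by gcongr
      _ = c := by field_simp
  have h2 := hmain n a (skX N) (q * skX N ^ (1 + ε)) p e P hn hadm he hx0 hP hxa hs0 hs4 hp h1
  calc skKK n a (p * (q * skX N ^ (1 + ε))) (e :: P)
      ≤ C * p ^ 2 * (skKK n a (q * skX N ^ (1 + ε)) (e :: P) + (q * skX N ^ (1 + ε)) ^ 2 / skX N ^ 2) := h2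
    _ ≤ C * p ^ 2 * ((4 + q ^ 2) * y) := by gcongr
    _ = (C * p ^ 2 * (4 + q ^ 2)) * y := by ring
    _ ≤ (C * p ^ 2 * (4 + q ^ 2)) * (1 / (C * p ^ 2 * (4 + q ^ 2))) := by gcongr
    _ = 1 := by field_simp

theorem ll04_st_eqns_cite : True := by
  have := @ll04A.eq_1
  have := @ll04c.eq_1
  have := @ll04C.eq_1
  have := @Ll04Aug.eq_1
  trivial

/-! ## EMPTY STAGES DO NOT MATTER      (22's fit alarm: a generic chain contains empty stages at masses in `(0,x)`; prefix `ll04_ne_`)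

`skNe P` = `P` without its empty revelations (`db = dh = 0`).   Nothing changes: `skF`, `skG`, `skPr`, `skKK`, the totals; admissibility is kept.
So in `ll04_aug`, `ll04_stop`, `ll04_stop_x` the lower bound on the later masses is needed for the NON-EMPTY later stages only (`ll04_ne_aug`, `ll04_ne_main`, `ll04_ne_x`;
final forms `ll04_aug_ne`, `ll04_stop_ne`, `ll04_stop_x_ne` in LL04/Contract). -/

open Classical in
/-- remove the empty revelations -/
noncomputable def skNe (P : SkStp) : SkStp := P.filter fun e => decide (e.db ≠ 0 ∨ e.dh ≠ 0)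

theorem ll04_ne_eqns_cite : True := by
  have := @skNe.eq_1
  trivial

theorem ll04_ne_nil : skNe [] = [] := rfl

theorem ll04_ne_cons_pos (e : SkInc) (P : SkStp) (h : e.db ≠ 0 ∨ e.dh ≠ 0) : skNe (e :: P) = e :: skNe P := by
  unfold skNe
  rw [List.filter_cons_of_pos (by simpa using h)]

theorem ll04_ne_cons_neg (e : SkInc) (P : SkStp) (h : ¬ (e.db ≠ 0 ∨ e.dh ≠ 0)) : skNe (e :: P) = skNe P := by
  unfold skNe
  rw [List.filter_cons_of_neg (by simpa using h)]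

theorem ll04_ne_mem {P : SkStp} {e : SkInc} : e ∈ skNe P ↔ e ∈ P ∧ (e.db ≠ 0 ∨ e.dh ≠ 0) := by
  unfold skNe
  rw [List.mem_filter]
  simp

theorem ll04_ne_sublist (P : SkStp) : (skNe P).Sublist P := List.filter_sublist

/-- the continuation does not see the empty revelations (NO admissibility, any order of the masses) -/
theorem ll04_ne_F (n : ℕ) (a : ℝ) (P : SkStp) (z : SkCfg n → ℝ) : skF n a (skNe P) z = skF n a P z := by
  induction P generalizing z with
  | nil => rfl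
  | cons e P ih =>
    by_cases h : e.db ≠ 0 ∨ e.dh ≠ 0
    · rw [ll04_ne_cons_pos e P h]
      exact sk_stp_F_congr n a e ih z
    · rw [ll04_ne_cons_neg e P h, ih]
      push_neg at h
      obtain ⟨m, db, dh⟩ := e
      simp only at h
      obtain ⟨rfl, rfl⟩ := h
      exact (sk_stp_drop n a m P z).symm

theorem ll04_ne_F_cons (n : ℕ) (a : ℝ) (e : SkInc) (P : SkStp) (z : SkCfg n → ℝ) : skF n a (e :: skNe P) z = skF n a (e :: P) z :=
  sk_stp_F_congr n a e (ll04_ne_F n a P) z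

theorem ll04_ne_totB (P : SkStp) : skTotB (skNe P) = skTotB P := by
  induction P with
  | nil => rfl
  | cons e P ih =>
    by_cases h : e.db ≠ 0 ∨ e.dh ≠ 0
    · rw [ll04_ne_cons_pos e P h]
      unfold skTotB at ih ⊢
      simp only [List.map_cons, List.sum_cons, ih]
    · rw [ll04_ne_cons_neg e P h, ih]
      push_neg at h
      unfold skTotB
      simp only [List.map_cons, List.sum_cons, h.1, zero_add]

theorem ll04_ne_totH (P : SkStp) : skTotH (skNe P) = skTotH P := by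
  induction P with
  | nil => rfl
  | cons e P ih =>
    by_cases h : e.db ≠ 0 ∨ e.dh ≠ 0
    · rw [ll04_ne_cons_pos e P h]
      unfold skTotH at ih ⊢
      simp only [List.map_cons, List.sum_cons, ih]
    · rw [ll04_ne_cons_neg e P h, ih]
      push_neg at h
      unfold skTotH
      simp only [List.map_cons, List.sum_cons, h.2, zero_add]

theorem ll04_ne_totB_cons (e : SkInc) (P : SkStp) : skTotB (e :: skNe P) = skTotB (e :: P) := by
  have := ll04_ne_totB P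
  unfold skTotB at this ⊢
  simp only [List.map_cons, List.sum_cons, this]

theorem ll04_ne_totH_cons (e : SkInc) (P : SkStp) : skTotH (e :: skNe P) = skTotH (e :: P) := by
  have := ll04_ne_totH P
  unfold skTotH at this ⊢
  simp only [List.map_cons, List.sum_cons, this]

theorem ll04_ne_pr (n : ℕ) (a : ℝ) (P : SkStp) : skPr n a (skNe P) = skPr n a P := by
  unfold skPr
  rw [ll04_ne_F, ll04_ne_totB, ll04_ne_totH]

theorem ll04_ne_pr_cons (n : ℕ) (a : ℝ) (e : SkInc) (P : SkStp) : skPr n a (e :: skNe P) = skPr n a (e :: P) := by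
  unfold skPr
  rw [ll04_ne_F_cons, ll04_ne_totB_cons, ll04_ne_totH_cons]

theorem ll04_ne_prS (n : ℕ) (a : ℝ) (P : SkStp) (z : SkCfg n → ℝ) : skPrS n a (skNe P) z = skPrS n a P z := by
  unfold skPrS
  rw [ll04_ne_F, ll04_ne_totB, ll04_ne_totH]

theorem ll04_ne_psi (n : ℕ) (a s : ℝ) (e : SkInc) (P : SkStp) : skPsi n a s (e :: skNe P) = skPsi n a s (e :: P) := by
  unfold skPsi skTilt
  rw [ll04_ne_pr_cons, ll04_ne_pr_cons]

/-- `K_n(s)` does not see the empty later stages -/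
theorem ll04_ne_KK (n : ℕ) (a s : ℝ) (e : SkInc) (P : SkStp) : skKK n a s (e :: skNe P) = skKK n a s (e :: P) := by
  unfold skKK
  rw [ll04_ne_psi]

theorem ll04_ne_G (n : ℕ) (a : ℝ) (e : SkInc) (P : SkStp) (ξ : SkDr n → ℝ) : skG n a (e :: skNe P) ξ = skG n a (e :: P) ξ := by
  unfold skG
  exact ll04_ne_F n a P _

theorem ll04_ne_adm {a : ℝ} {P : SkStp} (h : SkAdm a P) : SkAdm a (skNe P) :=
  ⟨h.1.sublist (ll04_ne_sublist P), fun e he => h.2 e (ll04_ne_mem.1 he).1⟩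

theorem ll04_ne_adm_cons {a : ℝ} {e : SkInc} {P : SkStp} (h : SkAdm a (e :: P)) : SkAdm a (e :: skNe P) :=
  ⟨h.1.sublist ((ll04_ne_sublist P).cons_cons e), fun e' he' => by
    rcases List.mem_cons.1 he' with rfl | h'
    · exact h.2 _ List.mem_cons_self
    · exact h.2 e' (List.mem_cons_of_mem _ (ll04_ne_mem.1 h').1)⟩

/-- `ll04_aug` with the mass hypothesis for the NON-EMPTY later stages only -/
theorem ll04_ne_aug (haug : Ll04Aug) (n : ℕ) (a r : ℝ) (e : SkInc) (P : SkStp) (hn : 1 ≤ n) (hadm : SkAdm a (e :: P)) (he : e.m = 0) (hr : 0 < r)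
    (hP : ∀ e' ∈ P, (e'.db ≠ 0 ∨ e'.dh ≠ 0) → r ≤ e'.m) (hra : r ≤ a) :
    SkLc (((ghStd (SkDr n)).prod skExpM).map fun w => r * skG n a (e :: P) w.1 + w.2) := by
  have h := haug n a r e (skNe P) hn (ll04_ne_adm_cons hadm) he hr (fun e' he' => hP e' (ll04_ne_mem.1 he').1 (ll04_ne_mem.1 he').2) hra
  simpa only [ll04_ne_G] using h

/-- `ll04_stop` with the mass hypothesis for the NON-EMPTY later stages only -/
theorem ll04_ne_main (haug : Ll04Aug) : ∃ c C : ℝ, 0 < c ∧ c < 1 ∧ 0 < C ∧ ∀ (n : ℕ) (a ρ s p : ℝ) (e : SkInc) (P : SkStp), 1 ≤ n → SkAdm a (e :: P) → e.m = 0 → 0 < ρ →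
    (∀ e' ∈ P, (e'.db ≠ 0 ∨ e'.dh ≠ 0) → ρ ≤ e'.m) → ρ ≤ a → 0 < s → s ≤ ρ / 4 → 1 ≤ p →
    p ^ 2 * (skKK n a s (e :: P) + s ^ 2 / ρ ^ 2) ≤ c →
    skKK n a (p * s) (e :: P) ≤ C * p ^ 2 * (skKK n a s (e :: P) + s ^ 2 / ρ ^ 2) := by
  obtain ⟨c, C, hc0, hc1, hC0, hmain⟩ := ll04_st_main haug
  refine ⟨c, C, hc0, hc1, hC0, fun n a ρ s p e P hn hadm he hρ hP hρa hs hs4 hp hκ => ?_⟩
  have h := hmain n a ρ s p e (skNe P) hn (ll04_ne_adm_cons hadm) he hρ
    (fun e' he' => hP e' (ll04_ne_mem.1 he').1 (ll04_ne_mem.1 he').2) hρa hs hs4 hp (by rw [ll04_ne_KK]; exact hκ)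
  rwa [ll04_ne_KK, ll04_ne_KK] at h

/-- `ll04_stop_x` with the mass hypothesis for the NON-EMPTY later stages only -/
theorem ll04_ne_x (haug : Ll04Aug) (ε q p : ℝ) (hε : 0 < ε) (hq : 0 < q) (hp : 1 ≤ p) :
    ∃ N0 : ℕ, ∀ N : ℕ, N0 ≤ N → ∀ (n : ℕ) (a : ℝ) (e : SkInc) (P : SkStp),
    1 ≤ n → SkAdm a (e :: P) → e.m = 0 → (∀ e' ∈ P, (e'.db ≠ 0 ∨ e'.dh ≠ 0) → skX N ≤ e'.m) → skX N ≤ a →
    skKK n a (q * skX N ^ (1 + ε)) (e :: P) ≤ 4 * skX N ^ ε →
    skKK n a (p * (q * skX N ^ (1 + ε))) (e :: P) ≤ 1 := by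
  obtain ⟨N0, h0⟩ := ll04_st_x haug ε q p hε hq hp
  refine ⟨N0, fun N hN n a e P hn hadm he hP hxa hK => ?_⟩
  have h := h0 N hN n a e (skNe P) hn (ll04_ne_adm_cons hadm) he
    (fun e' he' => hP e' (ll04_ne_mem.1 he').1 (ll04_ne_mem.1 he').2) hxa (by rw [ll04_ne_KK]; exact hK)
  rwa [ll04_ne_KK] at h

end sk

end Claimed.Agent.R286
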