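import Claimed.Agent.R286.LL04.Defs
import Claimed.Agent.R286.LL04.Asm
import Claimed.Agent.R286.LL04.Aug
import Claimed.Agent.R286.LL04.Stop
import Claimed.Agent.R286.LL.PathsBase
import Claimed.Agent.R286.Exit.ClkPr
import Claimed.Agent.R286.Exit.LL04Sup

/-!
# Row 286 (S0533), unit LL04 = LL Sec. 4 (04-reduction.tex): CONTRACT      (head helper258, co-head helper245; prefix `ll04_`, `ll04`, `Ll04`)

WHAT THE UNIT DOES.   `exit_incr : SkIncr β` (Exit/Incr, owner 60) asks for a `SkPath` with 19 properties.   Only TWO of them are deep (`inc_dir`, `inc_siz` = LL Prop. 4.1).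
`LL04/Defs.lean` fixes THE path (`ll04Path`, built on the physical points `LlPt` of LL/PathsDefs); the unit reduces `SkIncr β` to SEVEN closed supplies:

| supply (`def` in LL04/Defs) | content                                                                   | owner of its proof                       |
|----------------------------|---------------------------------------------------------------------------|------------------------------------------|
| `Ll04Inc 𝔹 F`              | LL Prop. 4.1: (1) integrated, fixed `m`; (2) WEIGHTED form (= field `inc_siz`) | LL 09+10 (60, chief 75)                   |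
| `LlP11 𝔹 F` (PathsDefs)    | (P11) switch direct / smoothed                                            | LL 03 (272 / 253)                         |
| `Ll04Clk 𝔹 F`              | physical clocks: admissible on `[0,a]`, sup `≤ C x^(-1/8)`, `L¹(dv)`-Lipschitz in (segment parameter, `γ`) | LL 03 (272 / 253): 03 l.469-490, (P2b), (P3), (P6), (P7) |
| `Ll04End 𝔹 F`              | at `λ = x^12` the clocks are `(T/ℓ², 0)` up to `C x^6` in `L¹`             | LL 03 (272 / 253): 04 l.241-247           |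
| `Ll04A1 𝔹`                 | (A1) integrated: the pressure is `L¹`-Lipschitz in the clocks              | LL 02 (93) / PE Sec 2 (118)               |
| `Ll04Nb 𝔹`                 | (4.1) `red:eq-neighbor` for pressures: `|(m+1) f_(m+1) - m f_m| ≤ C (b(a) + h(a))` | LL04 (258) from (GI) of LL 02 (93)  |
| `Ll04Bare 𝔹 β`             | bare clocks `(T/ℓ²,0)`: `K_m(s) = skLam β m ((s/ℓ) m^(1/6))`               | LL04/Bridge (245) + step clocks of Defs/Clk |

EXITS of the unit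
* `ll04_incr`   : the seven supplies `⟹ SkIncr β`                                  (proof: LL04/Asm*.lean, platoon B; pure analysis, no model)
* `ll04_aug`    : LL Lemma 4.2, first half, for EVERY admissible step path of `Defs/Sk` whose positive masses are `≥ r`: `r G_n + 𝓔` has log-concave tails
* `ll04_stop`   : LL Lemma 4.2, second half = "stopped change of measure", NON-ASYMPTOTIC, step level: `K(s)` small `⟹ K(ps) ≤ C p² (K(s) + s²/ρ²)`;   users: LL 06-09 (Hölder from the untilted marginal)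
* `ll04_stop_x` : the same in the paper's form (`K_m(s) ≤ 4 x^ε ⟹ K_m(ps) ≤ 1`, `N ≥ N0(p,q,ε)`)
Already PROVED elsewhere (unit TOP): LL Lemma 4.3 first half (Top/Sten, Top/Site), Prop. 4.4 `⟸ SkIncr` (Exit/Dyad, 220), Prop. 4.5 (Top/Red, RedSk, Glue, Mom).

TEXDROP[LL:red:prop-identification] Sec. 4.4 (law specification, Prop. 1.3): not needed for S0533.
TEXDROP[LL:def:law] same reason.

CONVENTIONS.   `γ : Fin (N+1) → ℝ`: coordinate `0` is `γ_0`, coordinate `h+1` is `γ_u`, `u = 2^-h` (`IsDy` forces `h < N`; the other coordinates are dummies).   Every parameter is CLAMPED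
(`γ` to `[1/3,2/3]`, `τ` to `[0,1]`, `θ` to `[0,Θ]`), so that all statements hold for ALL real values of the parameters and `ψ` is globally Lipschitz: measurability of `deriv` is then `measurable_deriv_with_param`.

FILES (one owner each; the sorries live THERE, this file only collects the exits):   Defs (258, frozen) | AsmLip (258) | AsmEnv (78) | AsmSw (77) | AsmBare (72) | Asm (258) | Aug (129, DONE) | Stop (245, DONE) | Bridge (245, done) | Nb (258, waits for (GI)).
-/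

set_option autoImplicit false

namespace Claimed.Agent.R286

open MeasureTheory Set
open scoped ENNReal

/-! ## 3. EXIT 1: the assembly -/

/-- the stopped speeds on the direct segments are integrable (`ψ` is jointly Lipschitz in `(γ, τ)`: (A1-Lip) + (CLK); `measurable_deriv_with_param`).      OWNER: helper258 (LL04/Asm*.lean). -/
theorem ll04_int_dir (𝔹 : LlBase) (F : LlFix) (hClk : Ll04Clk 𝔹 F) (hA1 : Ll04A1 𝔹) : ∃ N0 : ℕ, ∀ N : ℕ, N0 ≤ N → ∀ N' : ℕ, N ≤ N' → N' ≤ 2 * N →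
    ∀ (s L : ℝ) (e : Fin 2) (i : Fin 3) (m : ℕ), 1 ≤ m →
      Integrable ((ll04Path 𝔹 F N N' s).aD s L e i m) ((ll04Path 𝔹 F N N' s).μ.prod (volume.restrict (Icc (0 : ℝ) 1))) :=
  ll04a_int_dir 𝔹 F hClk hA1

/-- the same on the size segment.      OWNER: helper258 (LL04/Asm*.lean). -/
theorem ll04_int_siz (𝔹 : LlBase) (F : LlFix) (hClk : Ll04Clk 𝔹 F) (hA1 : Ll04A1 𝔹) : ∃ N0 : ℕ, ∀ N : ℕ, N0 ≤ N → ∀ N' : ℕ, N ≤ N' → N' ≤ 2 * N →
    ∀ (s L : ℝ) (r : ℕ) (c : ℕ → ℝ) (m : ℕ), 1 ≤ m →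
      Integrable ((ll04Path 𝔹 F N N' s).aS s L r c m) ((ll04Path 𝔹 F N N' s).μ.prod (volume.restrict (Icc (0 : ℝ) (Real.log ((N' : ℝ) / N))))) :=
  ll04a_int_siz 𝔹 F hClk hA1

/-- **EXIT 1 of LL04**: the seven supplies give the deep exit of the Hub.      OWNER of the proof: helper258 (LL04/Asm*.lean, platoon B). -/
theorem ll04_incr (𝔹 : LlBase) (F : LlFix) (β : ℝ) (hF : F.Ok) (hT : F.T = β ^ 2) (hp : F.pS ≤ 12)
    (hInc : Ll04Inc 𝔹 F) (hP11 : LlP11 𝔹 F) (hClk : Ll04Clk 𝔹 F) (hEnd : Ll04End 𝔹 F)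
    (hA1 : Ll04A1 𝔹) (hNb : Ll04Nb 𝔹) (hBare : Ll04Bare 𝔹 β) : SkIncr β :=
  ll04a_main 𝔹 F β hF hT hp hInc hP11 hClk hEnd hA1 hNb hBare

/-! ## 4. EXITS 2-4: LL Lemma 4.2 at the STEP level (`Defs/Sk`) -/

/-- **EXIT 2 of LL04** = LL Lemma 4.2, first half (PE Lemma 7.6 along a hierarchy).      TEX[LL:red:lem-augmentation]      PROVED by helper129 (LL04/Aug.lean).
`e :: P` an admissible step path, first revelation at mass `0`, all the other masses `≥ r`, `r ≤ a`.   Then `r G_n + 𝓔` (`𝓔` exponential of rate one, independent) has log-concave tails.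
Proof: pin the terminal spin (gauge), telescope: density `exp{a H_σ - v_1 G - ∑ (v_(i+1) - v_i) F_i - (a - v_L) F_L}`, all `F_i` convex; `sk_lc_aug` (Top/Lc) on the space of ALL drivers. -/
theorem ll04_aug (n : ℕ) (a r : ℝ) (e : SkInc) (P : SkStp) (hn : 1 ≤ n) (hadm : SkAdm a (e :: P)) (he : e.m = 0) (hr : 0 < r)
    (hP : ∀ e' ∈ P, r ≤ e'.m) (hra : r ≤ a) :
    SkLc (((ghStd (SkDr n)).prod skExpM).map fun w => r * skG n a (e :: P) w.1 + w.2) :=
  sk_au_sk hn hr.le (hr.trans_le hra) hra hadm hP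

/-- **EXIT 3 of LL04** = LL Lemma 4.2, second half (stopped change of measure), non-asymptotic.      TEX[LL:red:lem-augmentation]      PROVED by helper245 (LL04/Stop.lean).
`ρ` = rate of the exponential noise (paper: `ρ = x/2`, positive masses `≥ x`; here `ρ ≤` positive masses is enough).   With `κ = K_n(s) + s²/ρ²`:   `p² κ ≤ c ⟹ K_n(p s) ≤ C p² κ`.
Hence `‖R‖_p^p = exp (K(ps) - p K(s)) ≤ exp (C p² κ)` for the density `R = e^{sG}/E e^{sG}` of the tilted root. -/
theorem ll04_stop : ∃ c C : ℝ, 0 < c ∧ c < 1 ∧ 0 < C ∧ ∀ (n : ℕ) (a ρ s p : ℝ) (e : SkInc) (P : SkStp), 1 ≤ n → SkAdm a (e :: P) → e.m = 0 → 0 < ρ →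
    (∀ e' ∈ P, ρ ≤ e'.m) → ρ ≤ a → 0 < s → s ≤ ρ / 4 → 1 ≤ p →
    p ^ 2 * (skKK n a s (e :: P) + s ^ 2 / ρ ^ 2) ≤ c →
    skKK n a (p * s) (e :: P) ≤ C * p ^ 2 * (skKK n a s (e :: P) + s ^ 2 / ρ ^ 2) :=
  ll04_st_main fun n a r e P hn hadm he hr hP hra => ll04_aug n a r e P hn hadm he hr hP hra

/-- **EXIT 4 of LL04**: the paper's form of Lemma 4.2 (with the stop `4 x^ε`, room for the passage step clocks → physical clocks).      TEX[LL:red:lem-augmentation]      PROVED by helper245 (LL04/Stop.lean). -/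
theorem ll04_stop_x (ε q p : ℝ) (hε : 0 < ε) (hq : 0 < q) (hp : 1 ≤ p) : ∃ N0 : ℕ, ∀ N : ℕ, N0 ≤ N → ∀ (n : ℕ) (a : ℝ) (e : SkInc) (P : SkStp),
    1 ≤ n → SkAdm a (e :: P) → e.m = 0 → (∀ e' ∈ P, skX N ≤ e'.m) → skX N ≤ a →
    skKK n a (q * skX N ^ (1 + ε)) (e :: P) ≤ 4 * skX N ^ ε →
    skKK n a (p * (q * skX N ^ (1 + ε))) (e :: P) ≤ 1 :=
  ll04_st_x (fun n a r e P hn hadm he hr hP hra => ll04_aug n a r e P hn hadm he hr hP hra) ε q p hε hq hp

/-! ### the same three exits when the chain contains EMPTY stages at small masses (22's fit alarm): the mass hypothesis is asked for the NON-EMPTY later stages only.      PROVED by helper245 (LL04/Stop.lean, `ll04_ne_*`; `skNe P` = `P` without its empty stages, `ll04_ne_F`, `ll04_ne_pr`, `ll04_ne_KK`, `ll04_ne_G`, `ll04_ne_adm`). -/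

theorem ll04_aug_ne (n : ℕ) (a r : ℝ) (e : SkInc) (P : SkStp) (hn : 1 ≤ n) (hadm : SkAdm a (e :: P)) (he : e.m = 0) (hr : 0 < r)
    (hP : ∀ e' ∈ P, (e'.db ≠ 0 ∨ e'.dh ≠ 0) → r ≤ e'.m) (hra : r ≤ a) :
    SkLc (((ghStd (SkDr n)).prod skExpM).map fun w => r * skG n a (e :: P) w.1 + w.2) :=
  ll04_ne_aug (fun n a r e P hn hadm he hr hP hra => ll04_aug n a r e P hn hadm he hr hP hra) n a r e P hn hadm he hr hP hra

theorem ll04_stop_ne : ∃ c C : ℝ, 0 < c ∧ c < 1 ∧ 0 < C ∧ ∀ (n : ℕ) (a ρ s p : ℝ) (e : SkInc) (P : SkStp), 1 ≤ n → SkAdm a (e :: P) → e.m = 0 → 0 < ρ →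
    (∀ e' ∈ P, (e'.db ≠ 0 ∨ e'.dh ≠ 0) → ρ ≤ e'.m) → ρ ≤ a → 0 < s → s ≤ ρ / 4 → 1 ≤ p →
    p ^ 2 * (skKK n a s (e :: P) + s ^ 2 / ρ ^ 2) ≤ c →
    skKK n a (p * s) (e :: P) ≤ C * p ^ 2 * (skKK n a s (e :: P) + s ^ 2 / ρ ^ 2) :=
  ll04_ne_main fun n a r e P hn hadm he hr hP hra => ll04_aug n a r e P hn hadm he hr hP hra

theorem ll04_stop_x_ne (ε q p : ℝ) (hε : 0 < ε) (hq : 0 < q) (hp : 1 ≤ p) : ∃ N0 : ℕ, ∀ N : ℕ, N0 ≤ N → ∀ (n : ℕ) (a : ℝ) (e : SkInc) (P : SkStp),
    1 ≤ n → SkAdm a (e :: P) → e.m = 0 → (∀ e' ∈ P, (e'.db ≠ 0 ∨ e'.dh ≠ 0) → skX N ≤ e'.m) → skX N ≤ a →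
    skKK n a (q * skX N ^ (1 + ε)) (e :: P) ≤ 4 * skX N ^ ε →
    skKK n a (p * (q * skX N ^ (1 + ε))) (e :: P) ≤ 1 :=
  ll04_ne_x (fun n a r e P hn hadm he hr hP hra => ll04_aug n a r e P hn hadm he hr hP hra) ε q p hε hq hp

/-! ## 5. The supplies at the concrete base `llBase` (LL/PathsBase) -/

/-- (A1-Lip) at `llBase` = `exit_clk_pr_lip` (Exit/ClkPr, bridge C3). -/
theorem ll04_inst_a1 : Ll04A1 llBase := exit_a1l

end Claimed.Agent.R286
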