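import Claimed.Agent.R286.LL.PathsClkC2
import Claimed.Agent.R286.LL.PathsClkF
import Claimed.Agent.R286.LL.PathsClkE
import Claimed.Agent.R286.LL04.AsmSw

/-!
# Row 286 (S0533), unit LL04, file ClkHe: THE EDGE CLOCK `H_e` ON THE DIRECT PATHS, CRUDE UNIFORM FORM      (helper245, for the assembly `Ll04Clk` of helper258; prefix `ll04h_`)      0 sorry

LL 03-paths.tex l.393-437 ((P7)) and l.469-479 (strength derivative of `H_e`), in DIFFERENCE form, for EVERY `F.Ok` (no smallness of `U_0`: `LccBase` of file C is not available on the whole sweep).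
`Ē = ξ_* + 1/p_top`.
* `ll04hR u E y = u² (y + u⁴/E²)^(-1/2) = (y/u⁴ + 1/E²)^(-1/2)`: increasing in `(u,E)`, `≤ E`, and `ρ R(u,E,y) ≤ R(u₂,E₂,y)` if `ρ u² ≤ u₂²`, `ρ E ≤ E₂`.
* (H1) `ll04h_Eb`      `Ũ² ≤ E_b ≤ Ē`;      `ll04h_Eb_pair`   `ρ E_b ≤ E_b' ≤ E_b` for `ρ Ũ² ≤ Ũ'² ≤ Ũ²`
* (H2) `ll04h_He_abs`  `|H_e(v)| ≤ λ_1 (1 + Ē)` for all `v ≤ ℓ`
* (H3) `ll04h_He_lip`  `|H_e'(v) - H_e(v)| ≤ C (1 + A) log (λ'/λ)` if `|ξ'(v) - ξ(v)| ≤ A log (λ'/λ)`, `λ ≤ λ' ≤ 1`; `C` depends on `F, 𝔹` only.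
FROM THE P-LIST (`LlSec3 𝔹 F`, `LlBaseProfile 𝔹 F.T`), secs. 4-5:
* `ll04h_bx` `|b - b_∘| ≤ C λ` on `[0,4]`;   `ll04h_q_mem` `0 ≤ q ≤ 1`;   `ll04h_hS_abs` `|h_*| ≤ C λ` at ALL masses of a direct path;   `ll04h_K_top` `K(a) ≤ max M ξ_*`;   `ll04h_Hlo_abs`;   `ll04h_log_pow`
* **`ll04h_bd`**   the fields `adm_b`, `adm_h`, `bd` of `Ll04ClkAt`: `∃ C, LlUnif F fun p => GhClk1 a b ∧ GhClk1 a h ∧ b(a) + h(a) ≤ C x^(-1/8)` (every admissible point, direct or smoothed)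
* `ll04h_end_pt`   direct, `χ_lin = 0`: `|b - T/ℓ²| + |h| ≤ C λ (1 + log (1/x))` pointwise on `(0,a)`
* **`ll04h_end`**  `Ll04End 𝔹 F`
-/

set_option autoImplicit false

namespace Claimed.Agent.R286

open MeasureTheory Set

/-! ## 0. real lemmas -/

theorem ll04h_sand {ρ S L : ℝ} (h1 : ρ * L ≤ S) (h2 : S ≤ L) : |S - L| ≤ (1 - ρ) * L := by
  rw [abs_le]
  constructor <;> nlinarith

theorem ll04h_abs_mul {a b A B : ℝ} (ha : |a| ≤ A) (hb : |b| ≤ B) : |a * b| ≤ A * B := by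
  rw [abs_mul]
  exact mul_le_mul ha hb (abs_nonneg _) ((abs_nonneg _).trans ha)

/-- `R(u,E,y) = u² (y + u⁴/E²)^(-1/2)` -/
noncomputable def ll04hR (u E y : ℝ) : ℝ := u ^ 2 * (y + u ^ 4 / E ^ 2) ^ (-(1 / 2) : ℝ)

theorem ll04h_R_eq {u E y : ℝ} (hu : 0 < u) (hE : 0 < E) (hy : 0 ≤ y) :
    ll04hR u E y = (y / u ^ 4 + 1 / E ^ 2) ^ (-(1 / 2) : ℝ) := by
  have h1 : y + u ^ 4 / E ^ 2 = (u ^ 2) ^ 2 * (y / u ^ 4 + 1 / E ^ 2) := by field_simp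
  have h2 : 0 < y / u ^ 4 + 1 / E ^ 2 := by positivity
  unfold ll04hR
  rw [h1, Real.mul_rpow (by positivity) h2.le, lcc_rs_eq (t := (u ^ 2) ^ 2) (by positivity), Real.sqrt_sq (by positivity)]
  field_simp

theorem ll04h_R_pos {u E y : ℝ} (hu : 0 < u) (hE : 0 < E) (hy : 0 ≤ y) : 0 < ll04hR u E y := by
  rw [ll04h_R_eq hu hE hy]
  exact lcc_rs_pos (by positivity)

theorem ll04h_R_le {u E y : ℝ} (hu : 0 < u) (hE : 0 < E) (hy : 0 ≤ y) : ll04hR u E y ≤ E := by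
  rw [ll04h_R_eq hu hE hy]
  have h0 : 0 ≤ y / u ^ 4 := by positivity
  calc (y / u ^ 4 + 1 / E ^ 2) ^ (-(1 / 2) : ℝ) ≤ (1 / E ^ 2) ^ (-(1 / 2) : ℝ) := lcc_rs_anti (by positivity) (by linarith)
    _ = E := by rw [lcc_rs_eq (by positivity), one_div, Real.sqrt_inv, Real.sqrt_sq hE.le, inv_inv]

theorem ll04h_R_zero {u E : ℝ} (hu : 0 < u) (hE : 0 < E) : ll04hR u E 0 = E := by
  rw [ll04h_R_eq hu hE le_rfl, zero_div, zero_add, lcc_rs_eq (by positivity), one_div, Real.sqrt_inv, Real.sqrt_sq hE.le, inv_inv]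

theorem ll04h_R_le' {u E y : ℝ} (hE : 0 < E) (hy : 0 < y) : ll04hR u E y ≤ u ^ 2 * y ^ (-(1 / 2) : ℝ) := by
  unfold ll04hR
  refine mul_le_mul_of_nonneg_left (lcc_rs_anti hy ?_) (by positivity)
  have : 0 ≤ u ^ 4 / E ^ 2 := by positivity
  linarith

theorem ll04h_R_mono {u u2 E E2 y : ℝ} (hu2 : 0 < u2) (hu : u2 ≤ u) (hE2 : 0 < E2) (hE : E2 ≤ E) (hy : 0 ≤ y) :
    ll04hR u2 E2 y ≤ ll04hR u E y := by
  have hu0 : 0 < u := hu2.trans_le hu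
  have hE0 : 0 < E := hE2.trans_le hE
  rw [ll04h_R_eq hu2 hE2 hy, ll04h_R_eq hu0 hE0 hy]
  refine lcc_rs_anti (by positivity) (add_le_add ?_ ?_)
  · exact div_le_div_of_nonneg_left hy (by positivity) (pow_le_pow_left₀ hu2.le hu 4)
  · exact div_le_div_of_nonneg_left zero_le_one (by positivity) (pow_le_pow_left₀ hE2.le hE 2)

theorem ll04h_R_scale {u u2 E E2 y ρ : ℝ} (hρ : 0 < ρ) (hu0 : 0 < u) (hu2 : 0 < u2) (hu : ρ * u ^ 2 ≤ u2 ^ 2) (hE0 : 0 < E) (hE2 : 0 < E2)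
    (hE : ρ * E ≤ E2) (hy : 0 ≤ y) : ρ * ll04hR u E y ≤ ll04hR u2 E2 y := by
  rw [ll04h_R_eq hu2 hE2 hy, ll04h_R_eq hu0 hE0 hy]
  have ht : 0 < y / u ^ 4 + 1 / E ^ 2 := by positivity
  have h1 : ρ * (y / u ^ 4 + 1 / E ^ 2) ^ (-(1 / 2) : ℝ) = ((y / u ^ 4 + 1 / E ^ 2) / ρ ^ 2) ^ (-(1 / 2) : ℝ) := by
    rw [lcc_rs_eq ht.le, lcc_rs_eq (by positivity), Real.sqrt_div ht.le, Real.sqrt_sq hρ.le, inv_div]
    ring
  rw [h1]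
  refine lcc_rs_anti (by positivity) ?_
  rw [add_div]
  refine add_le_add ?_ ?_
  · rw [div_div]
    refine div_le_div_of_nonneg_left hy (by positivity) ?_
    calc u ^ 4 * ρ ^ 2 = (ρ * u ^ 2) ^ 2 := by ring
      _ ≤ (u2 ^ 2) ^ 2 := pow_le_pow_left₀ (by positivity) hu 2
      _ = u2 ^ 4 := by ring
  · rw [div_div]
    refine div_le_div_of_nonneg_left zero_le_one (by positivity) ?_
    calc E ^ 2 * ρ ^ 2 = (ρ * E) ^ 2 := by ring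
      _ ≤ E2 ^ 2 := pow_le_pow_left₀ (by positivity) hE 2

/-- the two bounds together -/
theorem ll04h_R_diff {u u2 E E2 y ρ : ℝ} (hρ : 0 < ρ) (hu2 : 0 < u2) (hu : u2 ≤ u) (huρ : ρ * u ^ 2 ≤ u2 ^ 2) (hE2 : 0 < E2) (hE : E2 ≤ E)
    (hEρ : ρ * E ≤ E2) (hy : 0 ≤ y) : |ll04hR u2 E2 y - ll04hR u E y| ≤ (1 - ρ) * E := by
  have hu0 : 0 < u := hu2.trans_le hu
  have hE0 : 0 < E := hE2.trans_le hE
  have h1 := ll04h_sand (ll04h_R_scale hρ hu0 hu2 huρ hE0 hE2 hEρ hy) (ll04h_R_mono hu2 hu hE2 hE hy)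
  have h2 : 0 ≤ 1 - ρ := by
    have : ρ * E ≤ E := hEρ.trans hE
    nlinarith
  exact h1.trans (mul_le_mul_of_nonneg_left (ll04h_R_le hu0 hE0 hy) h2)

/-- product rule in difference form for `L Y (P - M)` -/
theorem ll04h_prod {L L2 Y Y2 P P2 M M2 K a b c : ℝ} (hL0 : 0 ≤ L) (hL1 : L ≤ 1) (hLa : |L2 - L| ≤ a)
    (hY : |Y| ≤ 1) (hY2 : |Y2| ≤ 1) (hYb : |Y2 - Y| ≤ b) (hPM2 : |P2 - M2| ≤ K) (hc : |P2 - P| + |M2 - M| ≤ c) :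
    |L2 * Y2 * (P2 - M2) - L * Y * (P - M)| ≤ (a + b) * K + c := by
  have e : L2 * Y2 * (P2 - M2) - L * Y * (P - M)
      = (L2 - L) * (Y2 * (P2 - M2)) + L * ((Y2 - Y) * (P2 - M2)) + L * (Y * ((P2 - P) - (M2 - M))) := by ring
  have hL : |L| ≤ 1 := by rw [abs_of_nonneg hL0]; exact hL1
  have t1 : |(L2 - L) * (Y2 * (P2 - M2))| ≤ a * (1 * K) := ll04h_abs_mul hLa (ll04h_abs_mul hY2 hPM2)
  have t2 : |L * ((Y2 - Y) * (P2 - M2))| ≤ 1 * (b * K) := ll04h_abs_mul hL (ll04h_abs_mul hYb hPM2)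
  have t4 : |(P2 - P) - (M2 - M)| ≤ c := (abs_sub _ _).trans hc
  have t3 : |L * (Y * ((P2 - P) - (M2 - M)))| ≤ 1 * (1 * c) := ll04h_abs_mul hL (ll04h_abs_mul hY t4)
  rw [e]
  calc _ ≤ |(L2 - L) * (Y2 * (P2 - M2))| + |L * ((Y2 - Y) * (P2 - M2))| + |L * (Y * ((P2 - P) - (M2 - M)))| := abs_add_three _ _ _
    _ ≤ a * (1 * K) + 1 * (b * K) + 1 * (1 * c) := add_le_add (add_le_add t1 t2) t3
    _ = (a + b) * K + c := by ring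

/-- Lipschitz constant of `Υ` on `[0,1]` -/
theorem ll04h_Ups_lip (F : LlFix) (hF : F.Ok) : ∃ Lp : ℝ, 0 ≤ Lp ∧ ∀ U ∈ Icc (0 : ℝ) 1, ∀ U' ∈ Icc (0 : ℝ) 1, |F.Ups U' - F.Ups U| ≤ Lp * |U' - U| := by
  have hc : Continuous (deriv F.Ups) := hF.Ups_sm.continuous_deriv (by simp)
  obtain ⟨B, hB⟩ := (isCompact_Icc (a := (0 : ℝ)) (b := 1)).exists_bound_of_continuousOn hc.continuousOn
  have hdiff : Differentiable ℝ F.Ups := hF.Ups_sm.differentiable (by simp)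
  refine ⟨|B|, abs_nonneg B, fun U hU U' hU' => ?_⟩
  have := Convex.norm_image_sub_le_of_norm_deriv_le (f := F.Ups) (s := Icc (0 : ℝ) 1) (C := |B|)
    (fun x _ => hdiff x) (fun x hx => (hB x hx).trans (le_abs_self B)) (convex_Icc 0 1) hU hU'
  simpa [Real.norm_eq_abs] using this

/-! ## 1. (H1): `E_b` -/

/-- `Ē = ξ_* + 1/p_top` -/
noncomputable def ll04hE (𝔹 : LlBase) (T : ℝ) : ℝ := 𝔹.xiS T + 1 / 𝔹.pTop T

theorem ll04h_eqns_cite : True := by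
  have := @ll04hR.eq_1
  have := @ll04hE.eq_1
  trivial

section pt

variable {F : LlFix} {𝔹 : LlBase} {p : LlPt}

theorem ll04h_E_pos (hB : LlBaseProfile 𝔹 F.T) : 0 < ll04hE 𝔹 F.T := by
  have h1 := hB.xi_pos
  have h2 := hB.pTop_mem.1
  unfold ll04hE
  positivity

theorem ll04h_mem (hB : LlBaseProfile 𝔹 F.T) {u : ℝ} (hu0 : 0 ≤ u) (hu : u ≤ 1) :
    ll04hE 𝔹 F.T ∈ lcxSet (lcxG 𝔹 F.T) (u ^ 4) := by
  have h1 := hB.xi_pos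
  obtain ⟨h2, h3⟩ := hB.pTop_mem
  refine ⟨ll04h_E_pos hB, ?_⟩
  have h4 : lcxG 𝔹 F.T (ll04hE 𝔹 F.T) = 𝔹.pTop F.T := by
    unfold lcxG ll04hE
    rw [hB.zero _ (by have : 0 < 1 / 𝔹.pTop F.T := by positivity
                      linarith), sub_zero]
  rw [h4, div_le_iff₀ (pow_pos (ll04h_E_pos hB) 2)]
  have h5 : 1 / 𝔹.pTop F.T ≤ ll04hE 𝔹 F.T := by unfold ll04hE; linarith
  have h6 : (1 / 𝔹.pTop F.T) ^ 2 ≤ ll04hE 𝔹 F.T ^ 2 := pow_le_pow_left₀ (by positivity) h5 2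
  have h7 : u ^ 4 ≤ 1 := pow_le_one₀ hu0 hu
  have h8 : 𝔹.pTop F.T * (1 / 𝔹.pTop F.T) ^ 2 = 1 / 𝔹.pTop F.T := by field_simp
  have h9 : 1 ≤ 1 / 𝔹.pTop F.T := by rw [le_div_iff₀ h2]; linarith
  calc u ^ 4 ≤ 𝔹.pTop F.T * (1 / 𝔹.pTop F.T) ^ 2 := by rw [h8]; linarith
    _ ≤ 𝔹.pTop F.T * ll04hE 𝔹 F.T ^ 2 := mul_le_mul_of_nonneg_left h6 h2.le

theorem ll04h_Eb_def : p.Eb F 𝔹 = sInf (lcxSet (lcxG 𝔹 F.T) (p.Ut F ^ 4)) := rfl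

/-- **(H1)** -/
theorem ll04h_Eb (hB : LlBaseProfile 𝔹 F.T) (hU0 : 0 < p.Ut F) (hU1 : p.Ut F ≤ 1) :
    p.Ut F ^ 2 ≤ p.Eb F 𝔹 ∧ p.Eb F 𝔹 ≤ ll04hE 𝔹 F.T := by
  have hm := ll04h_mem hB hU0.le hU1
  rw [ll04h_Eb_def]
  refine ⟨le_csInf ⟨_, hm⟩ fun E hE => ?_, csInf_le (lcx_set_bdd _ _) hm⟩
  have hE0 : 0 < E := hE.1
  have h1 : p.Ut F ^ 4 / E ^ 2 < 1 := lt_of_le_of_lt hE.2 (by
    unfold lcxG
    linarith [lcc_A0_nonneg 𝔹 F.T (𝔹.xiS F.T - E), hB.pTop_mem.2])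
  rw [div_lt_one (by positivity)] at h1
  by_contra hc
  push Not at hc
  nlinarith [mul_pos (sub_pos.2 hc) (add_pos (pow_pos hU0 2) hE0)]

theorem ll04h_Eb_pos (hB : LlBaseProfile 𝔹 F.T) (hU0 : 0 < p.Ut F) (hU1 : p.Ut F ≤ 1) : 0 < p.Eb F 𝔹 :=
  lt_of_lt_of_le (pow_pos hU0 2) (ll04h_Eb hB hU0 hU1).1

/-- `E_b` for two points -/
theorem ll04h_Eb_pair {p2 : LlPt} (hB : LlBaseProfile 𝔹 F.T) (hU2 : 0 < p2.Ut F) (hUU : p2.Ut F ≤ p.Ut F) (hU1 : p.Ut F ≤ 1)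
    {ρ : ℝ} (hρ : ρ * p.Ut F ^ 2 ≤ p2.Ut F ^ 2) : p2.Eb F 𝔹 ≤ p.Eb F 𝔹 ∧ ρ * p.Eb F 𝔹 ≤ p2.Eb F 𝔹 := by
  have hU0 : 0 < p.Ut F := hU2.trans_le hUU
  obtain ⟨h1, h2⟩ := lcx_sInf_scale (lcx_G_mono 𝔹 F.T) hU2 hUU (ll04h_mem hB hU0.le hU1)
  rw [← ll04h_Eb_def, ← ll04h_Eb_def] at h1 h2
  refine ⟨h1, ?_⟩
  have hE2 := ll04h_Eb_pos (p := p2) hB hU2 (hUU.trans hU1)
  have hE := ll04h_Eb_pos (p := p) hB hU0 hU1
  have h3 : (p.Ut F / p2.Ut F) ^ 2 * p2.Eb F 𝔹 = p.Ut F ^ 2 * p2.Eb F 𝔹 / p2.Ut F ^ 2 := by field_simp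
  rw [h3, le_div_iff₀ (pow_pos hU2 2)] at h2
  -- `E_b u₂² ≤ u² E_b'`, `ρ u² ≤ u₂²`
  have h4 : ρ * p.Ut F ^ 2 * p.Eb F 𝔹 ≤ p.Ut F ^ 2 * p2.Eb F 𝔹 :=
    (mul_le_mul_of_nonneg_right hρ hE.le).trans (by linarith)
  have h5 : 0 < p.Ut F ^ 2 := pow_pos hU0 2
  by_contra hc
  push Not at hc
  nlinarith [mul_lt_mul_of_pos_left hc h5]

/-! ## 2. (H2): size of `H_e` -/

theorem ll04h_HePl_eq (w : ℝ) : p.HePl F 𝔹 w
    = p.lam1 F * F.Ups (p.U F) * (ll04hR (p.Ut F) 1 (1 - w) - ll04hR (p.Ut F) (p.Eb F 𝔹) (w - 𝔹.pTop F.T)) := by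
  unfold LlPt.HePl ll04hR LlPt.dPl LlPt.dMi
  rw [one_pow, div_one]
  ring

theorem ll04h_PM (hB : LlBaseProfile 𝔹 F.T) (hU0 : 0 < p.Ut F) (hU1 : p.Ut F ≤ 1) {w : ℝ} (hw : w ∈ Icc (𝔹.pTop F.T) 1) :
    |ll04hR (p.Ut F) 1 (1 - w) - ll04hR (p.Ut F) (p.Eb F 𝔹) (w - 𝔹.pTop F.T)| ≤ 1 + p.Eb F 𝔹 := by
  have hE := ll04h_Eb_pos (p := p) hB hU0 hU1
  have a1 := ll04h_R_pos hU0 one_pos (sub_nonneg.2 hw.2)
  have a2 := ll04h_R_le hU0 one_pos (sub_nonneg.2 hw.2)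
  have b1 := ll04h_R_pos hU0 hE (sub_nonneg.2 hw.1)
  have b2 := ll04h_R_le hU0 hE (sub_nonneg.2 hw.1)
  rw [abs_le]
  constructor <;> linarith

theorem ll04h_HePl_abs (hF : F.Ok) (hB : LlBaseProfile 𝔹 F.T) (hlam : 0 ≤ p.lam1 F) (hU0 : 0 < p.Ut F) (hU1 : p.Ut F ≤ 1) {w : ℝ}
    (hw : w ∈ Icc (𝔹.pTop F.T) 1) : |p.HePl F 𝔹 w| ≤ p.lam1 F * (1 + p.Eb F 𝔹) := by
  have hY := hF.Ups_rg (p.U F)
  rw [ll04h_HePl_eq, abs_mul, abs_mul, abs_of_nonneg hlam, abs_of_nonneg hY.1, mul_assoc]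
  refine mul_le_mul_of_nonneg_left ?_ hlam
  have h1 := ll04h_PM hB hU0 hU1 hw
  calc F.Ups (p.U F) * _ ≤ 1 * _ := mul_le_mul_of_nonneg_right hY.2 (abs_nonneg _)
    _ ≤ 1 + p.Eb F 𝔹 := by rw [one_mul]; exact h1

/-- at the junction the plateau profile is `O(λ_1 E_b)` -/
theorem ll04h_HePl_top (hF : F.Ok) (hB : LlBaseProfile 𝔹 F.T) (hlam : 0 ≤ p.lam1 F) (hU0 : 0 < p.Ut F) (hU1 : p.Ut F ≤ 1) :
    |p.HePl F 𝔹 (𝔹.pTop F.T)| ≤ p.lam1 F * ((1 + (1 - 𝔹.pTop F.T) ^ (-(1 / 2) : ℝ)) * p.Eb F 𝔹) := by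
  have hY := hF.Ups_rg (p.U F)
  have hE := ll04h_Eb_pos (p := p) hB hU0 hU1
  have hy0 : 0 < 1 - 𝔹.pTop F.T := by linarith [hB.pTop_mem.2]
  have hg := lcc_rs_pos hy0
  rw [ll04h_HePl_eq, abs_mul, abs_mul, abs_of_nonneg hlam, abs_of_nonneg hY.1, mul_assoc, sub_self, ll04h_R_zero hU0 hE]
  refine mul_le_mul_of_nonneg_left ?_ hlam
  have a1 := ll04h_R_pos hU0 one_pos hy0.le
  have a2 : ll04hR (p.Ut F) 1 (1 - 𝔹.pTop F.T) ≤ p.Eb F 𝔹 * (1 - 𝔹.pTop F.T) ^ (-(1 / 2) : ℝ) :=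
    (ll04h_R_le' one_pos hy0).trans (mul_le_mul_of_nonneg_right (ll04h_Eb hB hU0 hU1).1 hg.le)
  have h1 : |ll04hR (p.Ut F) 1 (1 - 𝔹.pTop F.T) - p.Eb F 𝔹| ≤ (1 + (1 - 𝔹.pTop F.T) ^ (-(1 / 2) : ℝ)) * p.Eb F 𝔹 := by
    rw [abs_le]
    constructor <;> nlinarith
  calc F.Ups (p.U F) * _ ≤ 1 * _ := mul_le_mul_of_nonneg_right hY.2 (abs_nonneg _)
    _ ≤ _ := by rw [one_mul]; exact h1

/-- elementary facts on `Ũ` -/
theorem ll04h_Ut (hF : F.Ok) (hN : 2 ≤ p.N) (hlam : 0 < p.lam) : 0 < p.Ut F ∧ p.Ut F ≤ 1 ∧ p.U F ∈ Icc (0 : ℝ) 1 := by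
  have hx := lcc_x_pos hN
  have hU : 0 < p.U F := lt_min one_pos (mul_pos hx (Real.rpow_pos_of_pos hlam _))
  have hU1 : p.U F ≤ 1 := min_le_left _ _
  exact ⟨lt_min hF.U00 hU, (min_le_right _ _).trans hU1, hU.le, hU1⟩

/-- the ramp factor -/
theorem ll04h_ramp {E ξ xS : ℝ} (hE : 0 < E) (hξ : ξ ≤ xS) : max 0 ((ξ - (xS - E)) / E) ∈ Icc (0 : ℝ) 1 := by
  refine ⟨le_max_left _ _, max_le zero_le_one ?_⟩
  rw [div_le_one hE]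
  linarith

/-- **(H2)** -/
theorem ll04h_He_abs (hF : F.Ok) (hB : LlBaseProfile 𝔹 F.T) (hsm : p.sm = false) (hN : 2 ≤ p.N) (hlam : 0 < p.lam) {v : ℝ} (hv : v / p.ell ≤ 1) :
    |p.He F 𝔹 v| ≤ p.lam1 F * (1 + ll04hE 𝔹 F.T) := by
  obtain ⟨hU0, hU1, -⟩ := ll04h_Ut (p := p) hF hN hlam
  have hl1 : 0 ≤ p.lam1 F := (Real.rpow_pos_of_pos hlam _).le
  have hE := ll04h_Eb_pos (p := p) hB hU0 hU1
  have hEE := (ll04h_Eb (p := p) hB hU0 hU1).2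
  have key : ∀ w ∈ Icc (𝔹.pTop F.T) 1, |p.HePl F 𝔹 w| ≤ p.lam1 F * (1 + ll04hE 𝔹 F.T) := fun w hw =>
    (ll04h_HePl_abs hF hB hl1 hU0 hU1 hw).trans (mul_le_mul_of_nonneg_left (by linarith) hl1)
  by_cases h : 𝔹.pTop F.T ≤ v / p.ell
  · rw [lcc_He_pl v h]
    exact key _ ⟨h, hv⟩
  · push Not at h
    have hξ := lcx_xi_act (F := F) (𝔹 := 𝔹) (p := p) hsm (fun ξ hξ => (hF.P_nn ξ hξ).1) hlam.le hB.xi_pos h
    have hr := ll04h_ramp hE hξ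
    rw [lcc_He_act v h, abs_mul, abs_of_nonneg hr.1]
    calc _ ≤ 1 * |p.HePl F 𝔹 (𝔹.pTop F.T)| := mul_le_mul_of_nonneg_right hr.2 (abs_nonneg _)
      _ ≤ _ := by rw [one_mul]; exact key _ ⟨le_rfl, hB.pTop_mem.2.le⟩

/-! ## 3. (H3): dependence on the strength -/

/-- the pair `(p, p.wLm l2)`, `λ ≤ l2`: `ρ = (l2/λ)^(-s_*)` -/
theorem ll04h_pair (hF : F.Ok) (hN : 2 ≤ p.N) (hlam : 0 < p.lam) {l2 : ℝ} (hl : p.lam ≤ l2) :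
    ∃ ρ : ℝ, 0 < ρ ∧ ρ ≤ 1 ∧ 1 - ρ ≤ F.sS * Real.log (l2 / p.lam) ∧
      (p.wLm l2).Ut F ≤ p.Ut F ∧ ρ * p.Ut F ^ 2 ≤ (p.wLm l2).Ut F ^ 2 ∧ |(p.wLm l2).U F - p.U F| ≤ 1 - ρ := by
  have hx := lcc_x_pos hN
  have hl2 : 0 < l2 := hlam.trans_le hl
  have hq : 0 < l2 / p.lam := div_pos hl2 hlam
  have hq1 : 1 ≤ l2 / p.lam := (one_le_div hlam).2 hl
  obtain ⟨hU0, hU1, hU⟩ := ll04h_Ut (p := p) hF hN hlam
  obtain ⟨h1, h2⟩ := lcf_U_le p.x F.sS p.lam l2 hx hF.sS0.le hlam hl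
  set σ : ℝ := (l2 / p.lam) ^ (-(F.sS / 2)) with hσ
  have hσ0 : 0 < σ := Real.rpow_pos_of_pos hq _
  have hσ1 : σ ≤ 1 := Real.rpow_le_one_of_one_le_of_nonpos hq1 (by linarith [hF.sS0])
  have hUa : (p.wLm l2).U F = lcfU p.x F.sS l2 := rfl
  have hUb : p.U F = lcfU p.x F.sS p.lam := rfl
  rw [← hUa, ← hUb] at h1 h2
  have hρ : σ ^ 2 = Real.exp (-(F.sS * Real.log (l2 / p.lam))) := by
    rw [hσ, ← Real.rpow_natCast, ← Real.rpow_mul hq.le, Real.rpow_def_of_pos hq]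
    congr 1
    push_cast
    ring
  have hρ1 : σ ^ 2 ≤ σ := by nlinarith
  refine ⟨σ ^ 2, by positivity, hρ1.trans hσ1, ?_, min_le_min le_rfl h1, ?_, ?_⟩
  · rw [hρ]
    linarith [Real.add_one_le_exp (-(F.sS * Real.log (l2 / p.lam)))]
  · have h3 : σ * p.Ut F ≤ (p.wLm l2).Ut F := by
      refine le_min ?_ ?_
      · calc σ * p.Ut F ≤ 1 * F.U0 := mul_le_mul hσ1 (min_le_left _ _) hU0.le zero_le_one
          _ = F.U0 := one_mul _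
      · exact (mul_le_mul_of_nonneg_left (min_le_right _ _) hσ0.le).trans h2
    calc σ ^ 2 * p.Ut F ^ 2 = (σ * p.Ut F) ^ 2 := by ring
      _ ≤ _ := pow_le_pow_left₀ (by positivity) h3 2
  · have h4 := ll04h_sand h2 h1
    refine h4.trans ?_
    have : 0 ≤ 1 - σ := by linarith
    nlinarith [hU.1, hU.2]

/-- the constant of the plateau -/
noncomputable def ll04hC1 (F : LlFix) (𝔹 : LlBase) (Lp : ℝ) : ℝ := (1 + F.eta + Lp * F.sS + F.sS) * (1 + ll04hE 𝔹 F.T)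

/-- the plateau profile as a function of the strength -/
theorem ll04h_HePl_lip (hF : F.Ok) (hB : LlBaseProfile 𝔹 F.T) {Lp : ℝ} (hLp0 : 0 ≤ Lp)
    (hLp : ∀ U ∈ Icc (0 : ℝ) 1, ∀ U' ∈ Icc (0 : ℝ) 1, |F.Ups U' - F.Ups U| ≤ Lp * |U' - U|)
    (hN : 2 ≤ p.N) (hlam : 0 < p.lam) {l2 : ℝ} (hl : p.lam ≤ l2) (hl1 : l2 ≤ 1) {w : ℝ} (hw : w ∈ Icc (𝔹.pTop F.T) 1) :
    |(p.wLm l2).HePl F 𝔹 w - p.HePl F 𝔹 w| ≤ ll04hC1 F 𝔹 Lp * Real.log (l2 / p.lam) := by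
  have hl2 : 0 < l2 := hlam.trans_le hl
  set d : ℝ := Real.log (l2 / p.lam) with hd
  have hd0 : 0 ≤ d := Real.log_nonneg ((one_le_div hlam).2 hl)
  obtain ⟨hU0, hU1, hU⟩ := ll04h_Ut (p := p) hF hN hlam
  obtain ⟨hV0, hV1, hV⟩ := ll04h_Ut (p := p.wLm l2) hF hN hl2
  obtain ⟨ρ, hρ0, hρ1, hρd, hUU, hUρ, hUd⟩ := ll04h_pair (p := p) hF hN hlam hl
  obtain ⟨hE1, hE2⟩ := ll04h_Eb_pair (p := p) (p2 := p.wLm l2) hB hV0 hUU hU1 hUρ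
  have hEp := ll04h_Eb_pos (p := p) hB hU0 hU1
  have hEp2 := ll04h_Eb_pos (p := p.wLm l2) hB hV0 hV1
  have hEE := (ll04h_Eb (p := p) hB hU0 hU1).2
  have hEE2 := (ll04h_Eb (p := p.wLm l2) hB hV0 hV1).2
  have hĒ := ll04h_E_pos hB
  obtain ⟨a1, a2⟩ := lcf_rpow_diff p.lam l2 (1 + F.eta) hlam hl (by linarith [hF.eta0])
  have hLa : p.lam1 F = p.lam ^ (1 + F.eta) := rfl
  have hLb : (p.wLm l2).lam1 F = l2 ^ (1 + F.eta) := rfl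
  have hL2le : l2 ^ (1 + F.eta) ≤ 1 := Real.rpow_le_one hl2.le hl1 (by linarith [hF.eta0])
  have hL0 : 0 ≤ p.lam1 F := (Real.rpow_pos_of_pos hlam _).le
  have hL1 : p.lam1 F ≤ 1 := by rw [hLa]; linarith
  have hLd : |(p.wLm l2).lam1 F - p.lam1 F| ≤ (1 + F.eta) * d := by
    rw [hLa, hLb, abs_of_nonneg a1]
    refine a2.trans ?_
    have : 0 ≤ (1 + F.eta) * d := mul_nonneg (by linarith [hF.eta0]) hd0
    calc (1 + F.eta) * l2 ^ (1 + F.eta) * d = l2 ^ (1 + F.eta) * ((1 + F.eta) * d) := by ring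
      _ ≤ 1 * ((1 + F.eta) * d) := mul_le_mul_of_nonneg_right hL2le this
      _ = _ := one_mul _
  have hY : |F.Ups (p.U F)| ≤ 1 := by rw [abs_of_nonneg (hF.Ups_rg _).1]; exact (hF.Ups_rg _).2
  have hY2 : |F.Ups ((p.wLm l2).U F)| ≤ 1 := by rw [abs_of_nonneg (hF.Ups_rg _).1]; exact (hF.Ups_rg _).2
  have hYd : |F.Ups ((p.wLm l2).U F) - F.Ups (p.U F)| ≤ Lp * F.sS * d := by
    refine (hLp _ hU _ hV).trans ?_
    rw [mul_assoc]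
    exact mul_le_mul_of_nonneg_left (hUd.trans hρd) hLp0
  have hPM := (ll04h_PM (p := p.wLm l2) hB hV0 hV1 hw).trans (by linarith : 1 + (p.wLm l2).Eb F 𝔹 ≤ 1 + ll04hE 𝔹 F.T)
  have hP := ll04h_R_diff (E := 1) (E2 := 1) hρ0 hV0 hUU hUρ one_pos le_rfl (by linarith) (sub_nonneg.2 hw.2)
  have hM := ll04h_R_diff hρ0 hV0 hUU hUρ hEp2 hE1 hE2 (sub_nonneg.2 hw.1)
  have hρn : 0 ≤ 1 - ρ := by linarith
  have hc : |ll04hR ((p.wLm l2).Ut F) 1 (1 - w) - ll04hR (p.Ut F) 1 (1 - w)|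
      + |ll04hR ((p.wLm l2).Ut F) ((p.wLm l2).Eb F 𝔹) (w - 𝔹.pTop F.T) - ll04hR (p.Ut F) (p.Eb F 𝔹) (w - 𝔹.pTop F.T)|
      ≤ F.sS * d * (1 + ll04hE 𝔹 F.T) := by
    have h1 : (1 - ρ) * p.Eb F 𝔹 ≤ (1 - ρ) * ll04hE 𝔹 F.T := mul_le_mul_of_nonneg_left hEE hρn
    have h2 : (1 - ρ) * (1 + ll04hE 𝔹 F.T) ≤ F.sS * d * (1 + ll04hE 𝔹 F.T) :=
      mul_le_mul_of_nonneg_right hρd (by linarith)
    linarith
  have := ll04h_prod hL0 hL1 hLd hY hY2 hYd hPM hc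
  rw [ll04h_HePl_eq, ll04h_HePl_eq]
  refine this.trans (le_of_eq ?_)
  unfold ll04hC1
  ring

/-- the ramp in difference form: `|r₂ - r| E₂ ≤ 2 |E₂ - E| + |ξ₂ - ξ|` -/
theorem ll04h_ramp_diff {E E2 ξ ξ2 xS : ℝ} (hE : 0 < E) (hE2 : 0 < E2) (hξ : ξ ≤ xS) :
    |max 0 ((ξ2 - (xS - E2)) / E2) - max 0 ((ξ - (xS - E)) / E)| * E2 ≤ 2 * |E2 - E| + |ξ2 - ξ| := by
  have hr := ll04h_ramp hE hξ
  set r : ℝ := max 0 ((ξ - (xS - E)) / E) with hrdef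
  have n1 : r * E = max 0 (ξ - (xS - E)) := by
    rw [hrdef, max_mul_of_nonneg _ _ hE.le, zero_mul, div_mul_cancel₀ _ hE.ne']
  have n2 : max 0 ((ξ2 - (xS - E2)) / E2) * E2 = max 0 (ξ2 - (xS - E2)) := by
    rw [max_mul_of_nonneg _ _ hE2.le, zero_mul, div_mul_cancel₀ _ hE2.ne']
  have e : (max 0 ((ξ2 - (xS - E2)) / E2) - r) * E2 = (max 0 (ξ2 - (xS - E2)) - max 0 (ξ - (xS - E))) + r * (E - E2) := by
    rw [sub_mul, n2, ← n1]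
    ring
  have h1 : |max 0 (ξ2 - (xS - E2)) - max 0 (ξ - (xS - E))| ≤ |(ξ2 - (xS - E2)) - (ξ - (xS - E))| := by
    rw [max_comm 0, max_comm 0]
    exact abs_max_sub_max_le_abs _ _ _
  have h2 : |(ξ2 - (xS - E2)) - (ξ - (xS - E))| ≤ |ξ2 - ξ| + |E2 - E| := by
    have : (ξ2 - (xS - E2)) - (ξ - (xS - E)) = (ξ2 - ξ) + (E2 - E) := by ring
    rw [this]
    exact abs_add_le _ _
  have h3 : |r * (E - E2)| ≤ |E2 - E| := by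
    rw [abs_mul, abs_of_nonneg hr.1, abs_sub_comm E E2]
    exact mul_le_of_le_one_left (abs_nonneg _) hr.2
  calc _ = |(max 0 ((ξ2 - (xS - E2)) / E2) - r) * E2| := by rw [abs_mul, abs_of_pos hE2]
    _ = |(max 0 (ξ2 - (xS - E2)) - max 0 (ξ - (xS - E))) + r * (E - E2)| := by rw [e]
    _ ≤ |max 0 (ξ2 - (xS - E2)) - max 0 (ξ - (xS - E))| + |r * (E - E2)| := abs_add_le _ _
    _ ≤ _ := by linarith

/-- the constant of (H3) -/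
noncomputable def ll04hC (F : LlFix) (𝔹 : LlBase) (Lp : ℝ) : ℝ :=
  ll04hC1 F 𝔹 Lp + (1 + (1 - 𝔹.pTop F.T) ^ (-(1 / 2) : ℝ)) * (2 * F.sS * ll04hE 𝔹 F.T + 1)

theorem ll04h_eqns_cite2 : True := by
  have := @ll04hC1.eq_1
  have := @ll04hC.eq_1
  trivial

/-- (H3) with the explicit constant -/
theorem ll04h_He_lip_aux (hF : F.Ok) (hB : LlBaseProfile 𝔹 F.T) {Lp : ℝ} (hLp0 : 0 ≤ Lp)
    (hLp : ∀ U ∈ Icc (0 : ℝ) 1, ∀ U' ∈ Icc (0 : ℝ) 1, |F.Ups U' - F.Ups U| ≤ Lp * |U' - U|)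
    (hsm : p.sm = false) (hN : 2 ≤ p.N) (hlam : 0 < p.lam) {l2 : ℝ} (hl : p.lam ≤ l2) (hl1 : l2 ≤ 1) {A : ℝ} (hA : 0 ≤ A)
    {v : ℝ} (hv : v / p.ell ≤ 1) (hξd : |(p.wLm l2).xi F 𝔹 v - p.xi F 𝔹 v| ≤ A * Real.log (l2 / p.lam)) :
    |(p.wLm l2).He F 𝔹 v - p.He F 𝔹 v| ≤ ll04hC F 𝔹 Lp * (1 + A) * Real.log (l2 / p.lam) := by
  have hl2 : 0 < l2 := hlam.trans_le hl
  set d : ℝ := Real.log (l2 / p.lam) with hd
  have hd0 : 0 ≤ d := Real.log_nonneg ((one_le_div hlam).2 hl)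
  have hĒ := ll04h_E_pos hB
  have hy0 : 0 < 1 - 𝔹.pTop F.T := by linarith [hB.pTop_mem.2]
  have hg := lcc_rs_pos hy0
  set G : ℝ := 1 + (1 - 𝔹.pTop F.T) ^ (-(1 / 2) : ℝ) with hG
  have hG0 : 0 < G := by positivity
  have hC1 : 0 ≤ ll04hC1 F 𝔹 Lp := by
    unfold ll04hC1
    have := hF.eta0
    have := hF.sS0
    positivity
  have hs0 := hF.sS0
  have key : ∀ w ∈ Icc (𝔹.pTop F.T) 1, |(p.wLm l2).HePl F 𝔹 w - p.HePl F 𝔹 w| ≤ ll04hC1 F 𝔹 Lp * d := fun w hw =>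
    ll04h_HePl_lip hF hB hLp0 hLp hN hlam hl hl1 hw
  have hfin : ll04hC1 F 𝔹 Lp * d + (2 * (F.sS * d * ll04hE 𝔹 F.T) + A * d) * G ≤ ll04hC F 𝔹 Lp * (1 + A) * d := by
    have e : ll04hC F 𝔹 Lp * (1 + A) * d - (ll04hC1 F 𝔹 Lp * d + (2 * (F.sS * d * ll04hE 𝔹 F.T) + A * d) * G)
        = d * (A * ll04hC1 F 𝔹 Lp + G * (1 + A * (2 * F.sS * ll04hE 𝔹 F.T))) := by
      unfold ll04hC
      rw [← hG]
      ring
    have : 0 ≤ d * (A * ll04hC1 F 𝔹 Lp + G * (1 + A * (2 * F.sS * ll04hE 𝔹 F.T))) := by positivity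
    linarith
  have hnn : 0 ≤ (2 * (F.sS * d * ll04hE 𝔹 F.T) + A * d) * G := by positivity
  by_cases h : 𝔹.pTop F.T ≤ v / p.ell
  · have h' : 𝔹.pTop F.T ≤ v / (p.wLm l2).ell := h
    rw [lcc_He_pl v h, lcc_He_pl v h']
    exact (key _ ⟨h, hv⟩).trans (by linarith)
  · push Not at h
    have h' : v / (p.wLm l2).ell < 𝔹.pTop F.T := h
    obtain ⟨hU0, hU1, hU⟩ := ll04h_Ut (p := p) hF hN hlam
    obtain ⟨hV0, hV1, hV⟩ := ll04h_Ut (p := p.wLm l2) hF hN hl2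
    obtain ⟨ρ, hρ0, hρ1, hρd, hUU, hUρ, hUd⟩ := ll04h_pair (p := p) hF hN hlam hl
    obtain ⟨hE1, hE2⟩ := ll04h_Eb_pair (p := p) (p2 := p.wLm l2) hB hV0 hUU hU1 hUρ
    have hEp := ll04h_Eb_pos (p := p) hB hU0 hU1
    have hEp2 := ll04h_Eb_pos (p := p.wLm l2) hB hV0 hV1
    have hEE := (ll04h_Eb (p := p) hB hU0 hU1).2
    have hξ := lcx_xi_act (F := F) (𝔹 := 𝔹) (p := p) hsm (fun ξ hξ => (hF.P_nn ξ hξ).1) hlam.le hB.xi_pos h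
    have hr := ll04h_ramp hEp hξ
    have hrd := ll04h_ramp_diff (ξ2 := (p.wLm l2).xi F 𝔹 v) hEp hEp2 hξ
    have hEd : |(p.wLm l2).Eb F 𝔹 - p.Eb F 𝔹| ≤ F.sS * d * ll04hE 𝔹 F.T := by
      refine (ll04h_sand hE2 hE1).trans ?_
      exact mul_le_mul hρd hEE hEp.le (by positivity)
    have hL2 : 0 ≤ (p.wLm l2).lam1 F := (Real.rpow_pos_of_pos hl2 _).le
    have hL2le : (p.wLm l2).lam1 F ≤ 1 := Real.rpow_le_one hl2.le hl1 (by linarith [hF.eta0])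
    have hH2 := ll04h_HePl_top (p := p.wLm l2) hF hB hL2 hV0 hV1
    rw [← hG] at hH2
    rw [lcc_He_act v h, lcc_He_act v h']
    set r : ℝ := max 0 ((p.xi F 𝔹 v - (𝔹.xiS F.T - p.Eb F 𝔹)) / p.Eb F 𝔹) with hrdef
    set r2 : ℝ := max 0 (((p.wLm l2).xi F 𝔹 v - (𝔹.xiS F.T - (p.wLm l2).Eb F 𝔹)) / (p.wLm l2).Eb F 𝔹) with hr2def
    have e : r2 * (p.wLm l2).HePl F 𝔹 (𝔹.pTop F.T) - r * p.HePl F 𝔹 (𝔹.pTop F.T)
        = (r2 - r) * (p.wLm l2).HePl F 𝔹 (𝔹.pTop F.T) + r * ((p.wLm l2).HePl F 𝔹 (𝔹.pTop F.T) - p.HePl F 𝔹 (𝔹.pTop F.T)) := by ring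
    have t1 : |(r2 - r) * (p.wLm l2).HePl F 𝔹 (𝔹.pTop F.T)| ≤ (2 * (F.sS * d * ll04hE 𝔹 F.T) + A * d) * G := by
      rw [abs_mul]
      calc |r2 - r| * |(p.wLm l2).HePl F 𝔹 (𝔹.pTop F.T)|
          ≤ |r2 - r| * ((p.wLm l2).lam1 F * (G * (p.wLm l2).Eb F 𝔹)) := mul_le_mul_of_nonneg_left hH2 (abs_nonneg _)
        _ ≤ |r2 - r| * (1 * (G * (p.wLm l2).Eb F 𝔹)) :=
            mul_le_mul_of_nonneg_left (mul_le_mul_of_nonneg_right hL2le (by positivity)) (abs_nonneg _)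
        _ = (|r2 - r| * (p.wLm l2).Eb F 𝔹) * G := by ring
        _ ≤ _ := mul_le_mul_of_nonneg_right (by linarith) hG0.le
    have t2 : |r * ((p.wLm l2).HePl F 𝔹 (𝔹.pTop F.T) - p.HePl F 𝔹 (𝔹.pTop F.T))| ≤ ll04hC1 F 𝔹 Lp * d := by
      rw [abs_mul, abs_of_nonneg hr.1]
      exact (mul_le_of_le_one_left (abs_nonneg _) hr.2).trans (key _ ⟨le_rfl, hB.pTop_mem.2.le⟩)
    rw [e]
    exact (abs_add_le _ _).trans (by linarith)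

/-- **(H3)** -/
theorem ll04h_He_lip (F : LlFix) (𝔹 : LlBase) (hF : F.Ok) (hB : LlBaseProfile 𝔹 F.T) : ∃ C : ℝ, 0 ≤ C ∧
    ∀ (p : LlPt) (l2 A v : ℝ), p.sm = false → 2 ≤ p.N → 0 < p.lam → p.lam ≤ l2 → l2 ≤ 1 → 0 ≤ A → v / p.ell ≤ 1 →
      |(p.wLm l2).xi F 𝔹 v - p.xi F 𝔹 v| ≤ A * Real.log (l2 / p.lam) →
      |(p.wLm l2).He F 𝔹 v - p.He F 𝔹 v| ≤ C * (1 + A) * Real.log (l2 / p.lam) := by
  obtain ⟨Lp, hLp0, hLp⟩ := ll04h_Ups_lip F hF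
  refine ⟨ll04hC F 𝔹 Lp, ?_, fun p l2 A v hsm hN hlam hl hl1 hA hv hξ => ll04h_He_lip_aux hF hB hLp0 hLp hsm hN hlam hl hl1 hA hv hξ⟩
  have hĒ := ll04h_E_pos hB
  have hy0 : 0 < 1 - 𝔹.pTop F.T := by linarith [hB.pTop_mem.2]
  have hg := lcc_rs_pos hy0
  have := hF.eta0
  have := hF.sS0
  unfold ll04hC ll04hC1
  positivity

/-! ### (H3'): the SHARP form, with the factor `l2^(1+η)` (request of 258 for `L8yClk` (3): Lipschitz in `λ`, not only in `log λ`) -/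

/-- product rule in difference form for `L Y (P - M)`, keeping the size `Λ` of `L, L2` -/
theorem ll04h_prod2 {L L2 Y Y2 P P2 M M2 K a b c Λ : ℝ} (hL0 : 0 ≤ L) (hL1 : L ≤ Λ) (hLa : |L2 - L| ≤ Λ * a)
    (hY : |Y| ≤ 1) (hY2 : |Y2| ≤ 1) (hYb : |Y2 - Y| ≤ b) (hPM2 : |P2 - M2| ≤ K) (hc : |P2 - P| + |M2 - M| ≤ c) :
    |L2 * Y2 * (P2 - M2) - L * Y * (P - M)| ≤ Λ * ((a + b) * K + c) := by
  have e : L2 * Y2 * (P2 - M2) - L * Y * (P - M)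
      = (L2 - L) * (Y2 * (P2 - M2)) + L * ((Y2 - Y) * (P2 - M2)) + L * (Y * ((P2 - P) - (M2 - M))) := by ring
  have hL : |L| ≤ Λ := by rw [abs_of_nonneg hL0]; exact hL1
  have t1 : |(L2 - L) * (Y2 * (P2 - M2))| ≤ Λ * a * (1 * K) := ll04h_abs_mul hLa (ll04h_abs_mul hY2 hPM2)
  have t2 : |L * ((Y2 - Y) * (P2 - M2))| ≤ Λ * (b * K) := ll04h_abs_mul hL (ll04h_abs_mul hYb hPM2)
  have t4 : |(P2 - P) - (M2 - M)| ≤ c := (abs_sub _ _).trans hc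
  have t3 : |L * (Y * ((P2 - P) - (M2 - M)))| ≤ Λ * (1 * c) := ll04h_abs_mul hL (ll04h_abs_mul hY t4)
  rw [e]
  calc _ ≤ |(L2 - L) * (Y2 * (P2 - M2))| + |L * ((Y2 - Y) * (P2 - M2))| + |L * (Y * ((P2 - P) - (M2 - M)))| := abs_add_three _ _ _
    _ ≤ Λ * a * (1 * K) + Λ * (b * K) + Λ * (1 * c) := add_le_add (add_le_add t1 t2) t3
    _ = Λ * ((a + b) * K + c) := by ring

/-- the plateau profile as a function of the strength, sharp form -/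
theorem ll04h_HePl_lip2 (hF : F.Ok) (hB : LlBaseProfile 𝔹 F.T) {Lp : ℝ} (hLp0 : 0 ≤ Lp)
    (hLp : ∀ U ∈ Icc (0 : ℝ) 1, ∀ U' ∈ Icc (0 : ℝ) 1, |F.Ups U' - F.Ups U| ≤ Lp * |U' - U|)
    (hN : 2 ≤ p.N) (hlam : 0 < p.lam) {l2 : ℝ} (hl : p.lam ≤ l2) {w : ℝ} (hw : w ∈ Icc (𝔹.pTop F.T) 1) :
    |(p.wLm l2).HePl F 𝔹 w - p.HePl F 𝔹 w| ≤ l2 ^ (1 + F.eta) * (ll04hC1 F 𝔹 Lp * Real.log (l2 / p.lam)) := by
  have hl2 : 0 < l2 := hlam.trans_le hl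
  set d : ℝ := Real.log (l2 / p.lam) with hd
  have hd0 : 0 ≤ d := Real.log_nonneg ((one_le_div hlam).2 hl)
  obtain ⟨hU0, hU1, hU⟩ := ll04h_Ut (p := p) hF hN hlam
  obtain ⟨hV0, hV1, hV⟩ := ll04h_Ut (p := p.wLm l2) hF hN hl2
  obtain ⟨ρ, hρ0, hρ1, hρd, hUU, hUρ, hUd⟩ := ll04h_pair (p := p) hF hN hlam hl
  obtain ⟨hE1, hE2⟩ := ll04h_Eb_pair (p := p) (p2 := p.wLm l2) hB hV0 hUU hU1 hUρ
  have hEp := ll04h_Eb_pos (p := p) hB hU0 hU1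
  have hEp2 := ll04h_Eb_pos (p := p.wLm l2) hB hV0 hV1
  have hEE := (ll04h_Eb (p := p) hB hU0 hU1).2
  have hEE2 := (ll04h_Eb (p := p.wLm l2) hB hV0 hV1).2
  have hĒ := ll04h_E_pos hB
  obtain ⟨a1, a2⟩ := lcf_rpow_diff p.lam l2 (1 + F.eta) hlam hl (by linarith [hF.eta0])
  have hLa : p.lam1 F = p.lam ^ (1 + F.eta) := rfl
  have hLb : (p.wLm l2).lam1 F = l2 ^ (1 + F.eta) := rfl
  have hL0 : 0 ≤ p.lam1 F := (Real.rpow_pos_of_pos hlam _).le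
  have hL1 : p.lam1 F ≤ l2 ^ (1 + F.eta) := by rw [hLa]; linarith
  have hLd : |(p.wLm l2).lam1 F - p.lam1 F| ≤ l2 ^ (1 + F.eta) * ((1 + F.eta) * d) := by
    rw [hLa, hLb, abs_of_nonneg a1]
    refine a2.trans (le_of_eq ?_)
    ring
  have hY : |F.Ups (p.U F)| ≤ 1 := by rw [abs_of_nonneg (hF.Ups_rg _).1]; exact (hF.Ups_rg _).2
  have hY2 : |F.Ups ((p.wLm l2).U F)| ≤ 1 := by rw [abs_of_nonneg (hF.Ups_rg _).1]; exact (hF.Ups_rg _).2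
  have hYd : |F.Ups ((p.wLm l2).U F) - F.Ups (p.U F)| ≤ Lp * F.sS * d := by
    refine (hLp _ hU _ hV).trans ?_
    rw [mul_assoc]
    exact mul_le_mul_of_nonneg_left (hUd.trans hρd) hLp0
  have hPM := (ll04h_PM (p := p.wLm l2) hB hV0 hV1 hw).trans (by linarith : 1 + (p.wLm l2).Eb F 𝔹 ≤ 1 + ll04hE 𝔹 F.T)
  have hP := ll04h_R_diff (E := 1) (E2 := 1) hρ0 hV0 hUU hUρ one_pos le_rfl (by linarith) (sub_nonneg.2 hw.2)
  have hM := ll04h_R_diff hρ0 hV0 hUU hUρ hEp2 hE1 hE2 (sub_nonneg.2 hw.1)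
  have hρn : 0 ≤ 1 - ρ := by linarith
  have hc : |ll04hR ((p.wLm l2).Ut F) 1 (1 - w) - ll04hR (p.Ut F) 1 (1 - w)|
      + |ll04hR ((p.wLm l2).Ut F) ((p.wLm l2).Eb F 𝔹) (w - 𝔹.pTop F.T) - ll04hR (p.Ut F) (p.Eb F 𝔹) (w - 𝔹.pTop F.T)|
      ≤ F.sS * d * (1 + ll04hE 𝔹 F.T) := by
    have h1 : (1 - ρ) * p.Eb F 𝔹 ≤ (1 - ρ) * ll04hE 𝔹 F.T := mul_le_mul_of_nonneg_left hEE hρn
    have h2 : (1 - ρ) * (1 + ll04hE 𝔹 F.T) ≤ F.sS * d * (1 + ll04hE 𝔹 F.T) :=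
      mul_le_mul_of_nonneg_right hρd (by linarith)
    linarith
  have := ll04h_prod2 hL0 hL1 hLd hY hY2 hYd hPM hc
  rw [ll04h_HePl_eq, ll04h_HePl_eq]
  refine this.trans (le_of_eq ?_)
  unfold ll04hC1
  ring

/-- (H3') with the explicit constant -/
theorem ll04h_He_lip_aux2 (hF : F.Ok) (hB : LlBaseProfile 𝔹 F.T) {Lp : ℝ} (hLp0 : 0 ≤ Lp)
    (hLp : ∀ U ∈ Icc (0 : ℝ) 1, ∀ U' ∈ Icc (0 : ℝ) 1, |F.Ups U' - F.Ups U| ≤ Lp * |U' - U|)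
    (hsm : p.sm = false) (hN : 2 ≤ p.N) (hlam : 0 < p.lam) {l2 : ℝ} (hl : p.lam ≤ l2) {A : ℝ} (hA : 0 ≤ A)
    {v : ℝ} (hv : v / p.ell ≤ 1) (hξd : |(p.wLm l2).xi F 𝔹 v - p.xi F 𝔹 v| ≤ A * Real.log (l2 / p.lam)) :
    |(p.wLm l2).He F 𝔹 v - p.He F 𝔹 v| ≤ ll04hC F 𝔹 Lp * (1 + A) * l2 ^ (1 + F.eta) * Real.log (l2 / p.lam) := by
  have hl2 : 0 < l2 := hlam.trans_le hl
  set d : ℝ := Real.log (l2 / p.lam) with hd
  set Λ : ℝ := l2 ^ (1 + F.eta) with hΛ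
  have hΛ0 : 0 < Λ := Real.rpow_pos_of_pos hl2 _
  have hd0 : 0 ≤ d := Real.log_nonneg ((one_le_div hlam).2 hl)
  have hĒ := ll04h_E_pos hB
  have hy0 : 0 < 1 - 𝔹.pTop F.T := by linarith [hB.pTop_mem.2]
  have hg := lcc_rs_pos hy0
  set G : ℝ := 1 + (1 - 𝔹.pTop F.T) ^ (-(1 / 2) : ℝ) with hG
  have hG0 : 0 < G := by positivity
  have hC1 : 0 ≤ ll04hC1 F 𝔹 Lp := by
    unfold ll04hC1
    have := hF.eta0
    have := hF.sS0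
    positivity
  have hs0 := hF.sS0
  have key : ∀ w ∈ Icc (𝔹.pTop F.T) 1, |(p.wLm l2).HePl F 𝔹 w - p.HePl F 𝔹 w| ≤ Λ * (ll04hC1 F 𝔹 Lp * d) := fun w hw =>
    ll04h_HePl_lip2 hF hB hLp0 hLp hN hlam hl hw
  have hfin : Λ * (ll04hC1 F 𝔹 Lp * d) + Λ * ((2 * (F.sS * d * ll04hE 𝔹 F.T) + A * d) * G) ≤ ll04hC F 𝔹 Lp * (1 + A) * Λ * d := by
    have e : ll04hC F 𝔹 Lp * (1 + A) * Λ * d - (Λ * (ll04hC1 F 𝔹 Lp * d) + Λ * ((2 * (F.sS * d * ll04hE 𝔹 F.T) + A * d) * G))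
        = Λ * (d * (A * ll04hC1 F 𝔹 Lp + G * (1 + A * (2 * F.sS * ll04hE 𝔹 F.T)))) := by
      unfold ll04hC
      rw [← hG]
      ring
    have : 0 ≤ Λ * (d * (A * ll04hC1 F 𝔹 Lp + G * (1 + A * (2 * F.sS * ll04hE 𝔹 F.T)))) := by positivity
    linarith
  have hnn : 0 ≤ Λ * ((2 * (F.sS * d * ll04hE 𝔹 F.T) + A * d) * G) := by positivity
  by_cases h : 𝔹.pTop F.T ≤ v / p.ell
  · have h' : 𝔹.pTop F.T ≤ v / (p.wLm l2).ell := h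
    rw [lcc_He_pl v h, lcc_He_pl v h']
    exact (key _ ⟨h, hv⟩).trans (by linarith)
  · push Not at h
    have h' : v / (p.wLm l2).ell < 𝔹.pTop F.T := h
    obtain ⟨hU0, hU1, hU⟩ := ll04h_Ut (p := p) hF hN hlam
    obtain ⟨hV0, hV1, hV⟩ := ll04h_Ut (p := p.wLm l2) hF hN hl2
    obtain ⟨ρ, hρ0, hρ1, hρd, hUU, hUρ, hUd⟩ := ll04h_pair (p := p) hF hN hlam hl
    obtain ⟨hE1, hE2⟩ := ll04h_Eb_pair (p := p) (p2 := p.wLm l2) hB hV0 hUU hU1 hUρ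
    have hEp := ll04h_Eb_pos (p := p) hB hU0 hU1
    have hEp2 := ll04h_Eb_pos (p := p.wLm l2) hB hV0 hV1
    have hEE := (ll04h_Eb (p := p) hB hU0 hU1).2
    have hξ := lcx_xi_act (F := F) (𝔹 := 𝔹) (p := p) hsm (fun ξ hξ => (hF.P_nn ξ hξ).1) hlam.le hB.xi_pos h
    have hr := ll04h_ramp hEp hξ
    have hrd := ll04h_ramp_diff (ξ2 := (p.wLm l2).xi F 𝔹 v) hEp hEp2 hξ
    have hEd : |(p.wLm l2).Eb F 𝔹 - p.Eb F 𝔹| ≤ F.sS * d * ll04hE 𝔹 F.T := by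
      refine (ll04h_sand hE2 hE1).trans ?_
      exact mul_le_mul hρd hEE hEp.le (by positivity)
    have hL2 : 0 ≤ (p.wLm l2).lam1 F := (Real.rpow_pos_of_pos hl2 _).le
    have hL2e : (p.wLm l2).lam1 F = Λ := rfl
    have hH2 := ll04h_HePl_top (p := p.wLm l2) hF hB hL2 hV0 hV1
    rw [← hG, hL2e] at hH2
    rw [lcc_He_act v h, lcc_He_act v h']
    set r : ℝ := max 0 ((p.xi F 𝔹 v - (𝔹.xiS F.T - p.Eb F 𝔹)) / p.Eb F 𝔹) with hrdef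
    set r2 : ℝ := max 0 (((p.wLm l2).xi F 𝔹 v - (𝔹.xiS F.T - (p.wLm l2).Eb F 𝔹)) / (p.wLm l2).Eb F 𝔹) with hr2def
    have e : r2 * (p.wLm l2).HePl F 𝔹 (𝔹.pTop F.T) - r * p.HePl F 𝔹 (𝔹.pTop F.T)
        = (r2 - r) * (p.wLm l2).HePl F 𝔹 (𝔹.pTop F.T) + r * ((p.wLm l2).HePl F 𝔹 (𝔹.pTop F.T) - p.HePl F 𝔹 (𝔹.pTop F.T)) := by ring
    have t1 : |(r2 - r) * (p.wLm l2).HePl F 𝔹 (𝔹.pTop F.T)| ≤ Λ * ((2 * (F.sS * d * ll04hE 𝔹 F.T) + A * d) * G) := by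
      rw [abs_mul]
      calc |r2 - r| * |(p.wLm l2).HePl F 𝔹 (𝔹.pTop F.T)|
          ≤ |r2 - r| * (Λ * (G * (p.wLm l2).Eb F 𝔹)) := mul_le_mul_of_nonneg_left hH2 (abs_nonneg _)
        _ = Λ * ((|r2 - r| * (p.wLm l2).Eb F 𝔹) * G) := by ring
        _ ≤ _ := mul_le_mul_of_nonneg_left (mul_le_mul_of_nonneg_right (by linarith) hG0.le) hΛ0.le
    have t2 : |r * ((p.wLm l2).HePl F 𝔹 (𝔹.pTop F.T) - p.HePl F 𝔹 (𝔹.pTop F.T))| ≤ Λ * (ll04hC1 F 𝔹 Lp * d) := by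
      rw [abs_mul, abs_of_nonneg hr.1]
      exact (mul_le_of_le_one_left (abs_nonneg _) hr.2).trans (key _ ⟨le_rfl, hB.pTop_mem.2.le⟩)
    rw [e]
    exact (abs_add_le _ _).trans (by linarith)

/-- **(H3')**: the sharp form of (H3) (no hypothesis `l2 ≤ 1`) -/
theorem ll04h_He_lip2 (F : LlFix) (𝔹 : LlBase) (hF : F.Ok) (hB : LlBaseProfile 𝔹 F.T) : ∃ C : ℝ, 0 ≤ C ∧
    ∀ (p : LlPt) (l2 A v : ℝ), p.sm = false → 2 ≤ p.N → 0 < p.lam → p.lam ≤ l2 → 0 ≤ A → v / p.ell ≤ 1 →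
      |(p.wLm l2).xi F 𝔹 v - p.xi F 𝔹 v| ≤ A * Real.log (l2 / p.lam) →
      |(p.wLm l2).He F 𝔹 v - p.He F 𝔹 v| ≤ C * (1 + A) * l2 ^ (1 + F.eta) * Real.log (l2 / p.lam) := by
  obtain ⟨Lp, hLp0, hLp⟩ := ll04h_Ups_lip F hF
  refine ⟨ll04hC F 𝔹 Lp, ?_, fun p l2 A v hsm hN hlam hl hA hv hξ => ll04h_He_lip_aux2 hF hB hLp0 hLp hsm hN hlam hl hA hv hξ⟩
  have hĒ := ll04h_E_pos hB
  have hy0 : 0 < 1 - 𝔹.pTop F.T := by linarith [hB.pTop_mem.2]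
  have hg := lcc_rs_pos hy0
  have := hF.eta0
  have := hF.sS0
  unfold ll04hC ll04hC1
  positivity

end pt

/-! ## 4. sizes of the clocks from the P-list: `b - b_∘`, `h_*`, `K(a)`, `H_lo` -/

section size

variable {F : LlFix} {𝔹 : LlBase} {p : LlPt}

/-- `|b - b_∘| ≤ C λ` on `[0,4]` -/
theorem ll04h_bx (F : LlFix) (hF : F.Ok) : ∃ Cb : ℝ, 0 ≤ Cb ∧ ∀ (𝔹 : LlBase) (p : LlPt), p.Ok F → 8 * p.x ≤ F.vb → ∀ v ∈ Icc (0 : ℝ) 4,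
    |p.b F 𝔹 v - p.b0 F 𝔹| ≤ Cb * p.lam := by
  obtain ⟨CG, CD, cG, h1, h2, h3, h⟩ := lce_cut F hF
  have hcb := hF.cb0
  have hc1 := hF.c10
  refine ⟨F.cb * ((1 + 4 * F.c1) * (16 * CG + 1) + F.c1 * (CD * (16 * CG))), by positivity, fun 𝔹 p hp h8 v hv => ?_⟩
  have hx := lce_x_pos hp.N2
  have hc := h p hx h8 hp.gu
  have hlam := lce_lam_pos hp
  have hG0 : p.G F 0 = 0 := hc.zero 0 hx.le
  have hG : 0 ≤ p.G F v := by rw [← hG0]; exact hc.mono hv.1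
  have hG' : p.G F v ≤ 16 * CG := by
    have h16 : v ^ 2 ≤ 16 := by nlinarith [hv.1, hv.2]
    calc p.G F v ≤ CG * v ^ 2 := hc.le v hv.1
      _ ≤ CG * 16 := mul_le_mul_of_nonneg_left h16 (by linarith)
      _ = 16 * CG := by ring
  have hU2 : p.U F ^ 2 ≤ 1 := pow_le_one₀ (lce_U_pos hp).le lce_U_le_one
  have hU20 : 0 ≤ p.U F ^ 2 := sq_nonneg _
  have hdy : |p.dySum F v| ≤ CD * (16 * CG) := by
    have := hc.dy 0 v le_rfl hv.1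
    rw [hc.dy0, sub_zero, hG0, sub_zero] at this
    exact this.trans (mul_le_mul_of_nonneg_left hG' h2)
  have e : p.b F 𝔹 v - p.b0 F 𝔹
      = F.cb * p.lam * ((p.G F v - p.U F ^ 2) - F.c1 * (p.gam0 * (p.G F v + p.U F ^ 2)) - F.c1 * p.dySum F v) := by
    unfold LlPt.b
    ring
  have t1 : |p.G F v - p.U F ^ 2| ≤ 16 * CG + 1 := by
    rw [abs_le]
    constructor <;> linarith
  have t2 : |F.c1 * (p.gam0 * (p.G F v + p.U F ^ 2))| ≤ F.c1 * (4 * (16 * CG + 1)) := by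
    refine ll04h_abs_mul (abs_of_pos hc1).le (ll04h_abs_mul (abs_le.2 hp.g0) ?_)
    rw [abs_of_nonneg (by linarith)]
    linarith
  have t3 : |F.c1 * p.dySum F v| ≤ F.c1 * (CD * (16 * CG)) := ll04h_abs_mul (abs_of_pos hc1).le hdy
  rw [e, abs_mul, abs_of_pos (mul_pos hcb hlam)]
  calc F.cb * p.lam * |(p.G F v - p.U F ^ 2) - F.c1 * (p.gam0 * (p.G F v + p.U F ^ 2)) - F.c1 * p.dySum F v|
      ≤ F.cb * p.lam * ((16 * CG + 1) + F.c1 * (4 * (16 * CG + 1)) + F.c1 * (CD * (16 * CG))) := by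
        refine mul_le_mul_of_nonneg_left ?_ (mul_pos hcb hlam).le
        exact (abs_sub _ _).trans (add_le_add ((abs_sub _ _).trans (add_le_add t1 t2)) t3)
    _ = _ := by ring

/-- `0 ≤ q ≤ 1` -/
theorem ll04h_q_mem {c C v0 : ℝ} (hR : p.Ref F 𝔹 c C v0) (v : ℝ) : p.q F 𝔹 v ∈ Icc (0 : ℝ) 1 := by
  have hK0 : 0 ≤ p.K F 𝔹 v := lce_K_nonneg v
  refine ⟨?_, hR.gam_le _ hK0⟩
  have := lce_Gam_mono hR (mem_Ici.2 le_rfl) (mem_Ici.2 hK0) hK0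
  rw [hR.gam_zero] at this
  exact this

/-- `|h_*| ≤ C λ` at ALL masses of a direct path -/
theorem ll04h_hS_abs {c C v0 Cb : ℝ} (hc : 0 < c) (hR : p.Ref F 𝔹 c C v0) (hp : p.Ok F) (hsm : p.sm = false) {v : ℝ} (hv : v ∈ Ioo 0 p.a)
    (hb : |p.b F 𝔹 v - p.b0 F 𝔹| ≤ Cb * p.lam) : |p.hS F 𝔹 v| ≤ (C * 𝔹.xiS F.T ^ 3 + Cb) * p.lam := by
  have hlam := lce_lam_pos hp
  have hK0 : 0 ≤ p.K F 𝔹 v := lce_K_nonneg v
  have hKt : p.ell ^ 2 * p.K F 𝔹 v ≤ 𝔹.xiS F.T := by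
    have := hR.K_top v hv
    simpa [hsm] using this
  have hell : 1 ≤ p.ell ^ 2 := one_le_pow₀ hp.ell1
  have hKx : p.K F 𝔹 v ≤ 𝔹.xiS F.T := by nlinarith
  have h1 := hR.gam_ftc 0 (p.K F 𝔹 v) le_rfl hK0
  rw [hR.gam_zero, sub_zero] at h1
  have hint : IntervalIntegrable (p.Gam1 F 𝔹) volume 0 (p.K F 𝔹 v) :=
    (hR.g1_cont.mono (by rw [uIcc_of_le hK0]; exact fun t ht => ht.1)).intervalIntegrable
  have h2 : p.K F 𝔹 v - p.b0 F 𝔹 * p.Gam F 𝔹 (p.K F 𝔹 v) = ∫ s in (0 : ℝ)..(p.K F 𝔹 v), p.gap F 𝔹 s := by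
    unfold LlPt.gap
    rw [intervalIntegral.integral_sub intervalIntegrable_const (hint.const_mul _), intervalIntegral.integral_const,
      intervalIntegral.integral_const_mul, ← h1]
    simp
  have hC0 : 0 ≤ C * p.lam * p.K F 𝔹 v ^ 2 := by
    have g1 := hR.gap_lo (p.K F 𝔹 v) hK0
    have g2 := hR.gap_hi (p.K F 𝔹 v) hK0 hKt
    have : 0 ≤ c * p.lam * min (p.K F 𝔹 v ^ 2) 1 := by positivity
    linarith
  have h3 : ‖∫ s in (0 : ℝ)..(p.K F 𝔹 v), p.gap F 𝔹 s‖ ≤ C * p.lam * 𝔹.xiS F.T ^ 2 * |p.K F 𝔹 v - 0| := by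
    apply intervalIntegral.norm_integral_le_of_norm_le_const
    intro s hs
    rw [uIoc_of_le hK0] at hs
    have hs0 : 0 ≤ s := hs.1.le
    have g1 := hR.gap_lo s hs0
    have g2 := hR.gap_hi s hs0 (le_trans (mul_le_mul_of_nonneg_left hs.2 (by positivity)) hKt)
    have g0 : 0 ≤ c * p.lam * min (s ^ 2) 1 := by positivity
    have hCl : 0 ≤ C * p.lam := by
      by_contra hneg
      push Not at hneg
      have : C * p.lam * s ^ 2 < 0 := mul_neg_of_neg_of_pos hneg (by have := hs.1; positivity)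
      linarith
    rw [Real.norm_eq_abs, abs_of_nonneg (by linarith)]
    refine g2.trans (mul_le_mul_of_nonneg_left ?_ hCl)
    exact pow_le_pow_left₀ hs0 (hs.2.trans hKx) 2
  rw [Real.norm_eq_abs, sub_zero, abs_of_nonneg hK0, ← h2] at h3
  have hq := ll04h_q_mem hR v
  have hCl : 0 ≤ C * p.lam * 𝔹.xiS F.T ^ 2 := by
    by_cases hK : p.K F 𝔹 v = 0
    · -- then use the bound at `ξ_*`-free level: the left side vanishes, take the trivial route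
      by_contra hneg
      push Not at hneg
      have g1 := hR.gap_lo (𝔹.xiS F.T / p.ell ^ 2) (by have := le_trans hK0 hKx; positivity)
      have g2 := hR.gap_hi (𝔹.xiS F.T / p.ell ^ 2) (by have := le_trans hK0 hKx; positivity) (by
        rw [mul_div_cancel₀ _ (by positivity)])
      have g0 : 0 ≤ c * p.lam * min ((𝔹.xiS F.T / p.ell ^ 2) ^ 2) 1 := by positivity
      have e : C * p.lam * (𝔹.xiS F.T / p.ell ^ 2) ^ 2 = C * p.lam * 𝔹.xiS F.T ^ 2 / (p.ell ^ 2) ^ 2 := by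
        field_simp
      rw [e] at g2
      have : C * p.lam * 𝔹.xiS F.T ^ 2 / (p.ell ^ 2) ^ 2 < 0 := div_neg_of_neg_of_pos hneg (by positivity)
      linarith
    · have hKp : 0 < p.K F 𝔹 v := lt_of_le_of_ne hK0 (Ne.symm hK)
      have hCl' : 0 ≤ C * p.lam := by
        by_contra hneg
        push Not at hneg
        have : C * p.lam * p.K F 𝔹 v ^ 2 < 0 := mul_neg_of_neg_of_pos hneg (by positivity)
        linarith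
      positivity
  have h4 : |p.K F 𝔹 v - p.b0 F 𝔹 * p.Gam F 𝔹 (p.K F 𝔹 v)| ≤ C * 𝔹.xiS F.T ^ 3 * p.lam := by
    refine h3.trans ?_
    calc C * p.lam * 𝔹.xiS F.T ^ 2 * p.K F 𝔹 v ≤ C * p.lam * 𝔹.xiS F.T ^ 2 * 𝔹.xiS F.T := mul_le_mul_of_nonneg_left hKx hCl
      _ = _ := by ring
  have e : p.hS F 𝔹 v = (p.K F 𝔹 v - p.b0 F 𝔹 * p.Gam F 𝔹 (p.K F 𝔹 v)) - (p.b F 𝔹 v - p.b0 F 𝔹) * p.q F 𝔹 v := by
    unfold LlPt.hS LlPt.q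
    ring
  have h5 : |(p.b F 𝔹 v - p.b0 F 𝔹) * p.q F 𝔹 v| ≤ Cb * p.lam * 1 :=
    ll04h_abs_mul hb (by rw [abs_of_nonneg hq.1]; exact hq.2)
  rw [e]
  refine (abs_sub _ _).trans ?_
  linarith

/-- the scalar clock at the terminal mass -/
theorem ll04h_K_top (hF : F.Ok) (hB : LlBaseProfile 𝔹 F.T) (hp : p.Ok F) : p.K F 𝔹 p.a ≤ max p.M (𝔹.xiS F.T) := by
  have hell : 0 < p.ell := by linarith [hp.ell1]
  have hx0 := lce_x_pos hp.N2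
  have hx1 := lce_x_lt_one hp.N2
  have hM : 0 ≤ p.M := by
    unfold LlPt.M
    have : 0 ≤ Real.log (1 / p.x) := Real.log_nonneg (by rw [le_div_iff₀ hx0]; linarith)
    positivity
  have key : p.xi F 𝔹 p.a ≤ max p.M (𝔹.xiS F.T) := by
    unfold LlPt.xi
    cases hsm : p.sm
    · have e1 : p.a = p.ell := lce_a_direct hsm
      have e2 : p.Aprof F 𝔹 = p.Adir F 𝔹 := by unfold LlPt.Aprof; rw [hsm]; simp
      rw [e1, e2, div_self hell.ne']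
      refine (lcx_inv_le hB.xi_pos.le ?_).trans (le_max_right _ _)
      unfold LlPt.Adir
      rw [hB.top _ le_rfl]
      have := mul_nonneg (lce_lam_pos hp).le (hF.P_nn _ hB.xi_pos.le).1
      linarith
    · have e1 : p.a = 4 := by simp [LlPt.a, hsm]
      have e2 : p.Aprof F 𝔹 = p.Asm F 𝔹 := by unfold LlPt.Aprof; rw [hsm]; simp
      rw [e1, e2]
      refine (lcx_inv_le hM ?_).trans (le_max_left _ _)
      unfold LlPt.Asm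
      rw [if_pos le_rfl]
  have hxi0 : 0 ≤ p.xi F 𝔹 p.a := Real.sInf_nonneg fun _ h => h.1
  unfold LlPt.K
  have h1 : (p.ell ^ 2)⁻¹ ≤ 1 := inv_le_one_of_one_le₀ (one_le_pow₀ hp.ell1)
  calc (p.ell ^ 2)⁻¹ * p.xi F 𝔹 p.a ≤ 1 * p.xi F 𝔹 p.a := mul_le_mul_of_nonneg_right h1 hxi0
    _ ≤ _ := by rw [one_mul]; exact key

/-- the logarithm of `H_lo` -/
theorem ll04h_Hlo_abs (hp : p.Ok F) {v : ℝ} (hv : p.x ≤ v) :
    |p.Hlo F v| ≤ p.lam1 F * (1 + Real.log (1 / p.x)) := by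
  have hx0 := lce_x_pos hp.N2
  have hx1 := lce_x_lt_one hp.N2
  have hl1 : 0 ≤ p.lam1 F := (Real.rpow_pos_of_pos (lce_lam_pos hp) _).le
  have hm : p.x ≤ min v p.ell := le_min hv (by linarith [hp.ell1])
  have a1 : 0 ≤ Real.log (min v p.ell / p.x) := Real.log_nonneg ((one_le_div hx0).2 hm)
  have a2 : Real.log (min v p.ell / p.x) ≤ 1 + Real.log (1 / p.x) := by
    have h1 : min v p.ell / p.x ≤ 2 * (1 / p.x) := by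
      rw [mul_one_div]
      exact div_le_div_of_nonneg_right ((min_le_right _ _).trans (lce_ell_le hp)) hx0.le
    have h2 : Real.log (min v p.ell / p.x) ≤ Real.log (2 * (1 / p.x)) :=
      Real.log_le_log (div_pos (hx0.trans_le hm) hx0) h1
    rw [Real.log_mul (by norm_num) (one_div_pos.2 hx0).ne'] at h2
    have h3 : Real.log 2 ≤ 1 := by
      have := Real.log_two_lt_d9
      linarith
    linarith
  have hU3 : p.U F ^ 3 ≤ 1 := pow_le_one₀ (lce_U_pos hp).le lce_U_le_one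
  have hU30 : 0 ≤ p.U F ^ 3 := pow_nonneg (lce_U_pos hp).le 3
  unfold LlPt.Hlo
  rw [abs_of_nonneg (by positivity)]
  calc p.lam1 F * p.U F ^ 3 * Real.log (min v p.ell / p.x) ≤ p.lam1 F * 1 * (1 + Real.log (1 / p.x)) :=
        mul_le_mul (mul_le_mul_of_nonneg_left hU3 hl1) a2 a1 (by positivity)
    _ = _ := by ring

end size

/-! ## 5. the fields `adm_b`, `adm_h`, `bd` of `Ll04ClkAt` (all four segments), and (END) -/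

/-- powers of the logarithm are subpower losses -/
theorem ll04h_log_pow {x : ℝ} (hx0 : 0 < x) (hx1 : x ≤ 1) :
    1 ≤ x ^ (-(1 / 8 : ℝ)) ∧ 0 ≤ Real.log (1 / x) ∧ Real.log (1 / x) ≤ 24 * x ^ (-(1 / 8 : ℝ)) ∧
      Real.log (1 / x) ^ 3 ≤ 13824 * x ^ (-(1 / 8 : ℝ)) := by
  have hy0 : 0 < 1 / x := by positivity
  have hy1 : 1 ≤ 1 / x := by rw [le_div_iff₀ hx0]; linarith
  have e8 : x ^ (-(1 / 8 : ℝ)) = (1 / x) ^ (1 / 8 : ℝ) := by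
    rw [Real.rpow_neg hx0.le, one_div x, Real.inv_rpow hx0.le]
  have hL := Real.log_le_rpow_div hy0.le (ε := 1 / 24) (by norm_num)
  have hL0 : 0 ≤ Real.log (1 / x) := Real.log_nonneg hy1
  have h24 : (1 / x) ^ (1 / 24 : ℝ) ≤ (1 / x) ^ (1 / 8 : ℝ) := Real.rpow_le_rpow_of_exponent_le hy1 (by norm_num)
  have h3 : ((1 / x) ^ (1 / 24 : ℝ)) ^ 3 = (1 / x) ^ (1 / 8 : ℝ) := by
    rw [← Real.rpow_natCast, ← Real.rpow_mul hy0.le]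
    norm_num
  have hL' : Real.log (1 / x) ≤ 24 * (1 / x) ^ (1 / 24 : ℝ) := by
    have e : (1 / x) ^ (1 / 24 : ℝ) / (1 / 24) = 24 * (1 / x) ^ (1 / 24 : ℝ) := by ring
    rw [e] at hL
    exact hL
  rw [e8]
  refine ⟨Real.one_le_rpow hy1 (by norm_num), hL0, hL'.trans (by linarith), ?_⟩
  calc Real.log (1 / x) ^ 3 ≤ (24 * (1 / x) ^ (1 / 24 : ℝ)) ^ 3 := pow_le_pow_left₀ hL0 hL' 3
    _ = 13824 * ((1 / x) ^ (1 / 24 : ℝ)) ^ 3 := by ring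
    _ = _ := by rw [h3]

theorem ll04h_lam1 {F : LlFix} {p : LlPt} (hp : p.Ok F) (hpS : 0 ≤ F.pS) (heta : 0 ≤ F.eta) : 0 ≤ p.lam1 F ∧ p.lam1 F ≤ p.lam ∧ p.lam ≤ 1 := by
  have h0 := lce_lam_pos hp
  have h1 := lce_lam_le_one hp hpS
  refine ⟨(Real.rpow_pos_of_pos h0 _).le, ?_, h1⟩
  have := Real.rpow_le_rpow_of_exponent_ge h0 h1 (show (1 : ℝ) ≤ 1 + F.eta by linarith)
  rwa [Real.rpow_one] at this

/-- **`adm_b`, `adm_h`, `bd`**, for every admissible point (direct or smoothed) -/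
theorem ll04h_bd (F : LlFix) (𝔹 : LlBase) (hB : LlBaseProfile 𝔹 F.T) (h3 : LlSec3 𝔹 F) :
    ∃ C : ℝ, LlUnif F fun p => GhClk1 p.a (p.b F 𝔹) ∧ GhClk1 p.a (p.h F 𝔹) ∧ p.b F 𝔹 p.a + p.h F 𝔹 p.a ≤ C * p.x ^ (-(1 / 8 : ℝ)) := by
  have hF := h3.ok
  obtain ⟨c, C, v0, hc, hv0, N1, hR⟩ := h3.ref
  obtain ⟨c', C', hc', N2, hA⟩ := h3.adm
  have hĒ := ll04h_E_pos hB
  refine ⟨|C'| + (13824 + 𝔹.xiS F.T) + 25 + 2 + (1 + ll04hE 𝔹 F.T), max N1 N2, fun p hp hN => ?_⟩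
  have hR := hR p hp (le_trans (le_max_left _ _) hN)
  obtain ⟨mb, mh, mhS, mK, mq, hbd, -, -⟩ := hA p hp (le_trans (le_max_right _ _) hN)
  obtain ⟨ha1, ha4⟩ := lce_a_mem hp
  have h0 : (0 : ℝ) ∈ Icc 0 p.a := ⟨le_rfl, by linarith⟩
  have haa : p.a ∈ Icc 0 p.a := ⟨by linarith, le_rfl⟩
  refine ⟨⟨mb, by linarith [(hbd 0 h0).1]⟩, ⟨mh, (hbd 0 h0).2.2.1⟩, ?_⟩
  have hx0 := lce_x_pos hp.N2
  have hx1 := lce_x_lt_one hp.N2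
  obtain ⟨l1, l0, l2, l3⟩ := ll04h_log_pow hx0 hx1.le
  set X : ℝ := p.x ^ (-(1 / 8 : ℝ)) with hX
  obtain ⟨hl0, hl1, hl2⟩ := ll04h_lam1 hp hF.pS0.le hF.eta0.le
  have hell : 0 < p.ell := by linarith [hp.ell1]
  have hxa : ¬ p.a < p.x := by linarith
  have hh : p.h F 𝔹 p.a = p.hS F 𝔹 p.a + p.Hlo F p.a + p.chiL * p.Hlin F p.a + p.chiE * p.He F 𝔹 p.a := by
    unfold LlPt.h
    rw [if_neg hxa]
  have hq := ll04h_q_mem hR p.a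
  have t1 : p.b F 𝔹 p.a ≤ |C'| * X := by
    calc p.b F 𝔹 p.a ≤ C' := (hbd _ haa).2.1
      _ ≤ |C'| * 1 := by rw [mul_one]; exact le_abs_self _
      _ ≤ _ := mul_le_mul_of_nonneg_left l1 (abs_nonneg _)
  have t2 : p.hS F 𝔹 p.a ≤ (13824 + 𝔹.xiS F.T) * X := by
    have a1 : p.hS F 𝔹 p.a ≤ p.K F 𝔹 p.a := by
      unfold LlPt.hS
      have : 0 ≤ p.b F 𝔹 p.a * p.q F 𝔹 p.a := mul_nonneg (by linarith [(hbd _ haa).1]) hq.1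
      linarith
    have a2 := ll04h_K_top hF hB hp
    have a3 : p.M ≤ 13824 * X := l3
    have a4 : 𝔹.xiS F.T ≤ 𝔹.xiS F.T * X := le_mul_of_one_le_right hB.xi_pos.le l1
    have a5 : 0 ≤ 13824 * X := by positivity
    have a6 : max p.M (𝔹.xiS F.T) ≤ 13824 * X + 𝔹.xiS F.T * X := max_le (by nlinarith [hB.xi_pos]) (by linarith)
    linarith
  have t3 : p.Hlo F p.a ≤ 25 * X := by
    have a1 := (le_abs_self _).trans (ll04h_Hlo_abs hp (v := p.a) (by linarith))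
    have a2 : p.lam1 F * (1 + Real.log (1 / p.x)) ≤ 1 * (1 + Real.log (1 / p.x)) :=
      mul_le_mul_of_nonneg_right (hl1.trans hl2) (by linarith)
    linarith
  have t4 : p.chiL * p.Hlin F p.a ≤ 2 * X := by
    obtain ⟨b1, b2⟩ := lcf_Hlin_bd (p := p) (F := F) hx0.le hF.vb0.le hell.le p.a
    have b3 : p.x ^ 3 * p.ell ≤ 1 * 2 := mul_le_mul (pow_le_one₀ hx0.le hx1.le) (lce_ell_le hp) hell.le zero_le_one
    have b4 : p.chiL * p.Hlin F p.a ≤ 1 * p.Hlin F p.a := mul_le_mul_of_nonneg_right hp.chiL.2 b1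
    linarith
  have t5 : p.chiE * p.He F 𝔹 p.a ≤ (1 + ll04hE 𝔹 F.T) * X := by
    have hpos : 0 ≤ (1 + ll04hE 𝔹 F.T) * X := by positivity
    cases hsm : p.sm
    · have b1 := ll04h_He_abs hF hB hsm hp.N2 (lce_lam_pos hp) (v := p.a) (by rw [lce_a_direct hsm, div_self hell.ne'])
      have b2 : p.lam1 F * (1 + ll04hE 𝔹 F.T) ≤ 1 * (1 + ll04hE 𝔹 F.T) :=
        mul_le_mul_of_nonneg_right (hl1.trans hl2) (by linarith)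
      have b3 : |p.chiE * p.He F 𝔹 p.a| ≤ 1 * (1 + ll04hE 𝔹 F.T) :=
        ll04h_abs_mul (by rw [abs_of_nonneg hp.chiE.1]; exact hp.chiE.2) (b1.trans (by linarith))
      have b4 : 1 + ll04hE 𝔹 F.T ≤ (1 + ll04hE 𝔹 F.T) * X := le_mul_of_one_le_right (by linarith) l1
      linarith [le_abs_self (p.chiE * p.He F 𝔹 p.a)]
    · rw [(hp.sm_fin hsm).2, zero_mul]
      exact hpos
  rw [hh]
  linarith

/-- at a direct point with `χ_lin = 0` the clocks are the bare data up to `O(λ log (1/x))`, pointwise -/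
theorem ll04h_end_pt (F : LlFix) (𝔹 : LlBase) (hB : LlBaseProfile 𝔹 F.T) (h3 : LlSec3 𝔹 F) :
    ∃ C : ℝ, 0 ≤ C ∧ LlUnif F fun p => p.sm = false → p.chiL = 0 → ∀ v ∈ Ioo 0 p.a,
      |p.b F 𝔹 v - F.T / p.ell ^ 2| + |p.h F 𝔹 v| ≤ C * (p.lam * (1 + Real.log (1 / p.x))) := by
  have hF := h3.ok
  obtain ⟨c, C, v0, hc, hv0, N1, hR⟩ := h3.ref
  obtain ⟨Cb, hCb, hbx⟩ := ll04h_bx F hF
  obtain ⟨N2, hN2⟩ := lce_unif_x F (F.vb / 8) (by have := hF.vb0; positivity)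
  have hĒ := ll04h_E_pos hB
  have hxS := hB.xi_pos
  refine ⟨(Cb + |C|) + ((|C| * 𝔹.xiS F.T ^ 3 + Cb) + 1 + (1 + ll04hE 𝔹 F.T)), by positivity, max N1 N2,
    fun p hp hN hsm hchi v hv => ?_⟩
  have hR := hR p hp (le_trans (le_max_left _ _) hN)
  have h8 : 8 * p.x ≤ F.vb := by
    have := hN2 p hp (le_trans (le_max_right _ _) hN)
    linarith
  obtain ⟨ha1, ha4⟩ := lce_a_mem hp
  have hx0 := lce_x_pos hp.N2
  have hx1 := lce_x_lt_one hp.N2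
  obtain ⟨-, l0, -, -⟩ := ll04h_log_pow hx0 hx1.le
  obtain ⟨hl0, hl1, hl2⟩ := ll04h_lam1 hp hF.pS0.le hF.eta0.le
  have hlam := lce_lam_pos hp
  have hell : 0 < p.ell := by linarith [hp.ell1]
  have hb := hbx 𝔹 p hp h8 v ⟨hv.1.le, by linarith [hv.2]⟩
  set Λ : ℝ := p.lam * (1 + Real.log (1 / p.x)) with hΛ
  have hΛ1 : p.lam ≤ Λ := le_mul_of_one_le_right hlam.le (by linarith)
  have hΛ0 : 0 ≤ Λ := hlam.le.trans hΛ1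
  have t1 : |p.b F 𝔹 v - F.T / p.ell ^ 2| ≤ (Cb + |C|) * Λ := by
    have a1 : |p.b0 F 𝔹 - F.T / p.ell ^ 2| ≤ |C| * p.lam := by
      have e : p.b0 F 𝔹 - F.T / p.ell ^ 2 = (p.ell ^ 2 * p.b0 F 𝔹 - F.T) / p.ell ^ 2 := by field_simp
      rw [e, abs_div, abs_of_pos (by positivity : 0 < p.ell ^ 2)]
      have a2 : |p.ell ^ 2 * p.b0 F 𝔹 - F.T| ≤ |C| * p.lam :=
        hR.b0_T.trans (mul_le_mul_of_nonneg_right (le_abs_self _) hlam.le)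
      exact (div_le_self (abs_nonneg _) (one_le_pow₀ hp.ell1)).trans a2
    have e : p.b F 𝔹 v - F.T / p.ell ^ 2 = (p.b F 𝔹 v - p.b0 F 𝔹) + (p.b0 F 𝔹 - F.T / p.ell ^ 2) := by ring
    rw [e]
    refine (abs_add_le _ _).trans ?_
    calc _ ≤ Cb * p.lam + |C| * p.lam := add_le_add hb a1
      _ = (Cb + |C|) * p.lam := by ring
      _ ≤ _ := mul_le_mul_of_nonneg_left hΛ1 (by positivity)
  have t2 : |p.h F 𝔹 v| ≤ ((|C| * 𝔹.xiS F.T ^ 3 + Cb) + 1 + (1 + ll04hE 𝔹 F.T)) * Λ := by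
    have hpos : 0 ≤ ((|C| * 𝔹.xiS F.T ^ 3 + Cb) + 1 + (1 + ll04hE 𝔹 F.T)) * Λ := by positivity
    unfold LlPt.h
    split_ifs with hvx
    · rw [abs_zero]; exact hpos
    · push Not at hvx
      rw [hchi, zero_mul, add_zero]
      have a1 : |p.hS F 𝔹 v| ≤ (|C| * 𝔹.xiS F.T ^ 3 + Cb) * Λ := by
        refine (ll04h_hS_abs hc hR hp hsm hv hb).trans ?_
        have : C * 𝔹.xiS F.T ^ 3 ≤ |C| * 𝔹.xiS F.T ^ 3 := mul_le_mul_of_nonneg_right (le_abs_self _) (by positivity)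
        calc (C * 𝔹.xiS F.T ^ 3 + Cb) * p.lam ≤ (|C| * 𝔹.xiS F.T ^ 3 + Cb) * p.lam :=
              mul_le_mul_of_nonneg_right (by linarith) hlam.le
          _ ≤ _ := mul_le_mul_of_nonneg_left hΛ1 (by positivity)
      have a2 : |p.Hlo F v| ≤ 1 * Λ := by
        refine (ll04h_Hlo_abs hp hvx).trans ?_
        rw [one_mul]
        exact mul_le_mul_of_nonneg_right hl1 (by linarith)
      have a3 : |p.chiE * p.He F 𝔹 v| ≤ (1 + ll04hE 𝔹 F.T) * Λ := by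
        have b1 := ll04h_He_abs hF hB hsm hp.N2 hlam (v := v) (by
          rw [div_le_one hell, ← lce_a_direct hsm]; exact hv.2.le)
        have b3 : |p.chiE * p.He F 𝔹 v| ≤ 1 * (p.lam1 F * (1 + ll04hE 𝔹 F.T)) :=
          ll04h_abs_mul (by rw [abs_of_nonneg hp.chiE.1]; exact hp.chiE.2) b1
        calc _ ≤ 1 * (p.lam1 F * (1 + ll04hE 𝔹 F.T)) := b3
          _ = (1 + ll04hE 𝔹 F.T) * p.lam1 F := by ring
          _ ≤ _ := mul_le_mul_of_nonneg_left (hl1.trans hΛ1) (by linarith)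
      refine (abs_add_three _ _ _).trans ?_
      linarith
  linarith

/-- a pointwise bound on the interior bounds the integral (no measurability needed) -/
theorem ll04h_int_const {f : ℝ → ℝ} {a B : ℝ} (ha : 0 ≤ a) (h : ∀ v ∈ Ioo 0 a, |f v| ≤ B) : ∫ v in (0 : ℝ)..a, f v ≤ B * a := by
  have h1 : ∀ᵐ v : ℝ, v ∈ Set.uIoc (0 : ℝ) a → ‖f v‖ ≤ B := by
    have : ∀ᵐ v : ℝ, v ≠ a := by simp [ae_iff, measure_singleton]
    filter_upwards [this] with v hv hm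
    rw [uIoc_of_le ha] at hm
    exact h v ⟨hm.1, lt_of_le_of_ne hm.2 hv⟩
  have h2 := intervalIntegral.norm_integral_le_of_norm_le_const_ae h1
  rw [sub_zero, abs_of_nonneg ha] at h2
  exact (le_abs_self _).trans h2

/-- the starting point of the strength sweep -/
theorem ll04h_start (F : LlFix) (hp : F.pS ≤ 12) {N : ℕ} (hN : 2 ≤ N) {ell : ℝ} (hl : ell ∈ Icc (1 : ℝ) ((2 : ℝ) ^ (1 / 6 : ℝ))) (γ : Fin (N + 1) → ℝ) :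
    (ll04Dir F N ell 0 γ 0).Ok F ∧ (ll04Dir F N ell 0 γ 0).lam = skX N ^ (12 : ℝ) := by
  have hU : ll04U 1 0 = 0 := ll04w_U_of_mem ⟨le_rfl, zero_le_one⟩
  have hx := ll04w_x_mem (N := N) (by omega)
  have hcl : ∀ y, ll04Cl y ∈ Icc (-4 : ℝ) 4 := fun y =>
    ⟨by linarith [(ll04w_cl_mem y).1], by linarith [(ll04w_cl_mem y).2]⟩
  have hlam : (ll04Dir F N ell 0 γ 0).lam = skX N ^ (12 : ℝ) := by
    simp [ll04Dir, ll04Pt, hU]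
  refine ⟨⟨hN, hl.1, hl.2, ?_, ?_, hcl _, fun h => ?_, ?_, ?_, fun h => absurd h (by simp [ll04Dir, ll04Pt])⟩, hlam⟩
  · rw [hlam]; exact le_rfl
  · rw [hlam]; exact Real.rpow_le_rpow_of_exponent_ge hx.1 hx.2 hp
  · show (if hh : h < N then ll04Cl (γ ⟨h + 1, Nat.succ_lt_succ hh⟩) else 1 / 2) ∈ Icc (-4 : ℝ) 4
    split_ifs
    · exact hcl _
    · constructor <;> norm_num
  · simp [ll04Dir, ll04Pt]
  · simp [ll04Dir, ll04Pt]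

/-- **SUPPLY (END)** from the P-list -/
theorem ll04h_end (F : LlFix) (𝔹 : LlBase) (hE : LlExpOk F.sS F.eta F.pS) (hB : LlBaseProfile 𝔹 F.T) (h3 : LlSec3 𝔹 F) : Ll04End 𝔹 F := by
  obtain ⟨C, hC0, N0, h⟩ := ll04h_end_pt F 𝔹 hB h3
  refine ⟨2 * C, max N0 2, fun N hN ell hell γ => ?_⟩
  have hN2 : 2 ≤ N := le_trans (le_max_right _ _) hN
  obtain ⟨hok, hlam⟩ := ll04h_start F (by linarith [hE.p_hi]) hN2 hell γ
  have key := h _ hok (le_trans (le_max_left _ _) hN) rfl (by simp [ll04Dir, ll04Pt])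
  have ha : (ll04Dir F N ell 0 γ 0).a = ell := by simp [ll04Dir, ll04Pt, LlPt.a]
  have hx := ll04w_x_mem (N := N) (by omega)
  have hxe : (ll04Dir F N ell 0 γ 0).x = skX N := rfl
  rw [ha, hlam, hxe] at key
  have hl2 : ell ≤ 2 := by
    have := lce_ell_le hok
    exact this
  have hsm : skX N ^ (12 : ℝ) * (1 + Real.log (1 / skX N)) ≤ skX N ^ (6 : ℝ) := by
    have a1 : 1 + Real.log (1 / skX N) ≤ 1 / skX N := by
      have := Real.log_le_sub_one_of_pos (show 0 < 1 / skX N by have := hx.1; positivity)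
      linarith
    have a2 : skX N ^ (12 : ℝ) * (1 / skX N) = skX N ^ (11 : ℝ) := by
      rw [mul_one_div, ← Real.rpow_sub_one hx.1.ne']
      norm_num
    calc _ ≤ skX N ^ (12 : ℝ) * (1 / skX N) := mul_le_mul_of_nonneg_left a1 (Real.rpow_pos_of_pos hx.1 _).le
      _ = skX N ^ (11 : ℝ) := a2
      _ ≤ _ := Real.rpow_le_rpow_of_exponent_ge hx.1 hx.2 (by norm_num)
  have hx6 : 0 < skX N ^ (6 : ℝ) := Real.rpow_pos_of_pos hx.1 _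
  have hb : ∀ v ∈ Ioo 0 ell, |(|(ll04Dir F N ell 0 γ 0).b F 𝔹 v - F.T / ell ^ 2| + |(ll04Dir F N ell 0 γ 0).h F 𝔹 v|)| ≤ C * skX N ^ (6 : ℝ) := by
    intro v hv
    rw [abs_of_nonneg (by positivity)]
    exact (key v hv).trans (mul_le_mul_of_nonneg_left hsm hC0)
  refine (ll04h_int_const (by linarith [hell.1]) hb).trans ?_
  calc C * skX N ^ (6 : ℝ) * ell ≤ C * skX N ^ (6 : ℝ) * 2 := mul_le_mul_of_nonneg_left hl2 (by positivity)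
    _ = _ := by ring

end Claimed.Agent.R286
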