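import Claimed.Agent.R286.Defs.GhBasic
import Claimed.Agent.R286.Gh.Reg

/-!
# Row 286 (S0533), LL04/NbGen : ADDING AN INDEPENDENT FIELD TO A HIERARCHY      (owner helper70; prefix `lnb_`, `lnb*`)

Generic engine of LL (4.1) `red:eq-neighbor` (TEX[LL:red:lem-site-smoothing]), on `Defs/Gh.lean`; NO derivative formula, NO interpolation.
If every level `l` of a hierarchy receives additional independent features `E` (same mass), then
    `0 ≤ F(K + E) - F(K) ≤ (a / 2) sup_s E_tot(s,s)`.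
* lower bound: Jensen for `exp`, Jensen for the convex continuation (`ghF_convexOn`), monotonicity of `T_m`;
* upper bound: the additional field is pushed to the terminal level (`T_m ≤ T_m'` for `m ≤ m'`, Fubini at equal mass), where it is integrated exactly.
Contents: `lnb_T_mono`, `lnb_T_ge_int`, `lnb_T_mass`, `lnb_T_prod`, `lnb_T_swap` (abstract `ghT`);  `lnbAdd`, `lnb_split`, `lnb_push`, **`lnb_add_lower`**, **`lnb_add_upper`**, `lnb_add_le`;
`lnbPull`, **`lnb_lift`** (a hierarchy which does not see a part of the configuration).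
-/

set_option autoImplicit false
set_option linter.unusedSectionVars false

namespace Claimed.Agent.R286

open MeasureTheory ProbabilityTheory

/-! ### the operation `T_m` on an abstract probability space -/

section abstractT

variable {Ω Ω' : Type} [MeasurableSpace Ω] [MeasurableSpace Ω'] {μ : Measure Ω} [IsProbabilityMeasure μ]
  {ν : Measure Ω'} [IsProbabilityMeasure ν]

/-- `T_m` is monotone -/
theorem lnb_T_mono {m : ℝ} (hm : 0 ≤ m) {F G : Ω → ℝ} (hFG : ∀ ω, F ω ≤ G ω) (hF : Integrable F μ) (hG : Integrable G μ)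
    (hF' : Integrable (fun ω => Real.exp (m * F ω)) μ) (hG' : Integrable (fun ω => Real.exp (m * G ω)) μ) :
    ghT μ m F ≤ ghT μ m G := by
  unfold ghT
  split_ifs with h0
  · exact integral_mono hF hG hFG
  · refine mul_le_mul_of_nonneg_left ?_ (inv_nonneg.2 hm)
    refine Real.log_le_log (integral_exp_pos hF') ?_
    exact integral_mono hF' hG' fun ω => Real.exp_le_exp.2 (mul_le_mul_of_nonneg_left (hFG ω) hm)

/-- Jensen: `E F ≤ T_m F` -/
theorem lnb_T_ge_int {m : ℝ} (hm : 0 ≤ m) {F : Ω → ℝ} (hF : Integrable F μ)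
    (hF' : Integrable (fun ω => Real.exp (m * F ω)) μ) : ∫ ω, F ω ∂μ ≤ ghT μ m F := by
  unfold ghT
  split_ifs with h0
  · exact le_rfl
  · have hm' : 0 < m := lt_of_le_of_ne hm (Ne.symm h0)
    have key : Real.exp (m * ∫ ω, F ω ∂μ) ≤ ∫ ω, Real.exp (m * F ω) ∂μ := by
      set t0 := m * ∫ ω, F ω ∂μ with ht0
      have h1 : ∀ ω, Real.exp t0 * (m * F ω - t0 + 1) ≤ Real.exp (m * F ω) := by
        intro ω
        have := Real.add_one_le_exp (m * F ω - t0)
        calc Real.exp t0 * (m * F ω - t0 + 1) ≤ Real.exp t0 * Real.exp (m * F ω - t0) :=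
              mul_le_mul_of_nonneg_left this (Real.exp_pos _).le
          _ = Real.exp (m * F ω) := by rw [← Real.exp_add]; congr 1; ring
      have hi : Integrable (fun ω => m * F ω - t0 + 1) μ := ((hF.const_mul m).sub (integrable_const t0)).add (integrable_const 1)
      have h2 : ∫ ω, Real.exp t0 * (m * F ω - t0 + 1) ∂μ = Real.exp t0 := by
        have h3 : ∫ ω, (m * F ω - t0 + 1) ∂μ = 1 := by
          have e1 : ∫ ω, (m * F ω - t0 + 1) ∂μ = (∫ ω, (m * F ω - t0) ∂μ) + ∫ _ω, (1 : ℝ) ∂μ :=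
            integral_add ((hF.const_mul m).sub (integrable_const t0)) (integrable_const 1)
          have e2 : ∫ ω, (m * F ω - t0) ∂μ = (∫ ω, m * F ω ∂μ) - ∫ _ω, t0 ∂μ :=
            integral_sub (hF.const_mul m) (integrable_const t0)
          rw [e1, e2, integral_const_mul]
          simp [ht0]
        rw [integral_const_mul, h3, mul_one]
      calc Real.exp t0 = ∫ ω, Real.exp t0 * (m * F ω - t0 + 1) ∂μ := h2.symm
        _ ≤ _ := integral_mono (hi.const_mul _) hF' h1
    rw [le_inv_mul_iff₀ hm']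
    exact (Real.le_log_iff_exp_le (integral_exp_pos hF')).2 key

/-- `T_m` is nondecreasing in the mass -/
theorem lnb_T_mass {m m' : ℝ} (hm : 0 ≤ m) (hmm : m ≤ m') {F : Ω → ℝ} (hF : Integrable F μ)
    (h1 : Integrable (fun ω => Real.exp (m * F ω)) μ) (h2 : Integrable (fun ω => Real.exp (m' * F ω)) μ) :
    ghT μ m F ≤ ghT μ m' F := by
  rcases hm.eq_or_lt with h0 | h0
  · have : ghT μ m F = ∫ ω, F ω ∂μ := by simp [ghT, ← h0]
    rw [this]
    exact lnb_T_ge_int (hm.trans hmm) hF h2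
  · have hm' : 0 < m' := h0.trans_le hmm
    have hp : 1 ≤ m' / m := (one_le_div h0).2 hmm
    have e : ∀ ω, Real.exp (m * F ω) ^ (m' / m) = Real.exp (m' * F ω) := by
      intro ω
      rw [← Real.exp_mul]
      congr 1
      field_simp
    have hJ := (convexOn_rpow hp).map_integral_le (μ := μ) (f := fun ω => Real.exp (m * F ω))
      ((continuous_id.rpow_const fun _ => Or.inr (zero_le_one.trans hp)).continuousOn) isClosed_Ici
      (Filter.Eventually.of_forall fun ω => (Real.exp_pos _).le) h1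
      (by simpa only [Function.comp_def, e] using h2)
    simp only [e] at hJ
    have hI := integral_exp_pos h1
    have hl : m' / m * Real.log (∫ ω, Real.exp (m * F ω) ∂μ) ≤ Real.log (∫ ω, Real.exp (m' * F ω) ∂μ) := by
      rw [← Real.log_rpow hI]
      exact Real.log_le_log (Real.rpow_pos_of_pos hI _) hJ
    simp only [ghT, h0.ne', hm'.ne', if_false]
    rw [inv_mul_le_iff₀ h0]
    calc Real.log (∫ ω, Real.exp (m * F ω) ∂μ) = m / m' * (m' / m * Real.log (∫ ω, Real.exp (m * F ω) ∂μ)) := by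
          field_simp
      _ ≤ m / m' * Real.log (∫ ω, Real.exp (m' * F ω) ∂μ) := mul_le_mul_of_nonneg_left hl (div_pos h0 hm').le
      _ = m * (m'⁻¹ * Real.log (∫ ω, Real.exp (m' * F ω) ∂μ)) := by ring

/-- Fubini at equal mass -/
theorem lnb_T_prod (m : ℝ) {F : Ω × Ω' → ℝ} (hF : Integrable F (μ.prod ν))
    (hF' : Integrable (fun p => Real.exp (m * F p)) (μ.prod ν)) :
    ghT (μ.prod ν) m F = ghT μ m fun x => ghT ν m fun y => F (x, y) := by
  unfold ghT
  split_ifs with h0
  · exact integral_prod _ hF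
  · congr 2
    rw [integral_prod _ hF']
    refine integral_congr_ae ?_
    filter_upwards [hF'.prod_right_ae] with x hx
    rw [← mul_assoc, mul_inv_cancel₀ h0, one_mul, Real.exp_log (integral_exp_pos hx)]

/-- the two orders of integration at equal mass -/
theorem lnb_T_swap (m : ℝ) {F : Ω × Ω' → ℝ} (hF : Integrable F (μ.prod ν))
    (hF' : Integrable (fun p => Real.exp (m * F p)) (μ.prod ν)) :
    (ghT μ m fun x => ghT ν m fun y => F (x, y)) = ghT ν m fun y => ghT μ m fun x => F (x, y) := by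
  rw [← lnb_T_prod m hF hF']
  have h := lnb_T_prod (μ := ν) (ν := μ) m (F := fun p => F p.swap) hF.swap hF'.swap
  simp only [Prod.swap_prod_mk] at h
  rw [← h]
  unfold ghT
  split_ifs with h0
  · exact (integral_prod_swap F).symm
  · rw [← integral_prod_swap (fun p => Real.exp (m * F p))]

end abstractT

/-! ### Gaussian facts on the drivers -/

section gauss

variable {κ : Type} [Fintype κ]

theorem lnb_mgf_int (c : κ → ℝ) : Integrable (fun η : κ → ℝ => Real.exp (∑ k, c k * η k)) (ghStd κ) := by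
  simp_rw [Real.exp_sum]
  exact Integrable.fintype_prod (f := fun k (x : ℝ) => Real.exp (c k * x)) (μ := fun _ => gaussianReal 0 1)
    fun k => integrable_exp_mul_gaussianReal (c k)

theorem lnb_mgf (c : κ → ℝ) : ∫ η, Real.exp (∑ k, c k * η k) ∂ghStd κ = Real.exp ((∑ k, c k ^ 2) / 2) := by
  simp_rw [Real.exp_sum]
  unfold ghStd
  rw [integral_fintype_prod_eq_prod (fun k (x : ℝ) => Real.exp (c k * x)), Finset.sum_div, Real.exp_sum]
  refine Finset.prod_congr rfl fun k _ => ?_
  have := congrFun (mgf_id_gaussianReal (μ := 0) (v := 1)) (c k)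
  simpa [mgf] using this

theorem lnb_coord_int (k : κ) : Integrable (fun η : κ → ℝ => η k) (ghStd κ) := by
  unfold ghStd
  exact integrable_comp_eval (μ := fun _ : κ => gaussianReal 0 1) (i := k) (f := fun x : ℝ => x)
    ((memLp_id_gaussianReal 1).integrable le_rfl)

theorem lnb_coord_mean (k : κ) : ∫ η : κ → ℝ, η k ∂ghStd κ = 0 := by
  unfold ghStd
  rw [integral_comp_eval (μ := fun _ : κ => gaussianReal 0 1) (i := k) (f := fun x : ℝ => x) aestronglyMeasurable_id]
  exact integral_id_gaussianReal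

end gauss

/-! ### additional independent features -/

section hier

variable {S ι κ : Type} [Fintype S] [Fintype ι] [Fintype κ]

/-- the level `l` with the additional independent features `E` (same mass) -/
def lnbAdd (l : GhLv S ι) (E : S → κ → ℝ) : GhLv S (ι ⊕ κ) := ⟨l.m, fun s => Sum.elim (l.A s) (E s)⟩

theorem lnb_add_inc (l : GhLv S ι) (E : S → κ → ℝ) (ζ : ι ⊕ κ → ℝ) :
    (lnbAdd l E).inc ζ = l.inc (fun i => ζ (Sum.inl i)) + (GhLv.mk l.m E).inc fun k => ζ (Sum.inr k) := by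
  funext s
  simp [lnbAdd, GhLv.inc, Fintype.sum_sum_type]

theorem lnb_add_cov (l : GhLv S ι) (E : S → κ → ℝ) (s t : S) :
    (lnbAdd l E).cov s t = l.cov s t + ∑ k, E s k * E t k := by
  simp [lnbAdd, GhLv.cov, Fintype.sum_sum_type]

theorem lnb_inc_mean (l : GhLv S κ) (y : S → ℝ) : ∫ η, (y + l.inc η) ∂ghStd κ = y := by
  have hi : ∀ s, Integrable (fun η : κ → ℝ => (y + l.inc η) s) (ghStd κ) := fun s => by
    simp only [Pi.add_apply, GhLv.inc]
    exact (integrable_const _).add (integrable_finsetSum _ fun k _ => (lnb_coord_int k).const_mul _)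
  funext s
  rw [eval_integral hi s]
  simp only [Pi.add_apply, GhLv.inc]
  rw [integral_add (integrable_const _) (integrable_finsetSum _ fun k _ => (lnb_coord_int k).const_mul _),
    integral_finsetSum _ fun k _ => (lnb_coord_int k).const_mul _]
  simp [integral_const_mul, lnb_coord_mean]

theorem lnb_inc_int (l : GhLv S κ) (y : S → ℝ) : Integrable (fun η => y + l.inc η) (ghStd κ) :=
  Integrable.of_eval fun s => by
    simp only [Pi.add_apply, GhLv.inc]
    exact (integrable_const _).add (integrable_finsetSum _ fun k _ => (lnb_coord_int k).const_mul _)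

/-- Jensen for a convex continuation: an independent centred field increases the mean -/
theorem lnb_jensen_inc {G : (S → ℝ) → ℝ} (hG : GhNice G) (hc : ConvexOn ℝ Set.univ G) (l : GhLv S κ) (y : S → ℝ) :
    G y ≤ ∫ η, G (y + l.inc η) ∂ghStd κ := by
  have h := hc.map_integral_le (μ := ghStd κ) (f := fun η => y + l.inc η) hG.continuous.continuousOn isClosed_univ
    (Filter.Eventually.of_forall fun _ => Set.mem_univ _) (lnb_inc_int l y) (hG.integrable l y)
  rwa [lnb_inc_mean] at h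

theorem lnb_int_exp_prod {G : (S → ℝ) → ℝ} (hG : GhNice G) (l : GhLv S ι) (l' : GhLv S κ) (c : ℝ) (z : S → ℝ) :
    Integrable (fun p : (ι → ℝ) × (κ → ℝ) => Real.exp (c * G (z + l.inc p.1 + l'.inc p.2)))
      ((ghStd ι).prod (ghStd κ)) := by
  have hc : Continuous fun p : (ι → ℝ) × (κ → ℝ) => Real.exp (c * G (z + l.inc p.1 + l'.inc p.2)) :=
    Real.continuous_exp.comp (continuous_const.mul (hG.continuous.comp
      ((continuous_const.add ((gh_b_inc_continuous l).comp continuous_fst)).add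
        ((gh_b_inc_continuous l').comp continuous_snd))))
  have hd := ((gh_b_exp_l1 (ι := ι) (|c| * l.nrm)).mul_prod (gh_b_exp_l1 (ι := κ) (|c| * l'.nrm))).const_mul
    (Real.exp (c * G z))
  refine hd.mono' hc.aestronglyMeasurable (Filter.Eventually.of_forall fun p => ?_)
  rw [Real.norm_eq_abs, abs_of_pos (Real.exp_pos _), ← Real.exp_add, ← Real.exp_add]
  apply Real.exp_le_exp.2
  have h1 := hG.abs_inc_le l z p.1
  have h2 := hG.abs_inc_le l' (z + l.inc p.1) p.2
  have h3 : |G (z + l.inc p.1 + l'.inc p.2) - G z| ≤ l.nrm * ∑ i, |p.1 i| + l'.nrm * ∑ i, |p.2 i| := by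
    calc |G (z + l.inc p.1 + l'.inc p.2) - G z|
        = |(G (z + l.inc p.1 + l'.inc p.2) - G (z + l.inc p.1)) + (G (z + l.inc p.1) - G z)| := by congr 1; ring
      _ ≤ _ := (abs_add_le _ _).trans (by linarith)
  have h4 : c * (G (z + l.inc p.1 + l'.inc p.2) - G z) ≤ |c| * (l.nrm * ∑ i, |p.1 i| + l'.nrm * ∑ i, |p.2 i|) := by
    calc c * (G (z + l.inc p.1 + l'.inc p.2) - G z) ≤ |c * (G (z + l.inc p.1 + l'.inc p.2) - G z)| := le_abs_self _
      _ = |c| * |G (z + l.inc p.1 + l'.inc p.2) - G z| := abs_mul _ _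
      _ ≤ _ := mul_le_mul_of_nonneg_left h3 (abs_nonneg _)
  nlinarith [h4]

theorem lnb_int_prod {G : (S → ℝ) → ℝ} (hG : GhNice G) (l : GhLv S ι) (l' : GhLv S κ) (z : S → ℝ) :
    Integrable (fun p : (ι → ℝ) × (κ → ℝ) => G (z + l.inc p.1 + l'.inc p.2)) ((ghStd ι).prod (ghStd κ)) := by
  have hc : Continuous fun p : (ι → ℝ) × (κ → ℝ) => G (z + l.inc p.1 + l'.inc p.2) :=
    hG.continuous.comp ((continuous_const.add ((gh_b_inc_continuous l).comp continuous_fst)).add
        ((gh_b_inc_continuous l').comp continuous_snd))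
  refine ((lnb_int_exp_prod hG l l' 1 z).add (lnb_int_exp_prod hG l l' (-1) z)).mono' hc.aestronglyMeasurable
    (Filter.Eventually.of_forall fun p => ?_)
  simp only [Pi.add_apply, one_mul, neg_mul, Real.norm_eq_abs]
  set x := G (z + l.inc p.1 + l'.inc p.2)
  have h1 := Real.add_one_le_exp x
  have h2 := Real.add_one_le_exp (-x)
  rw [abs_le]
  constructor <;> linarith [Real.exp_pos x, Real.exp_pos (-x)]

/-- one level with additional features = two successive integrations at the same mass -/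
theorem lnb_split {G : (S → ℝ) → ℝ} (hG : GhNice G) (l : GhLv S ι) (E : S → κ → ℝ) (z : S → ℝ) :
    ghT (ghStd (ι ⊕ κ)) l.m (fun ζ => G (z + (lnbAdd l E).inc ζ))
      = ghT (ghStd ι) l.m fun ξ => ghT (ghStd κ) l.m fun η => G (z + l.inc ξ + (GhLv.mk l.m E).inc η) := by
  rw [← lnb_T_prod l.m (F := fun p : (ι → ℝ) × (κ → ℝ) => G (z + l.inc p.1 + (GhLv.mk l.m E).inc p.2))
    (lnb_int_prod hG l ⟨l.m, E⟩ z) (lnb_int_exp_prod hG l ⟨l.m, E⟩ l.m z)]
  have mp := measurePreserving_sumPiEquivProdPi (fun _ : ι ⊕ κ => gaussianReal 0 1)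
  have e : ∀ ζ : ι ⊕ κ → ℝ, G (z + (lnbAdd l E).inc ζ)
      = (fun p : (ι → ℝ) × (κ → ℝ) => G (z + l.inc p.1 + (GhLv.mk l.m E).inc p.2))
        (MeasurableEquiv.sumPiEquivProdPi (fun _ : ι ⊕ κ => ℝ) ζ) := by
    intro ζ
    rw [lnb_add_inc, ← add_assoc]
    rfl
  simp only [e]
  unfold ghT ghStd
  split_ifs with h0
  · exact mp.integral_comp' (fun p : (ι → ℝ) × (κ → ℝ) => G (z + l.inc p.1 + (GhLv.mk l.m E).inc p.2))
  · rw [mp.integral_comp' (fun p : (ι → ℝ) × (κ → ℝ) => Real.exp (l.m * G (z + l.inc p.1 + (GhLv.mk l.m E).inc p.2)))]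

variable {B : GhB S}

/-- the terminal level integrates an additional field exactly -/
theorem lnb_push_nil (hB : B.Ok) (l : GhLv S κ) (y : S → ℝ) :
    ghT (ghStd κ) B.a (fun η => ghF0 B (y + l.inc η)) = ghF0 B (y + fun s => B.a / 2 * ∑ k, l.A s k ^ 2) := by
  have ha := hB.pos
  simp only [ghT, ha.ne', if_false]
  unfold ghF0
  congr 2
  have e1 : ∀ η, Real.exp (B.a * (B.a⁻¹ * Real.log (∑ s, B.w s * Real.exp (B.a * (y + l.inc η) s))))
      = ∑ s, B.w s * Real.exp (B.a * (y + l.inc η) s) := by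
    intro η
    rw [← mul_assoc, mul_inv_cancel₀ ha.ne', one_mul, Real.exp_log (gh_b_Z_pos hB _)]
  simp_rw [e1]
  have e2 : ∀ η s, B.w s * Real.exp (B.a * (y + l.inc η) s)
      = B.w s * Real.exp (B.a * y s) * Real.exp (∑ k, (B.a * l.A s k) * η k) := by
    intro η s
    rw [mul_assoc, ← Real.exp_add]
    congr 2
    simp only [Pi.add_apply, GhLv.inc, mul_add, Finset.mul_sum, mul_assoc]
  simp_rw [e2]
  rw [integral_finsetSum _ fun s _ => (lnb_mgf_int _).const_mul _]
  refine Finset.sum_congr rfl fun s _ => ?_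
  rw [integral_const_mul, lnb_mgf, mul_assoc, ← Real.exp_add]
  congr 2
  simp only [Pi.add_apply, mul_pow, ← Finset.mul_sum]
  ring

/-- **the push lemma**: an additional field revealed at a mass below all remaining masses costs at most its terminal value -/
theorem lnb_push (hB : B.Ok) (E : S → κ → ℝ) : ∀ (M : List (GhLv S ι)) (m : ℝ), 0 ≤ m → m ≤ B.a →
    (∀ l ∈ M, m ≤ l.m ∧ l.m ≤ B.a) → M.Pairwise (fun l l' => l.m ≤ l'.m) → ∀ y : S → ℝ,
    ghT (ghStd κ) m (fun η => ghF B M (y + (GhLv.mk m E).inc η)) ≤ ghF B M (y + fun s => B.a / 2 * ∑ k, E s k ^ 2)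
  | [], m, hm, hma, _, _, y => by
    have hN := gh_b_nice0 hB
    calc ghT (ghStd κ) m (fun η => ghF0 B (y + (GhLv.mk m E).inc η))
        ≤ ghT (ghStd κ) B.a (fun η => ghF0 B (y + (GhLv.mk m E).inc η)) :=
          lnb_T_mass hm hma (hN.integrable _ y) (hN.integrable_exp _ m y) (hN.integrable_exp _ B.a y)
      _ = _ := lnb_push_nil hB ⟨m, E⟩ y
  | l :: M, m, hm, hma, hM, hp, y => by
    have hl := hM l List.mem_cons_self
    have hl0 : 0 ≤ l.m := hm.trans hl.1
    have hnnM : GhNn M := fun l' hl' => hm.trans (hM l' (List.mem_cons_of_mem _ hl')).1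
    have hnnlM : GhNn (l :: M) := fun l' hl' => hm.trans (hM l' hl').1
    have hG : GhNice (ghF B M) := gh_b_nice hB hnnM
    have hGl : GhNice (ghF B (l :: M)) := gh_b_nice hB hnnlM
    have ih := lnb_push hB E M l.m hl0 hl.2
      (fun l' hl' => ⟨(List.pairwise_cons.1 hp).1 l' hl', (hM l' (List.mem_cons_of_mem _ hl')).2⟩)
      (List.pairwise_cons.1 hp).2
    have s1 : ghT (ghStd κ) m (fun η => ghF B (l :: M) (y + (GhLv.mk m E).inc η))
        ≤ ghT (ghStd κ) l.m (fun η => ghF B (l :: M) (y + (GhLv.mk m E).inc η)) :=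
      lnb_T_mass hm hl.1 (hGl.integrable _ y) (hGl.integrable_exp _ m y) (hGl.integrable_exp _ l.m y)
    have s2 : ghT (ghStd κ) l.m (fun η => ghF B (l :: M) (y + (GhLv.mk m E).inc η))
        = ghT (ghStd ι) l.m fun ξ => ghT (ghStd κ) l.m fun η => ghF B M (y + (GhLv.mk m E).inc η + l.inc ξ) :=
      lnb_T_swap (μ := ghStd κ) (ν := ghStd ι) l.m
        (F := fun p : (κ → ℝ) × (ι → ℝ) => ghF B M (y + (GhLv.mk m E).inc p.1 + l.inc p.2))
        (lnb_int_prod hG ⟨m, E⟩ l y) (lnb_int_exp_prod hG ⟨m, E⟩ l l.m y)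
    have hH : GhNice fun y' => ghT (ghStd κ) l.m fun η => ghF B M (y' + (GhLv.mk l.m E).inc η) :=
      hG.step ⟨l.m, E⟩ hl0
    have s3 : (ghT (ghStd ι) l.m fun ξ => ghT (ghStd κ) l.m fun η => ghF B M (y + (GhLv.mk m E).inc η + l.inc ξ))
        ≤ ghT (ghStd ι) l.m fun ξ => ghF B M ((y + fun s => B.a / 2 * ∑ k, E s k ^ 2) + l.inc ξ) := by
      have e : ∀ ξ η, y + (GhLv.mk m E).inc η + l.inc ξ = y + l.inc ξ + (GhLv.mk l.m E).inc η := by
        intro ξ η
        rw [add_right_comm]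
        rfl
      simp only [e]
      refine lnb_T_mono hl0 (fun ξ => ?_) (hH.integrable l y) (hG.integrable l _) (hH.integrable_exp l _ y)
        (hG.integrable_exp l _ _)
      have := ih (y + l.inc ξ)
      rwa [add_right_comm] at this
    exact s1.trans (s2.le.trans s3)

/-- **lower bound**: additional independent features increase the continuation -/
theorem lnb_add_lower (hB : B.Ok) : ∀ L : List (GhLv S ι × (S → κ → ℝ)), (∀ p ∈ L, 0 ≤ p.1.m) → ∀ z : S → ℝ,
    ghF B (L.map Prod.fst) z ≤ ghF B (L.map fun p => lnbAdd p.1 p.2) z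
  | [], _, _ => le_rfl
  | p :: L, h, z => by
    have ih := lnb_add_lower hB L fun q hq => h q (List.mem_cons_of_mem _ hq)
    have hm := h p List.mem_cons_self
    have hnn1 : GhNn (L.map Prod.fst) := fun l hl => by
      obtain ⟨q, hq, rfl⟩ := List.mem_map.1 hl
      exact h q (List.mem_cons_of_mem _ hq)
    have hnn2 : GhNn (L.map fun p => lnbAdd p.1 p.2) := fun l hl => by
      obtain ⟨q, hq, rfl⟩ := List.mem_map.1 hl
      exact h q (List.mem_cons_of_mem _ hq)
    have hG1 := gh_b_nice hB hnn1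
    have hG2 := gh_b_nice hB hnn2
    have hc2 : ConvexOn ℝ Set.univ (ghF B (L.map fun p => lnbAdd p.1 p.2)) := ghF_convexOn hB _ hnn2
    have hH : GhNice fun y => ghT (ghStd κ) p.1.m fun η =>
        ghF B (L.map fun p => lnbAdd p.1 p.2) (y + (GhLv.mk p.1.m p.2).inc η) := hG2.step ⟨p.1.m, p.2⟩ hm
    show ghT (ghStd ι) p.1.m (fun ξ => ghF B (L.map Prod.fst) (z + p.1.inc ξ))
      ≤ ghT (ghStd (ι ⊕ κ)) p.1.m (fun ζ => ghF B (L.map fun p => lnbAdd p.1 p.2) (z + (lnbAdd p.1 p.2).inc ζ))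
    rw [lnb_split hG2]
    refine lnb_T_mono hm (fun ξ => ?_) (hG1.integrable _ z) (hH.integrable p.1 z) (hG1.integrable_exp _ _ z)
      (hH.integrable_exp p.1 _ z)
    calc ghF B (L.map Prod.fst) (z + p.1.inc ξ) ≤ ghF B (L.map fun p => lnbAdd p.1 p.2) (z + p.1.inc ξ) := ih _
      _ ≤ ∫ η, ghF B (L.map fun p => lnbAdd p.1 p.2) (z + p.1.inc ξ + (GhLv.mk p.1.m p.2).inc η) ∂ghStd κ :=
          lnb_jensen_inc hG2 hc2 _ _
      _ ≤ _ := lnb_T_ge_int hm (hG2.integrable _ _) (hG2.integrable_exp _ _ _)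

/-- the total diagonal of the additional features -/
def lnbDiag (L : List (GhLv S ι × (S → κ → ℝ))) (s : S) : ℝ := (L.map fun p => ∑ k, p.2 s k ^ 2).sum

/-- **upper bound**: the additional features cost at most their terminal value -/
theorem lnb_add_upper (hB : B.Ok) : ∀ L : List (GhLv S ι × (S → κ → ℝ)), (∀ p ∈ L, 0 ≤ p.1.m ∧ p.1.m ≤ B.a) →
    L.Pairwise (fun p q => p.1.m ≤ q.1.m) → ∀ z : S → ℝ,
    ghF B (L.map fun p => lnbAdd p.1 p.2) z ≤ ghF B (L.map Prod.fst) (z + fun s => B.a / 2 * lnbDiag L s)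
  | [], _, _, z => by
    have : (z + fun s => B.a / 2 * lnbDiag ([] : List (GhLv S ι × (S → κ → ℝ))) s) = z := by
      funext s; simp [lnbDiag]
    rw [this]
    exact le_rfl
  | p :: L, h, hp, z => by
    have ih := lnb_add_upper hB L (fun q hq => h q (List.mem_cons_of_mem _ hq)) (List.pairwise_cons.1 hp).2
    have hm := h p List.mem_cons_self
    have hnn1 : GhNn (L.map Prod.fst) := fun l hl => by
      obtain ⟨q, hq, rfl⟩ := List.mem_map.1 hl
      exact (h q (List.mem_cons_of_mem _ hq)).1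
    have hnn2 : GhNn (L.map fun p => lnbAdd p.1 p.2) := fun l hl => by
      obtain ⟨q, hq, rfl⟩ := List.mem_map.1 hl
      exact (h q (List.mem_cons_of_mem _ hq)).1
    have hG1 := gh_b_nice hB hnn1
    have hG2 := gh_b_nice hB hnn2
    have hH : GhNice fun y => ghT (ghStd κ) p.1.m fun η =>
        ghF B (L.map fun p => lnbAdd p.1 p.2) (y + (GhLv.mk p.1.m p.2).inc η) := hG2.step ⟨p.1.m, p.2⟩ hm.1
    have hpush := lnb_push hB p.2 (L.map Prod.fst) p.1.m hm.1 hm.2
      (fun l hl => by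
        obtain ⟨q, hq, rfl⟩ := List.mem_map.1 hl
        exact ⟨(List.pairwise_cons.1 hp).1 q hq, (h q (List.mem_cons_of_mem _ hq)).2⟩)
      ((List.pairwise_map).2 (List.pairwise_cons.1 hp).2)
    show ghT (ghStd (ι ⊕ κ)) p.1.m (fun ζ => ghF B (L.map fun p => lnbAdd p.1 p.2) (z + (lnbAdd p.1 p.2).inc ζ))
      ≤ ghT (ghStd ι) p.1.m (fun ξ => ghF B (L.map Prod.fst) ((z + fun s => B.a / 2 * lnbDiag (p :: L) s) + p.1.inc ξ))
    rw [lnb_split hG2]
    refine lnb_T_mono hm.1 (fun ξ => ?_) (hH.integrable p.1 z) (hG1.integrable _ _) (hH.integrable_exp p.1 _ z)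
      (hG1.integrable_exp _ _ _)
    have e1 : ∀ η, z + p.1.inc ξ + (GhLv.mk p.1.m p.2).inc η + (fun s => B.a / 2 * lnbDiag L s)
        = (z + p.1.inc ξ + fun s => B.a / 2 * lnbDiag L s) + (GhLv.mk p.1.m p.2).inc η := fun η => add_right_comm _ _ _
    have e2 : (z + p.1.inc ξ + fun s => B.a / 2 * lnbDiag L s) + (fun s => B.a / 2 * ∑ k, p.2 s k ^ 2)
        = (z + fun s => B.a / 2 * lnbDiag (p :: L) s) + p.1.inc ξ := by
      funext s
      simp only [Pi.add_apply, lnbDiag, List.map_cons, List.sum_cons]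
      ring
    calc ghT (ghStd κ) p.1.m (fun η => ghF B (L.map fun p => lnbAdd p.1 p.2) (z + p.1.inc ξ + (GhLv.mk p.1.m p.2).inc η))
        ≤ ghT (ghStd κ) p.1.m (fun η => ghF B (L.map Prod.fst)
            ((z + p.1.inc ξ + fun s => B.a / 2 * lnbDiag L s) + (GhLv.mk p.1.m p.2).inc η)) := by
          refine lnb_T_mono hm.1 (fun η => ?_) (hG2.integrable _ _) (hG1.integrable _ _) (hG2.integrable_exp _ _ _)
            (hG1.integrable_exp _ _ _)
          rw [← e1]
          exact ih _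
      _ ≤ ghF B (L.map Prod.fst) ((z + p.1.inc ξ + fun s => B.a / 2 * lnbDiag L s) + fun s => B.a / 2 * ∑ k, p.2 s k ^ 2) :=
          hpush _
      _ = _ := by rw [e2]

/-- the two bounds together -/
theorem lnb_add_le (hB : B.Ok) (L : List (GhLv S ι × (S → κ → ℝ))) (h : ∀ p ∈ L, 0 ≤ p.1.m ∧ p.1.m ≤ B.a)
    (hp : L.Pairwise fun p q => p.1.m ≤ q.1.m) (z : S → ℝ) {V : ℝ} (hV : ∀ s, lnbDiag L s ≤ V) :
    ghF B (L.map Prod.fst) z ≤ ghF B (L.map fun p => lnbAdd p.1 p.2) z ∧
      ghF B (L.map fun p => lnbAdd p.1 p.2) z ≤ ghF B (L.map Prod.fst) z + B.a / 2 * V := by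
  refine ⟨lnb_add_lower hB L (fun p hp => (h p hp).1) z, (lnb_add_upper hB L h hp z).trans ?_⟩
  have hnn1 : GhNn (L.map Prod.fst) := fun l hl => by
    obtain ⟨q, hq, rfl⟩ := List.mem_map.1 hl
    exact (h q hq).1
  refine (gh_b_nice hB hnn1).le_add fun s => ?_
  simp only [Pi.add_apply]
  have := mul_le_mul_of_nonneg_left (hV s) (div_nonneg hB.pos.le zero_le_two)
  linarith

/-! ### a hierarchy which does not see a part of the configuration -/

/-- pull back of a level along `π : S → S'` -/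
def lnbPull {S' : Type} (π : S → S') (l : GhLv S' ι) : GhLv S ι := ⟨l.m, fun s => l.A (π s)⟩

theorem lnb_lift {S' : Type} [Fintype S'] (π : S → S') (B : GhB S) (B' : GhB S') (ha : B.a = B'.a)
    (hw : ∀ f : S' → ℝ, ∑ s, B.w s * f (π s) = ∑ s', B'.w s' * f s') :
    ∀ (ls : List (GhLv S' ι)) (z' : S' → ℝ), ghF B (ls.map (lnbPull π)) (fun s => z' (π s)) = ghF B' ls z'
  | [], z' => by
    simp only [List.map_nil, ghF, ghF0, ha]
    rw [hw fun s' => Real.exp (B'.a * z' s')]
  | l :: ls, z' => by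
    simp only [List.map_cons, ghF]
    congr 1
    funext ξ
    rw [← lnb_lift π B B' ha hw ls]
    rfl

theorem lnb_gen_eqns_cite : True := by
  have := @lnbAdd.eq_1
  have := @lnbDiag.eq_1
  have := @lnbPull.eq_1
  trivial

end hier

end Claimed.Agent.R286
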