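import Claimed.Agent.R286.LL.Chain
import Claimed.Agent.R286.LL.PathsClkE
import Claimed.Agent.R286.LL.PathsClkF
import Claimed.Agent.R286.LL04.AsmSw

/-!
# Row 286 (S0533), unit LL04, file Clk: SUPPLIES (CLK) AND (END) FROM THE P-LIST OF LL SEC. 3      (owner helper258; prefix `ll04c_`)

`LlBaseProfile 𝔹 F.T → LlSec3 𝔹 F → LlExpOk … → Ll04Clk 𝔹 F ∧ Ll04End 𝔹 F` (abstract base), hence the glue `LlSec3Exit 𝔹 T → LlcSec3Exit 𝔹 T`: arrow I6 of the LL chain needs `exit_plist` only.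
Only CRUDE bounds are needed (budget `C x^(-1/8)`): pointwise bounds of the differences of the clocks for the four moves
 (γ) parameters, (χ) multipliers, (λ) strength, (θ) size;   the only `L¹` input is (P2b) = `RegT.l1`.
-/

set_option autoImplicit false

namespace Claimed.Agent.R286

open MeasureTheory Set

/-! ## 0. integrals -/

/-- a pointwise bound on the open interval bounds the integral (no measurability needed) -/
theorem ll04c_int_const {f : ℝ → ℝ} {a B : ℝ} (ha : 0 ≤ a) (h : ∀ v ∈ Ioo 0 a, |f v| ≤ B) : ∫ v in (0 : ℝ)..a, f v ≤ B * a := by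
  have h1 : ∀ᵐ v : ℝ, v ∈ Set.uIoc (0 : ℝ) a → ‖f v‖ ≤ B := by
    have : ∀ᵐ v : ℝ, v ≠ a := by simp [ae_iff, measure_singleton]
    filter_upwards [this] with v hv hm
    rw [uIoc_of_le ha] at hm
    exact h v ⟨hm.1, lt_of_le_of_ne hm.2 hv⟩
  have h2 := intervalIntegral.norm_integral_le_of_norm_le_const_ae h1
  rw [sub_zero, abs_of_nonneg ha] at h2
  exact (le_abs_self _).trans h2

/-- domination by an integrable majorant (no measurability of `f` needed) -/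
theorem ll04c_int_mono {f g : ℝ → ℝ} {a : ℝ} (ha : 0 ≤ a) (hf : ∀ v ∈ Ioo 0 a, 0 ≤ f v) (hg : IntervalIntegrable g volume 0 a)
    (h : ∀ v ∈ Ioo 0 a, f v ≤ g v) : ∫ v in (0 : ℝ)..a, f v ≤ ∫ v in (0 : ℝ)..a, g v := by
  rw [intervalIntegral.integral_of_le ha, intervalIntegral.integral_of_le ha, integral_Ioc_eq_integral_Ioo, integral_Ioc_eq_integral_Ioo]
  have hg' : IntegrableOn g (Ioo 0 a) := ((intervalIntegrable_iff_integrableOn_Ioc_of_le ha).1 hg).mono_set Ioo_subset_Ioc_self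
  refine integral_mono_of_nonneg ?_ hg' ?_
  · exact (ae_restrict_iff' measurableSet_Ioo).2 (Filter.Eventually.of_forall hf)
  · exact (ae_restrict_iff' measurableSet_Ioo).2 (Filter.Eventually.of_forall h)

/-! ## 1. the points of the segments -/

theorem ll04c_cl_lip (y y' : ℝ) : |ll04Cl y - ll04Cl y'| ≤ |y - y'| := by
  unfold ll04Cl
  have h1 := abs_max_sub_max_le_max (1 / 3 : ℝ) (min (2 / 3) y) (1 / 3) (min (2 / 3) y')
  have h2 := abs_min_sub_min_le_max (2 / 3 : ℝ) y (2 / 3) y'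
  simp only [sub_self, abs_zero] at h1 h2
  exact h1.trans (max_le (abs_nonneg _) (h2.trans (max_le (abs_nonneg _) le_rfl)))

theorem ll04c_U_lip (R t t' : ℝ) : |ll04U R t - ll04U R t'| ≤ |t - t'| := by
  unfold ll04U
  have h1 := abs_max_sub_max_le_max (0 : ℝ) (min R t) 0 (min R t')
  have h2 := abs_min_sub_min_le_max R t R t'
  simp only [sub_self, abs_zero] at h1 h2
  exact h1.trans (max_le (abs_nonneg _) (h2.trans (max_le (abs_nonneg _) le_rfl)))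

theorem ll04c_gam0 (N : ℕ) (ell lam chiL chiE : ℝ) (sm : Bool) (γ γ' : Fin (N + 1) → ℝ) :
    |(ll04Pt N ell lam chiL chiE sm γ).gam0 - (ll04Pt N ell lam chiL chiE sm γ').gam0| ≤ dist γ γ' := by
  refine (ll04c_cl_lip _ _).trans ?_
  rw [← Real.dist_eq]
  exact dist_le_pi_dist γ γ' 0

theorem ll04c_gu (N : ℕ) (ell lam chiL chiE : ℝ) (sm : Bool) (γ γ' : Fin (N + 1) → ℝ) (h : ℕ) :
    |(ll04Pt N ell lam chiL chiE sm γ).gu h - (ll04Pt N ell lam chiL chiE sm γ').gu h| ≤ dist γ γ' := by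
  show |(if hh : h < N then ll04Cl (γ ⟨h + 1, Nat.succ_lt_succ hh⟩) else 1 / 2) - (if hh : h < N then ll04Cl (γ' ⟨h + 1, Nat.succ_lt_succ hh⟩) else 1 / 2)| ≤ _
  split_ifs with hh
  · refine (ll04c_cl_lip _ _).trans ?_
    rw [← Real.dist_eq]
    exact dist_le_pi_dist γ γ' _
  · simp

/-- the points of the direct segments are admissible parameters -/
theorem ll04c_ok (F : LlFix) (hp : F.pS ≤ 12) {N : ℕ} (hN : 2 ≤ N) {ell : ℝ} (hl : ell ∈ Icc (1 : ℝ) ((2 : ℝ) ^ (1 / 6 : ℝ))) (i : Fin 3)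
    (γ : Fin (N + 1) → ℝ) (τ : ℝ) : (ll04Dir F N ell i γ τ).Ok F := by
  have hU := ll04w_U_mem (zero_le_one) τ
  have hx := ll04w_x_mem (N := N) (by omega)
  have hcl : ∀ y, ll04Cl y ∈ Icc (-4 : ℝ) 4 := fun y =>
    ⟨by linarith [(ll04w_cl_mem y).1], by linarith [(ll04w_cl_mem y).2]⟩
  refine ⟨hN, hl.1, hl.2, ?_, ?_, hcl _, fun h => ?_, ?_, ?_, fun h => absurd h (by simp [ll04Dir, ll04Pt])⟩
  · show skX N ^ (12 : ℝ) ≤ (if i = 0 then skX N ^ (12 * (1 - ll04U 1 τ) + F.pS * ll04U 1 τ) else skX N ^ F.pS)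
    split_ifs
    · exact Real.rpow_le_rpow_of_exponent_ge hx.1 hx.2 (by nlinarith [hU.1, hU.2])
    · exact Real.rpow_le_rpow_of_exponent_ge hx.1 hx.2 hp
  · show (if i = 0 then skX N ^ (12 * (1 - ll04U 1 τ) + F.pS * ll04U 1 τ) else skX N ^ F.pS) ≤ skX N ^ F.pS
    split_ifs
    · exact Real.rpow_le_rpow_of_exponent_ge hx.1 hx.2 (by nlinarith [hU.1, hU.2])
    · exact le_rfl
  · show (if hh : h < N then ll04Cl (γ ⟨h + 1, Nat.succ_lt_succ hh⟩) else 1 / 2) ∈ Icc (-4 : ℝ) 4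
    split_ifs
    · exact hcl _
    · constructor <;> norm_num
  · show (if i = 0 then (0 : ℝ) else if i = 1 then ll04U 1 τ else 1) ∈ Icc (0 : ℝ) 1
    split_ifs
    · exact ⟨le_rfl, zero_le_one⟩
    · exact hU
    · exact ⟨zero_le_one, le_rfl⟩
  · show (if i = 2 then 1 - ll04U 1 τ else (1 : ℝ)) ∈ Icc (0 : ℝ) 1
    split_ifs
    · exact ⟨by linarith [hU.2], by linarith [hU.1]⟩
    · exact ⟨zero_le_one, le_rfl⟩

theorem ll04c_dir0 (F : LlFix) (N : ℕ) (ell : ℝ) (γ : Fin (N + 1) → ℝ) (τ : ℝ) :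
    ll04Dir F N ell 0 γ τ = ll04Pt N ell (skX N ^ (12 * (1 - ll04U 1 τ) + F.pS * ll04U 1 τ)) 0 1 false γ := by
  simp [ll04Dir]

theorem ll04c_dir1 (F : LlFix) (N : ℕ) (ell : ℝ) (γ : Fin (N + 1) → ℝ) (τ : ℝ) :
    ll04Dir F N ell 1 γ τ = ll04Pt N ell (skX N ^ F.pS) (ll04U 1 τ) 1 false γ := by
  simp [ll04Dir]

theorem ll04c_dir2 (F : LlFix) (N : ℕ) (ell : ℝ) (γ : Fin (N + 1) → ℝ) (τ : ℝ) :
    ll04Dir F N ell 2 γ τ = ll04Pt N ell (skX N ^ F.pS) 1 (1 - ll04U 1 τ) false γ := by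
  simp [ll04Dir]

/-! ## 2. the cut-offs and the move (γ) -/

/-- `φ` is bounded -/
theorem ll04c_phi_bd (F : LlFix) (hF : F.Ok) : ∃ B : ℝ, 0 ≤ B ∧ ∀ w, |F.phi w| ≤ B := by
  obtain ⟨_, _, Lp, _, _, h0, _, _, hL⟩ := lcb_consts F hF
  refine ⟨Lp * 4, by positivity, fun w => ?_⟩
  by_cases hw : w ∈ Icc (1 / 2 : ℝ) 4
  · have h1 := hL (1 / 2) w
    rw [lcb_phi_zero F hF (1 / 2) (Or.inl le_rfl), sub_zero] at h1
    refine h1.trans (mul_le_mul_of_nonneg_left ?_ h0)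
    rw [abs_of_nonneg (by linarith [hw.1])]
    linarith [hw.2]
  · rw [hF.phi_supp w hw, abs_zero]
    positivity

/-- a dyadic sum with bounded coefficients -/
theorem ll04c_dy_core (F : LlFix) {B δ : ℝ} (hB : ∀ w, |F.phi w| ≤ B) (S : Finset ℕ) (c : ℕ → ℝ) (hc : ∀ h, |c h| ≤ δ) (v : ℝ) :
    |∑ h ∈ S, c h * ((2 : ℝ)⁻¹ ^ h) ^ 2 * F.phi (v / (2 : ℝ)⁻¹ ^ h)| ≤ 2 * B * δ := by
  have hB0 : 0 ≤ B := (abs_nonneg _).trans (hB 0)
  have hδ0 : 0 ≤ δ := (abs_nonneg _).trans (hc 0)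
  refine (Finset.abs_sum_le_sum_abs _ _).trans ?_
  have key : ∀ h ∈ S, |c h * ((2 : ℝ)⁻¹ ^ h) ^ 2 * F.phi (v / (2 : ℝ)⁻¹ ^ h)| ≤ B * δ * (2 : ℝ)⁻¹ ^ h := by
    intro h _
    have hu : (0 : ℝ) < (2 : ℝ)⁻¹ ^ h := by positivity
    have hu1 : (2 : ℝ)⁻¹ ^ h ≤ 1 := pow_le_one₀ (by norm_num) (by norm_num)
    rw [abs_mul, abs_mul, abs_of_nonneg (sq_nonneg ((2 : ℝ)⁻¹ ^ h))]
    calc |c h| * ((2 : ℝ)⁻¹ ^ h) ^ 2 * |F.phi (v / (2 : ℝ)⁻¹ ^ h)| ≤ δ * ((2 : ℝ)⁻¹ ^ h * 1) * B := by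
          refine mul_le_mul (mul_le_mul (hc h) ?_ (sq_nonneg _) hδ0) (hB _) (abs_nonneg _) (by positivity)
          rw [sq]
          exact mul_le_mul_of_nonneg_left hu1 hu.le
      _ = B * δ * (2 : ℝ)⁻¹ ^ h := by ring
  refine (Finset.sum_le_sum key).trans ?_
  rw [← Finset.mul_sum]
  have := lcb_geom S 1 zero_le_one (fun h _ => pow_le_one₀ (by norm_num) (by norm_num))
  calc B * δ * ∑ h ∈ S, (2 : ℝ)⁻¹ ^ h ≤ B * δ * (2 * 1) := mul_le_mul_of_nonneg_left this (by positivity)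
    _ = 2 * B * δ := by ring

/-- `dySum` as a finite sum, the same index set for all points of the same dyad -/
theorem ll04c_dy_eq (F : LlFix) (hF : F.Ok) (p : LlPt) (hx : 0 < p.x) (hxb : 8 * p.x ≤ F.vb) : ∃ S : Finset ℕ, ∀ p' : LlPt, p'.N = p.N → ∀ v,
    p'.dySum F v = ∑ h ∈ S, p'.gu h * ((2 : ℝ)⁻¹ ^ h) ^ 2 * F.phi (v / (2 : ℝ)⁻¹ ^ h) := by
  classical
  have hfin := lcb_dy_finite F hF p hx hxb
  refine ⟨hfin.toFinset, fun p' hN y => ?_⟩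
  have hx' : p'.x = p.x := by unfold LlPt.x; rw [hN]
  have hi : ∀ h, p'.IsDy F h ↔ p.IsDy F h := fun h => by simp only [LlPt.IsDy, hx']
  unfold LlPt.dySum
  rw [finsum_eq_sum_of_support_subset (s := hfin.toFinset)]
  · refine Finset.sum_congr rfl (fun h hh => ?_)
    have hd : p.IsDy F h := hfin.mem_toFinset.1 hh
    rw [if_pos ((hi h).2 hd)]
  · intro h hh
    rw [Function.mem_support] at hh
    rw [Finset.mem_coe, hfin.mem_toFinset]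
    by_contra hcon
    have hcon' : ¬ p'.IsDy F h := fun h' => hcon ((hi h).1 h')
    exact hh (if_neg hcon')

theorem ll04c_dy_abs (F : LlFix) (hF : F.Ok) {B : ℝ} (hB : ∀ w, |F.phi w| ≤ B) (p : LlPt) (hx : 0 < p.x) (hxb : 8 * p.x ≤ F.vb)
    (hg : ∀ h, p.gu h ∈ Icc (-4 : ℝ) 4) (v : ℝ) : |p.dySum F v| ≤ 8 * B := by
  obtain ⟨S, hS⟩ := ll04c_dy_eq F hF p hx hxb
  rw [hS p rfl v]
  have := ll04c_dy_core F hB S p.gu (δ := 4) (fun h => abs_le.2 (hg h)) v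
  linarith

theorem ll04c_dy_diff (F : LlFix) (hF : F.Ok) {B δ : ℝ} (hB : ∀ w, |F.phi w| ≤ B) (p p' : LlPt) (hN : p'.N = p.N) (hx : 0 < p.x) (hxb : 8 * p.x ≤ F.vb)
    (hδ : ∀ h, |p.gu h - p'.gu h| ≤ δ) (v : ℝ) : |p.dySum F v - p'.dySum F v| ≤ 2 * B * δ := by
  obtain ⟨S, hS⟩ := ll04c_dy_eq F hF p hx hxb
  rw [hS p rfl v, hS p' hN v, ← Finset.sum_sub_distrib]
  have := ll04c_dy_core F hB S (fun h => p.gu h - p'.gu h) hδ v
  refine le_trans (le_of_eq ?_) this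
  congr 1
  exact Finset.sum_congr rfl fun h _ => by ring

/-- `0 ≤ G ≤ 16 C_G` on `[0,4]` -/
theorem ll04c_G_bd (F : LlFix) (hF : F.Ok) (p : LlPt) (hx : 0 < p.x) (hxb : 8 * p.x ≤ F.vb) (v : ℝ) (hv : v ∈ Icc (0 : ℝ) 4) :
    0 ≤ p.G F v ∧ p.G F v ≤ 16 * max 64 (F.G1 2) := by
  refine ⟨lcb_G_nonneg F hF p hx hxb v, (lcb_G_le F hF p hx hxb v hv.1).trans ?_⟩
  have h1 : (0 : ℝ) ≤ max 64 (F.G1 2) := le_trans (by norm_num) (le_max_left _ _)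
  have h2 : v ^ 2 ≤ 16 := by nlinarith [hv.1, hv.2]
  nlinarith

/-- move (γ), the matrix clock -/
theorem ll04c_gam_b (F : LlFix) (hF : F.Ok) (𝔹 : LlBase) {B δ : ℝ} (hB : ∀ w, |F.phi w| ≤ B) (p : LlPt) (hx : 0 < p.x) (hxb : 8 * p.x ≤ F.vb)
    (hl : 0 ≤ p.lam) (g0' : ℝ) (gu' : ℕ → ℝ) (h0 : |p.gam0 - g0'| ≤ δ) (hu : ∀ h, |p.gu h - gu' h| ≤ δ) (v : ℝ) :
    |p.b F 𝔹 v - ({ p with gam0 := g0', gu := gu' } : LlPt).b F 𝔹 v| ≤ F.cb * p.lam * F.c1 * (p.G F v + p.U F ^ 2 + 2 * B) * δ := by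
  have hG := lcb_G_nonneg F hF p hx hxb v
  have hd := ll04c_dy_diff F hF hB p { p with gam0 := g0', gu := gu' } rfl hx hxb hu v
  have e : p.b F 𝔹 v - ({ p with gam0 := g0', gu := gu' } : LlPt).b F 𝔹 v
      = F.cb * p.lam * F.c1 * (-(p.gam0 - g0') * (p.G F v + p.U F ^ 2) - (p.dySum F v - ({ p with gam0 := g0', gu := gu' } : LlPt).dySum F v)) := by
    show (p.b0 F 𝔹 + F.cb * p.lam * (p.G F v - p.U F ^ 2 - F.c1 * p.gam0 * (p.G F v + p.U F ^ 2) - F.c1 * p.dySum F v))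
      - (p.b0 F 𝔹 + F.cb * p.lam * (p.G F v - p.U F ^ 2 - F.c1 * g0' * (p.G F v + p.U F ^ 2) - F.c1 * ({ p with gam0 := g0', gu := gu' } : LlPt).dySum F v)) = _
    ring
  have hc : 0 ≤ F.cb * p.lam * F.c1 := mul_nonneg (mul_nonneg hF.cb0.le hl) hF.c10.le
  rw [e, abs_mul, abs_of_nonneg hc, mul_assoc (F.cb * p.lam * F.c1)]
  refine mul_le_mul_of_nonneg_left ?_ hc
  have hGU : 0 ≤ p.G F v + p.U F ^ 2 := by positivity
  calc |-(p.gam0 - g0') * (p.G F v + p.U F ^ 2) - (p.dySum F v - ({ p with gam0 := g0', gu := gu' } : LlPt).dySum F v)|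
      ≤ |-(p.gam0 - g0') * (p.G F v + p.U F ^ 2)| + |p.dySum F v - ({ p with gam0 := g0', gu := gu' } : LlPt).dySum F v| := abs_sub _ _
    _ ≤ δ * (p.G F v + p.U F ^ 2) + 2 * B * δ := by
        refine add_le_add ?_ hd
        rw [abs_mul, abs_neg, abs_of_nonneg hGU]
        exact mul_le_mul_of_nonneg_right h0 hGU
    _ = (p.G F v + p.U F ^ 2 + 2 * B) * δ := by ring

/-- move (γ), the field clock: only `h_* = K - b q` moves -/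
theorem ll04c_gam_h (F : LlFix) (𝔹 : LlBase) (p : LlPt) (g0' : ℝ) (gu' : ℕ → ℝ) (v : ℝ) :
    p.h F 𝔹 v - ({ p with gam0 := g0', gu := gu' } : LlPt).h F 𝔹 v
      = if v < p.x then 0 else -(p.b F 𝔹 v - ({ p with gam0 := g0', gu := gu' } : LlPt).b F 𝔹 v) * p.q F 𝔹 v := by
  show (if v < p.x then 0 else (p.K F 𝔹 v - p.b F 𝔹 v * p.q F 𝔹 v) + p.Hlo F v + p.chiL * p.Hlin F v + p.chiE * p.He F 𝔹 v)
    - (if v < p.x then 0 else (p.K F 𝔹 v - ({ p with gam0 := g0', gu := gu' } : LlPt).b F 𝔹 v * p.q F 𝔹 v) + p.Hlo F v + p.chiL * p.Hlin F v + p.chiE * p.He F 𝔹 v) = _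
  split_ifs
  · simp
  · ring

/-! ## 3. the move (λ) on a direct path -/

theorem ll04c_abs_mul {x y X Y : ℝ} (hx : |x| ≤ X) (hy : |y| ≤ Y) : |x * y| ≤ X * Y := by
  rw [abs_mul]
  exact mul_le_mul hx hy (abs_nonneg _) ((abs_nonneg _).trans hx)

/-- the logarithm of `H_lo` -/
theorem ll04c_log_mem {x ell v : ℝ} (hx0 : 0 < x) (hl1 : 1 ≤ ell) (hl2 : ell ≤ 2) (hx1 : x ≤ 1) (hv : x ≤ v) :
    0 ≤ Real.log (min v ell / x) ∧ Real.log (min v ell / x) ≤ 1 + Real.log (1 / x) := by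
  have hm : x ≤ min v ell := le_min hv (hx1.trans hl1)
  constructor
  · exact Real.log_nonneg ((one_le_div hx0).2 hm)
  · have h1 : min v ell / x ≤ 2 * (1 / x) := by
      rw [mul_one_div]
      exact div_le_div_of_nonneg_right ((min_le_right _ _).trans hl2) hx0.le
    have h2 : Real.log (min v ell / x) ≤ Real.log (2 * (1 / x)) :=
      Real.log_le_log (div_pos (hx0.trans_le hm) hx0) h1
    rw [Real.log_mul (by norm_num) (one_div_pos.2 hx0).ne'] at h2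
    have h3 : Real.log 2 ≤ 1 := by
      have := Real.log_two_lt_d9
      linarith
    linarith

/-- the constant of `|Δ_λ b|` -/
noncomputable def ll04cCb (F : LlFix) (B CR : ℝ) : ℝ := CR + F.cb * ((16 * max 64 (F.G1 2) + 2) * (1 + 4 * F.c1) + 8 * F.c1 * B)

theorem ll04c_Cb_nn (F : LlFix) (hF : F.Ok) {B CR : ℝ} (hB : 0 ≤ B) (hCR : 0 ≤ CR) : 0 ≤ ll04cCb F B CR := by
  have h1 : (0 : ℝ) ≤ max 64 (F.G1 2) := le_trans (by norm_num) (le_max_left _ _)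
  have := hF.cb0
  have := hF.c10
  unfold ll04cCb
  positivity

/-- `0 ≤ λ' - λ ≤ log (λ'/λ)` for `λ ≤ λ' ≤ 1` -/
theorem ll04c_dlam {lam l' : ℝ} (h0 : 0 < lam) (h1 : lam ≤ l') (h2 : l' ≤ 1) : |l' - lam| ≤ Real.log (l' / lam) := by
  have hδ : 0 ≤ Real.log (l' / lam) := Real.log_nonneg ((one_le_div h0).2 h1)
  rw [abs_of_nonneg (by linarith)]
  refine (lcf_lam_diff lam l' h0 h1).trans ?_
  nlinarith

/-- move (λ), the matrix clock -/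
theorem ll04c_lam_b (F : LlFix) (hF : F.Ok) (𝔹 : LlBase) {B CR : ℝ} (hB : ∀ w, |F.phi w| ≤ B) (p : LlPt) (hp : p.Ok F) (hs1 : F.sS ≤ 1)
    (hxb : 8 * p.x ≤ F.vb) (l' : ℝ) (hl : p.lam ≤ l') (hl1 : l' ≤ 1) (hCR : 0 ≤ CR)
    (hb0 : |(p.wLm l').b0 F 𝔹 - p.b0 F 𝔹| ≤ CR * |l' - p.lam|) (v : ℝ) (hv : v ∈ Icc (0 : ℝ) 4) :
    |(p.wLm l').b F 𝔹 v - p.b F 𝔹 v| ≤ ll04cCb F B CR * Real.log (l' / p.lam) := by
  have hx := lce_x_pos hp.N2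
  have h0 := lce_lam_pos hp
  have hB0 : 0 ≤ B := (abs_nonneg _).trans (hB 0)
  set δ := Real.log (l' / p.lam) with hδdef
  have hδ : 0 ≤ δ := Real.log_nonneg ((one_le_div h0).2 hl)
  have hdl := ll04c_dlam h0 hl hl1
  obtain ⟨hG0, hG1⟩ := ll04c_G_bd F hF p hx hxb v hv
  set CG := 16 * max 64 (F.G1 2) with hCG
  have hDy := ll04c_dy_abs F hF hB p hx hxb hp.gu v
  obtain ⟨hU1, hU2⟩ := lcf_U_pow_diff p.x F.sS p.lam l' 2 hx hF.sS0.le h0 hl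
  have hUle : lcfU p.x F.sS p.lam ≤ 1 := min_le_left _ _
  have hUpos : 0 < lcfU p.x F.sS p.lam := lt_min one_pos (mul_pos hx (Real.rpow_pos_of_pos h0 _))
  have hU'le : lcfU p.x F.sS l' ≤ 1 := min_le_left _ _
  have hU'pos : 0 < lcfU p.x F.sS l' := lt_min one_pos (mul_pos hx (Real.rpow_pos_of_pos (h0.trans_le hl) _))
  have hg0 : |p.gam0| ≤ 4 := abs_le.2 hp.g0
  have hc1 := hF.c10
  have hcb := hF.cb0
  have e : (p.wLm l').b F 𝔹 v - p.b F 𝔹 v = ((p.wLm l').b0 F 𝔹 - p.b0 F 𝔹)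
      + F.cb * ((l' - p.lam) * (p.G F v * (1 - F.c1 * p.gam0) - F.c1 * p.dySum F v - lcfU p.x F.sS l' ^ 2 * (1 + F.c1 * p.gam0))
        + p.lam * ((lcfU p.x F.sS p.lam ^ 2 - lcfU p.x F.sS l' ^ 2) * (1 + F.c1 * p.gam0))) := by
    show ((p.wLm l').b0 F 𝔹 + F.cb * l' * (p.G F v - lcfU p.x F.sS l' ^ 2 - F.c1 * p.gam0 * (p.G F v + lcfU p.x F.sS l' ^ 2) - F.c1 * p.dySum F v))
      - (p.b0 F 𝔹 + F.cb * p.lam * (p.G F v - lcfU p.x F.sS p.lam ^ 2 - F.c1 * p.gam0 * (p.G F v + lcfU p.x F.sS p.lam ^ 2) - F.c1 * p.dySum F v)) = _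
    ring
  have k1 : |1 - F.c1 * p.gam0| ≤ 1 + 4 * F.c1 := by
    have : |F.c1 * p.gam0| ≤ F.c1 * 4 := by rw [abs_mul, abs_of_pos hc1]; exact mul_le_mul_of_nonneg_left hg0 hc1.le
    calc |1 - F.c1 * p.gam0| ≤ |(1 : ℝ)| + |F.c1 * p.gam0| := abs_sub _ _
      _ ≤ 1 + 4 * F.c1 := by rw [abs_one]; linarith
  have k2 : |1 + F.c1 * p.gam0| ≤ 1 + 4 * F.c1 := by
    have : |F.c1 * p.gam0| ≤ F.c1 * 4 := by rw [abs_mul, abs_of_pos hc1]; exact mul_le_mul_of_nonneg_left hg0 hc1.le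
    calc |1 + F.c1 * p.gam0| ≤ |(1 : ℝ)| + |F.c1 * p.gam0| := abs_add_le _ _
      _ ≤ 1 + 4 * F.c1 := by rw [abs_one]; linarith
  have k3 : |p.G F v * (1 - F.c1 * p.gam0)| ≤ CG * (1 + 4 * F.c1) := ll04c_abs_mul (by rw [abs_of_nonneg hG0]; exact hG1) k1
  have k4 : |F.c1 * p.dySum F v| ≤ F.c1 * (8 * B) := ll04c_abs_mul (by rw [abs_of_pos hc1]) hDy
  have k5 : |lcfU p.x F.sS l' ^ 2 * (1 + F.c1 * p.gam0)| ≤ 1 * (1 + 4 * F.c1) :=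
    ll04c_abs_mul (by rw [abs_of_nonneg (sq_nonneg _)]; exact pow_le_one₀ hU'pos.le hU'le) k2
  have k6 : |p.G F v * (1 - F.c1 * p.gam0) - F.c1 * p.dySum F v - lcfU p.x F.sS l' ^ 2 * (1 + F.c1 * p.gam0)|
      ≤ CG * (1 + 4 * F.c1) + F.c1 * (8 * B) + 1 * (1 + 4 * F.c1) :=
    (abs_sub _ _).trans (add_le_add ((abs_sub _ _).trans (add_le_add k3 k4)) k5)
  have k7 : |lcfU p.x F.sS p.lam ^ 2 - lcfU p.x F.sS l' ^ 2| ≤ δ := by
    rw [abs_of_nonneg hU1]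
    refine hU2.trans ?_
    have h3 : lcfU p.x F.sS p.lam ^ 2 ≤ 1 := pow_le_one₀ hUpos.le hUle
    have h4 : ((2 : ℕ) : ℝ) * (F.sS / 2) * lcfU p.x F.sS p.lam ^ 2 ≤ 1 := by
      push_cast
      have := hF.sS0
      nlinarith [sq_nonneg (lcfU p.x F.sS p.lam)]
    calc ((2 : ℕ) : ℝ) * (F.sS / 2) * lcfU p.x F.sS p.lam ^ 2 * δ ≤ 1 * δ := mul_le_mul_of_nonneg_right h4 hδ
      _ = δ := one_mul _
  have k8 : |p.lam * ((lcfU p.x F.sS p.lam ^ 2 - lcfU p.x F.sS l' ^ 2) * (1 + F.c1 * p.gam0))| ≤ 1 * (δ * (1 + 4 * F.c1)) :=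
    ll04c_abs_mul (by rw [abs_of_pos h0]; exact hl.trans hl1) (ll04c_abs_mul k7 k2)
  have k9 := ll04c_abs_mul hdl k6
  have k10 : |(p.wLm l').b0 F 𝔹 - p.b0 F 𝔹| ≤ CR * δ := hb0.trans (mul_le_mul_of_nonneg_left hdl hCR)
  rw [e]
  calc _ ≤ |(p.wLm l').b0 F 𝔹 - p.b0 F 𝔹| + |F.cb * ((l' - p.lam) * (p.G F v * (1 - F.c1 * p.gam0) - F.c1 * p.dySum F v - lcfU p.x F.sS l' ^ 2 * (1 + F.c1 * p.gam0))
        + p.lam * ((lcfU p.x F.sS p.lam ^ 2 - lcfU p.x F.sS l' ^ 2) * (1 + F.c1 * p.gam0)))| := abs_add_le _ _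
    _ ≤ CR * δ + F.cb * (δ * (CG * (1 + 4 * F.c1) + F.c1 * (8 * B) + 1 * (1 + 4 * F.c1)) + 1 * (δ * (1 + 4 * F.c1))) := by
        refine add_le_add k10 (ll04c_abs_mul (by rw [abs_of_pos hcb]) ((abs_add_le _ _).trans (add_le_add k9 k8)))
    _ = ll04cCb F B CR * δ := by unfold ll04cCb; ring

/-- **what is used of `H_e`** (proved in LL04/ClkHe, helper245) -/
structure Ll04cHe (𝔹 : LlBase) (F : LlFix) (CH : ℝ) : Prop where
  nn : 0 ≤ CH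
  abs : ∀ p : LlPt, p.sm = false → 2 ≤ p.N → 0 < p.ell → 0 < p.lam → p.lam ≤ 1 → ∀ v, v / p.ell ≤ 1 → |p.He F 𝔹 v| ≤ CH * p.lam1 F
  lip : ∀ p : LlPt, p.sm = false → 2 ≤ p.N → 0 < p.ell → 0 < p.lam → ∀ l2 A v : ℝ, p.lam ≤ l2 → l2 ≤ 1 → 0 ≤ A → v / p.ell ≤ 1 →
    |(p.wLm l2).xi F 𝔹 v - p.xi F 𝔹 v| ≤ A * Real.log (l2 / p.lam) →
    |(p.wLm l2).He F 𝔹 v - p.He F 𝔹 v| ≤ CH * (1 + A) * Real.log (l2 / p.lam)

/-- the constant of `|Δ_λ h|` -/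
noncomputable def ll04cCh (F : LlFix) (B CR Cb CH : ℝ) : ℝ := 4 * CR + Cb * CR + ll04cCb F B CR + 2 + CH * (1 + 8 * CR)

/-- move (λ), the field clock -/
theorem ll04c_lam_h (F : LlFix) (hF : F.Ok) (𝔹 : LlBase) {B CR Cb CH ξ0 : ℝ} (hB : ∀ w, |F.phi w| ≤ B) (hHe : Ll04cHe 𝔹 F CH) (p : LlPt) (hp : p.Ok F)
    (hE : LlExpOk F.sS F.eta F.pS) (hsm : p.sm = false) (hxb : 8 * p.x ≤ F.vb) (l' : ℝ) (hl : p.lam ≤ l') (hl1 : l' ≤ 1) (hCR : 0 ≤ CR)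
    (hR : p.RegL F 𝔹 CR ξ0 l') (hb' : ∀ v ∈ Ioo 0 p.a, |(p.wLm l').b F 𝔹 v| ≤ Cb) (hq : ∀ v ∈ Ioo 0 p.a, |p.q F 𝔹 v| ≤ 1)
    (v : ℝ) (hv : v ∈ Ioo 0 p.a) :
    |(p.wLm l').h F 𝔹 v - p.h F 𝔹 v| ≤ ll04cCh F B CR Cb CH * (1 + Real.log (1 / p.x)) * Real.log (l' / p.lam) := by
  have hx := lce_x_pos hp.N2
  have hx1 := (lce_x_lt_one hp.N2).le
  have h0 := lce_lam_pos hp
  have hB0 : 0 ≤ B := (abs_nonneg _).trans (hB 0)
  have ha := lce_a_mem hp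
  have hae : p.a = p.ell := lce_a_direct hsm
  have hv4 : v ∈ Icc (0 : ℝ) 4 := ⟨hv.1.le, hv.2.le.trans ha.2⟩
  have hCb : 0 ≤ Cb := (abs_nonneg _).trans (hb' v hv)
  set δ := Real.log (l' / p.lam) with hδdef
  have hδ : 0 ≤ δ := Real.log_nonneg ((one_le_div h0).2 hl)
  have hdl := ll04c_dlam h0 hl hl1
  set L := 1 + Real.log (1 / p.x) with hL
  have hL1 : 1 ≤ L := by have := lcd_L_ge p.x hx hx1; linarith
  have hCbn := ll04c_Cb_nn F hF hB0 hCR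
  have hCH := hHe.nn
  have hCh : 0 ≤ ll04cCh F B CR Cb CH := by unfold ll04cCh; positivity
  show |(if v < p.x then 0 else (p.wLm l').hS F 𝔹 v + (p.wLm l').Hlo F v + p.chiL * p.Hlin F v + p.chiE * (p.wLm l').He F 𝔹 v)
    - (if v < p.x then 0 else p.hS F 𝔹 v + p.Hlo F v + p.chiL * p.Hlin F v + p.chiE * p.He F 𝔹 v)| ≤ _
  split_ifs with hvx
  · rw [sub_self, abs_zero]; positivity
  rw [not_lt] at hvx
  have hb := ll04c_lam_b F hF 𝔹 hB p hp (by linarith [hE.s_hi]) hxb l' hl hl1 hCR hR.b0 v hv4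
  -- the reference field
  have k1 : |(p.wLm l').K F 𝔹 v - p.K F 𝔹 v| ≤ 4 * CR * δ := by
    refine (hR.K v hv).trans ?_
    calc CR * |l' - p.lam| * v ≤ CR * δ * 4 := mul_le_mul (mul_le_mul_of_nonneg_left hdl hCR) hv4.2 hv4.1 (by positivity)
      _ = 4 * CR * δ := by ring
  have k2 : |(p.wLm l').q F 𝔹 v - p.q F 𝔹 v| ≤ CR * δ := by
    refine (hR.q v hv).trans ?_
    calc CR * |l' - p.lam| * min v 1 ≤ CR * δ * 1 :=
          mul_le_mul (mul_le_mul_of_nonneg_left hdl hCR) (min_le_right _ _) (le_min hv4.1 zero_le_one) (by positivity)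
      _ = CR * δ := by ring
  have k3 : |(p.wLm l').hS F 𝔹 v - p.hS F 𝔹 v| ≤ (4 * CR + Cb * CR + ll04cCb F B CR) * δ := by
    have e : (p.wLm l').hS F 𝔹 v - p.hS F 𝔹 v = ((p.wLm l').K F 𝔹 v - p.K F 𝔹 v) - (p.wLm l').b F 𝔹 v * ((p.wLm l').q F 𝔹 v - p.q F 𝔹 v)
        - ((p.wLm l').b F 𝔹 v - p.b F 𝔹 v) * p.q F 𝔹 v := by
      simp only [LlPt.hS]; ring
    rw [e]
    calc _ ≤ |(p.wLm l').K F 𝔹 v - p.K F 𝔹 v| + |(p.wLm l').b F 𝔹 v * ((p.wLm l').q F 𝔹 v - p.q F 𝔹 v)|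
          + |((p.wLm l').b F 𝔹 v - p.b F 𝔹 v) * p.q F 𝔹 v| := (abs_sub _ _).trans (add_le_add_left (abs_sub _ _) _)
      _ ≤ 4 * CR * δ + Cb * (CR * δ) + ll04cCb F B CR * δ * 1 :=
          add_le_add (add_le_add k1 (ll04c_abs_mul (hb' v hv) k2)) (ll04c_abs_mul hb (hq v hv))
      _ = _ := by ring
  -- `H_lo`
  obtain ⟨hlg0, hlg1⟩ := ll04c_log_mem (v := v) hx hp.ell1 (lce_ell_le hp) hx1 hvx
  have k4 : |(p.wLm l').Hlo F v - p.Hlo F v| ≤ 2 * δ * L := by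
    have e : (p.wLm l').Hlo F v - p.Hlo F v
        = (l' ^ (1 + F.eta) * lcfU p.x F.sS l' ^ 3 - p.lam ^ (1 + F.eta) * lcfU p.x F.sS p.lam ^ 3) * Real.log (min v p.ell / p.x) := by
      show l' ^ (1 + F.eta) * lcfU p.x F.sS l' ^ 3 * Real.log (min v p.ell / p.x) - p.lam ^ (1 + F.eta) * lcfU p.x F.sS p.lam ^ 3 * Real.log (min v p.ell / p.x) = _
      ring
    rw [e]
    refine ll04c_abs_mul ?_ (by rw [abs_of_nonneg hlg0]; exact hlg1)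
    refine (lcf_lamU_diff p.x F.sS F.eta p.lam l' hx hF.sS0.le hE.e_lo.le h0 hl).trans ?_
    have hUle : lcfU p.x F.sS p.lam ≤ 1 := min_le_left _ _
    have hUpos : 0 < lcfU p.x F.sS p.lam := lt_min one_pos (mul_pos hx (Real.rpow_pos_of_pos h0 _))
    have h3 : lcfU p.x F.sS p.lam ^ 3 ≤ 1 := pow_le_one₀ hUpos.le hUle
    have h4 : l' ^ (1 + F.eta) ≤ 1 := Real.rpow_le_one (h0.trans_le hl).le hl1 (by linarith [hE.e_lo])
    have h5 : 0 ≤ l' ^ (1 + F.eta) := Real.rpow_nonneg (h0.trans_le hl).le _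
    have h6 : l' ^ (1 + F.eta) * lcfU p.x F.sS p.lam ^ 3 ≤ 1 := by
      calc _ ≤ (1 : ℝ) * 1 := mul_le_mul h4 h3 (by positivity) zero_le_one
        _ = 1 := one_mul _
    have h7 : 1 + F.eta + 3 * F.sS / 2 ≤ 2 := by linarith [hE.e_hi, hE.s_hi]
    have h8 : 0 ≤ 1 + F.eta + 3 * F.sS / 2 := by linarith [hE.e_lo, hE.s_lo]
    calc (1 + F.eta + 3 * F.sS / 2) * (l' ^ (1 + F.eta) * lcfU p.x F.sS p.lam ^ 3) * δ ≤ 2 * 1 * δ :=
          mul_le_mul_of_nonneg_right (mul_le_mul h7 h6 (by positivity) (by norm_num)) hδ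
      _ = 2 * δ := by ring
  -- `H_e`
  have hl0 : 0 < p.ell := by linarith [hp.ell1]
  have hvl : v / p.ell ≤ 1 := by rw [div_le_one hl0, ← hae]; exact hv.2.le
  have k5 : |(p.wLm l').xi F 𝔹 v - p.xi F 𝔹 v| ≤ 8 * CR * δ := by
    have e : (p.wLm l').xi F 𝔹 v - p.xi F 𝔹 v = p.ell ^ 2 * ((p.wLm l').K F 𝔹 v - p.K F 𝔹 v) := by
      show _ = p.ell ^ 2 * ((p.ell ^ 2)⁻¹ * (p.wLm l').xi F 𝔹 v - (p.ell ^ 2)⁻¹ * p.xi F 𝔹 v)
      field_simp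
    rw [e]
    calc _ ≤ 2 * (4 * CR * δ) := ll04c_abs_mul (by rw [abs_of_nonneg (sq_nonneg _)]; exact lce_ell_sq hp) k1
      _ = 8 * CR * δ := by ring
  have k6 := hHe.lip p hsm hp.N2 hl0 h0 l' (8 * CR) v hl hl1 (by positivity) hvl k5
  have k7 : |p.chiE * ((p.wLm l').He F 𝔹 v - p.He F 𝔹 v)| ≤ 1 * (CH * (1 + 8 * CR) * δ) :=
    ll04c_abs_mul (by rw [abs_of_nonneg hp.chiE.1]; exact hp.chiE.2) k6
  have e : (p.wLm l').hS F 𝔹 v + (p.wLm l').Hlo F v + p.chiL * p.Hlin F v + p.chiE * (p.wLm l').He F 𝔹 v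
      - (p.hS F 𝔹 v + p.Hlo F v + p.chiL * p.Hlin F v + p.chiE * p.He F 𝔹 v)
      = ((p.wLm l').hS F 𝔹 v - p.hS F 𝔹 v) + ((p.wLm l').Hlo F v - p.Hlo F v) + p.chiE * ((p.wLm l').He F 𝔹 v - p.He F 𝔹 v) := by ring
  rw [e]
  have hA : 0 ≤ 4 * CR + Cb * CR + ll04cCb F B CR := by positivity
  have hA2 : 0 ≤ CH * (1 + 8 * CR) := by positivity
  calc _ ≤ |(p.wLm l').hS F 𝔹 v - p.hS F 𝔹 v| + |(p.wLm l').Hlo F v - p.Hlo F v| + |p.chiE * ((p.wLm l').He F 𝔹 v - p.He F 𝔹 v)| :=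
        (abs_add_le _ _).trans (add_le_add_left (abs_add_le _ _) _)
    _ ≤ (4 * CR + Cb * CR + ll04cCb F B CR) * δ + 2 * δ * L + 1 * (CH * (1 + 8 * CR) * δ) := add_le_add (add_le_add k3 k4) k7
    _ ≤ (4 * CR + Cb * CR + ll04cCb F B CR) * δ * L + 2 * δ * L + (CH * (1 + 8 * CR) * δ) * L := by
        have m1 : (4 * CR + Cb * CR + ll04cCb F B CR) * δ ≤ (4 * CR + Cb * CR + ll04cCb F B CR) * δ * L := le_mul_of_one_le_right (by positivity) hL1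
        have m2 : CH * (1 + 8 * CR) * δ ≤ CH * (1 + 8 * CR) * δ * L := le_mul_of_one_le_right (by positivity) hL1
        linarith
    _ = ll04cCh F B CR Cb CH * L * δ := by unfold ll04cCh; ring

/-! ## 4. the move (χ) on a direct path -/

theorem ll04c_Hlin_bd (F : LlFix) (hF : F.Ok) (p : LlPt) (hp : p.Ok F) (v : ℝ) : |p.Hlin F v| ≤ 2 := by
  have hx := lce_x_pos hp.N2
  have hx1 := (lce_x_lt_one hp.N2).le
  have h1 : 0 ≤ max 0 (min v p.ell - 4 * F.vb) := le_max_left _ _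
  have h2 : max 0 (min v p.ell - 4 * F.vb) ≤ 2 :=
    max_le (by norm_num) (by linarith [min_le_right v p.ell, lce_ell_le hp, hF.vb0])
  have h3 : p.x ^ 3 ≤ 1 := pow_le_one₀ hx.le hx1
  unfold LlPt.Hlin
  rw [abs_of_nonneg (by positivity)]
  calc p.x ^ 3 * max 0 (min v p.ell - 4 * F.vb) ≤ 1 * 2 := mul_le_mul h3 h2 h1 zero_le_one
    _ = 2 := by norm_num

theorem ll04c_lam1_le (F : LlFix) (p : LlPt) (hp : p.Ok F) (hpS : 0 ≤ F.pS) (he : 0 ≤ F.eta) : 0 ≤ p.lam1 F ∧ p.lam1 F ≤ p.lam ∧ p.lam1 F ≤ 1 := by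
  have h0 := lce_lam_pos hp
  have h1 := lce_lam_le_one hp hpS
  have h2 : p.lam1 F ≤ p.lam := by
    unfold LlPt.lam1
    calc p.lam ^ (1 + F.eta) ≤ p.lam ^ (1 : ℝ) := Real.rpow_le_rpow_of_exponent_ge h0 h1 (by linarith)
      _ = p.lam := Real.rpow_one _
  exact ⟨Real.rpow_nonneg h0.le _, h2, h2.trans h1⟩

/-- move (χ): the matrix clock does not move; the field clock moves by `Δχ_lin H_lin + Δχ_e H_e` -/
theorem ll04c_chi_h (F : LlFix) (hF : F.Ok) (𝔹 : LlBase) {CH : ℝ} (hHe : Ll04cHe 𝔹 F CH) (p : LlPt) (hp : p.Ok F) (he : 0 ≤ F.eta) (hsm : p.sm = false)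
    (cl ce : ℝ) (v : ℝ) (hv : v ∈ Ioo 0 p.a) :
    |(p.wChi cl ce).h F 𝔹 v - p.h F 𝔹 v| ≤ 2 * |cl - p.chiL| + CH * |ce - p.chiE| := by
  have hl0 : 0 < p.ell := by linarith [hp.ell1]
  have hae : p.a = p.ell := lce_a_direct hsm
  have hvl : v / p.ell ≤ 1 := by rw [div_le_one hl0, ← hae]; exact hv.2.le
  have hCH := hHe.nn
  show |(if v < p.x then 0 else p.hS F 𝔹 v + p.Hlo F v + cl * p.Hlin F v + ce * p.He F 𝔹 v)
    - (if v < p.x then 0 else p.hS F 𝔹 v + p.Hlo F v + p.chiL * p.Hlin F v + p.chiE * p.He F 𝔹 v)| ≤ _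
  split_ifs with hvx
  · rw [sub_self, abs_zero]; positivity
  have e : p.hS F 𝔹 v + p.Hlo F v + cl * p.Hlin F v + ce * p.He F 𝔹 v - (p.hS F 𝔹 v + p.Hlo F v + p.chiL * p.Hlin F v + p.chiE * p.He F 𝔹 v)
      = p.Hlin F v * (cl - p.chiL) + p.He F 𝔹 v * (ce - p.chiE) := by ring
  have k1 : |p.He F 𝔹 v| ≤ CH := by
    refine (hHe.abs p hsm hp.N2 hl0 (lce_lam_pos hp) (lce_lam_le_one hp hF.pS0.le) v hvl).trans ?_
    exact mul_le_of_le_one_right hCH (ll04c_lam1_le F p hp hF.pS0.le he).2.2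
  rw [e]
  exact (abs_add_le _ _).trans (add_le_add (ll04c_abs_mul (ll04c_Hlin_bd F hF p hp v) le_rfl) (ll04c_abs_mul k1 le_rfl))

/-! ## 5. the move (θ) on a smoothed path -/

theorem ll04c_exp_lip {a b M : ℝ} (ha : a ≤ M) (hb : b ≤ M) : |Real.exp a - Real.exp b| ≤ Real.exp M * |a - b| := by
  have key : ∀ a b : ℝ, a ≤ b → b ≤ M → |Real.exp a - Real.exp b| ≤ Real.exp M * |a - b| := by
    intro a b hab hb
    rw [abs_sub_comm, abs_of_nonneg (sub_nonneg.2 (Real.exp_le_exp.2 hab)), abs_sub_comm, abs_of_nonneg (sub_nonneg.2 hab)]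
    have h1 : Real.exp b - Real.exp a = Real.exp b * (1 - Real.exp (a - b)) := by
      rw [mul_sub, mul_one, ← Real.exp_add]; congr 2; ring
    have h2 : 1 - Real.exp (a - b) ≤ b - a := by have := Real.add_one_le_exp (a - b); linarith
    rw [h1]
    exact mul_le_mul (Real.exp_le_exp.2 hb) h2 (by have := Real.exp_le_one_iff.2 (sub_nonpos.2 hab); linarith) (Real.exp_pos _).le
  rcases le_total a b with h | h
  · exact key a b h hb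
  · rw [abs_sub_comm, abs_sub_comm a b]; exact key b a h ha

theorem ll04c_log2_le : Real.log 2 ≤ 1 := by
  have := Real.log_two_lt_d9
  linarith

/-- `ℓ = e^(θ/6)` and `ℓ² = e^(θ/3)` are `1`-Lipschitz on `[0, log 2]` -/
theorem ll04c_ell_lip {θ θ' : ℝ} (h : θ ∈ Icc 0 (Real.log 2)) (h' : θ' ∈ Icc 0 (Real.log 2)) :
    |Real.exp (θ' / 6) - Real.exp (θ / 6)| ≤ |θ' - θ| ∧ |Real.exp (θ' / 6) ^ 2 - Real.exp (θ / 6) ^ 2| ≤ |θ' - θ| := by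
  have h2 : Real.exp (Real.log 2) = 2 := Real.exp_log (by norm_num)
  have hl0 : 0 ≤ Real.log 2 := Real.log_nonneg (by norm_num)
  constructor
  · have := ll04c_exp_lip (a := θ' / 6) (b := θ / 6) (M := Real.log 2) (by linarith [h'.2]) (by linarith [h.2])
    rw [h2, ← sub_div, abs_div] at this
    refine this.trans ?_
    rw [abs_of_pos (by norm_num : (0 : ℝ) < 6)]
    have := abs_nonneg (θ' - θ)
    linarith
  · have e : ∀ t : ℝ, Real.exp (t / 6) ^ 2 = Real.exp (t / 3) := fun t => by rw [← Real.exp_nat_mul]; congr 1; push_cast; ring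
    have := ll04c_exp_lip (a := θ' / 3) (b := θ / 3) (M := Real.log 2) (by linarith [h'.2]) (by linarith [h.2])
    rw [h2, ← sub_div, abs_div] at this
    rw [e, e]
    refine this.trans ?_
    rw [abs_of_pos (by norm_num : (0 : ℝ) < 3)]
    have := abs_nonneg (θ' - θ)
    linarith

/-- move (θ): `b_∘` -/
theorem ll04c_th_b0 (F : LlFix) (𝔹 : LlBase) (p : LlPt) {C1 Cb θ θ' : ℝ} (h : θ ∈ Icc 0 (Real.log 2)) (h' : θ' ∈ Icc 0 (Real.log 2))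
    (hR : |(p.wTh θ').ell ^ 2 * (p.wTh θ').b0 F 𝔹 - (p.wTh θ).ell ^ 2 * (p.wTh θ).b0 F 𝔹| ≤ C1 * |θ' - θ|)
    (hb : |(p.wTh θ).b0 F 𝔹| ≤ Cb) : |(p.wTh θ').b0 F 𝔹 - (p.wTh θ).b0 F 𝔹| ≤ (C1 + Cb) * |θ' - θ| := by
  have he' : 1 ≤ (p.wTh θ').ell ^ 2 := by
    have : 1 ≤ Real.exp (θ' / 6) := Real.one_le_exp (by linarith [h'.1])
    show 1 ≤ Real.exp (θ' / 6) ^ 2
    nlinarith
  have hd : |(p.wTh θ).ell ^ 2 - (p.wTh θ').ell ^ 2| ≤ |θ' - θ| := by rw [abs_sub_comm]; exact (ll04c_ell_lip h h').2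
  have e : (p.wTh θ').b0 F 𝔹 - (p.wTh θ).b0 F 𝔹 = ((p.wTh θ').ell ^ 2)⁻¹ * (((p.wTh θ').ell ^ 2 * (p.wTh θ').b0 F 𝔹 - (p.wTh θ).ell ^ 2 * (p.wTh θ).b0 F 𝔹)
      + (p.wTh θ).b0 F 𝔹 * ((p.wTh θ).ell ^ 2 - (p.wTh θ').ell ^ 2)) := by
    have h0 : (p.wTh θ').ell ^ 2 ≠ 0 := by positivity
    generalize (p.wTh θ').ell ^ 2 = E' at h0
    generalize (p.wTh θ).ell ^ 2 = E
    field_simp
    ring
  rw [e]
  have k1 : |((p.wTh θ').ell ^ 2)⁻¹| ≤ 1 := by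
    rw [abs_of_nonneg (by positivity)]
    exact inv_le_one_of_one_le₀ he'
  calc _ ≤ 1 * (C1 * |θ' - θ| + Cb * |θ' - θ|) := ll04c_abs_mul k1 ((abs_add_le _ _).trans (add_le_add hR (ll04c_abs_mul hb hd)))
    _ = (C1 + Cb) * |θ' - θ| := by ring

theorem ll04c_th_b (F : LlFix) (𝔹 : LlBase) (p : LlPt) (θ θ' v : ℝ) :
    (p.wTh θ').b F 𝔹 v - (p.wTh θ).b F 𝔹 v = (p.wTh θ').b0 F 𝔹 - (p.wTh θ).b0 F 𝔹 := by
  show ((p.wTh θ').b0 F 𝔹 + F.cb * p.lam * (p.G F v - p.U F ^ 2 - F.c1 * p.gam0 * (p.G F v + p.U F ^ 2) - F.c1 * p.dySum F v))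
    - ((p.wTh θ).b0 F 𝔹 + F.cb * p.lam * (p.G F v - p.U F ^ 2 - F.c1 * p.gam0 * (p.G F v + p.U F ^ 2) - F.c1 * p.dySum F v)) = _
  ring

/-- move (θ): the field clock, pointwise majorant -/
theorem ll04c_th_h (F : LlFix) (hF : F.Ok) (𝔹 : LlBase) (p : LlPt) (hp : p.Ok F) (he : 0 ≤ F.eta) (hE0 : p.chiE = 0) {C0 Cb θ θ' : ℝ}
    (h : θ ∈ Icc 0 (Real.log 2)) (h' : θ' ∈ Icc 0 (Real.log 2))
    (hb0 : |(p.wTh θ').b0 F 𝔹 - (p.wTh θ).b0 F 𝔹| ≤ C0 * |θ' - θ|) (v : ℝ) (hv : 0 < v)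
    (hb' : |(p.wTh θ').b F 𝔹 v| ≤ Cb) (hq : |(p.wTh θ).q F 𝔹 v| ≤ 1) :
    |(p.wTh θ').h F 𝔹 v - (p.wTh θ).h F 𝔹 v| ≤ |(p.wTh θ').K F 𝔹 v - (p.wTh θ).K F 𝔹 v| + Cb * |(p.wTh θ').q F 𝔹 v - (p.wTh θ).q F 𝔹 v|
      + (C0 + 2) * |θ' - θ| := by
  have hx := lce_x_pos hp.N2
  have hx1 := (lce_x_lt_one hp.N2).le
  have hd0 := abs_nonneg (θ' - θ)
  have hCb : 0 ≤ Cb := (abs_nonneg _).trans hb'
  have hC0 : 0 ≤ C0 * |θ' - θ| := (abs_nonneg _).trans hb0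
  show |(if v < p.x then 0 else (p.wTh θ').hS F 𝔹 v + (p.wTh θ').Hlo F v + p.chiL * (p.wTh θ').Hlin F v + p.chiE * (p.wTh θ').He F 𝔹 v)
    - (if v < p.x then 0 else (p.wTh θ).hS F 𝔹 v + (p.wTh θ).Hlo F v + p.chiL * (p.wTh θ).Hlin F v + p.chiE * (p.wTh θ).He F 𝔹 v)| ≤ _
  split_ifs with hvx
  · rw [sub_self, abs_zero]
    have := abs_nonneg ((p.wTh θ').K F 𝔹 v - (p.wTh θ).K F 𝔹 v)
    have := mul_nonneg hCb (abs_nonneg ((p.wTh θ').q F 𝔹 v - (p.wTh θ).q F 𝔹 v))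
    nlinarith
  rw [hE0]
  have k3 : |(p.wTh θ').hS F 𝔹 v - (p.wTh θ).hS F 𝔹 v| ≤ |(p.wTh θ').K F 𝔹 v - (p.wTh θ).K F 𝔹 v| + Cb * |(p.wTh θ').q F 𝔹 v - (p.wTh θ).q F 𝔹 v|
      + C0 * |θ' - θ| * 1 := by
    have e : (p.wTh θ').hS F 𝔹 v - (p.wTh θ).hS F 𝔹 v = ((p.wTh θ').K F 𝔹 v - (p.wTh θ).K F 𝔹 v) - (p.wTh θ').b F 𝔹 v * ((p.wTh θ').q F 𝔹 v - (p.wTh θ).q F 𝔹 v)
        - ((p.wTh θ').b F 𝔹 v - (p.wTh θ).b F 𝔹 v) * (p.wTh θ).q F 𝔹 v := by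
      simp only [LlPt.hS]; ring
    rw [e]
    refine (abs_sub _ _).trans (add_le_add ((abs_sub _ _).trans (add_le_add le_rfl (ll04c_abs_mul hb' le_rfl))) (ll04c_abs_mul ?_ hq))
    rw [ll04c_th_b]; exact hb0
  have hl : ∀ t : ℝ, 0 < Real.exp (t / 6) := fun t => Real.exp_pos _
  have k4 : |(p.wTh θ').Hlo F v - (p.wTh θ).Hlo F v| ≤ 1 * |θ' - θ| := by
    have e : (p.wTh θ').Hlo F v - (p.wTh θ).Hlo F v
        = (p.lam1 F * p.U F ^ 3) * (Real.log (min v (Real.exp (θ' / 6)) / p.x) - Real.log (min v (Real.exp (θ / 6)) / p.x)) := by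
      show p.lam1 F * p.U F ^ 3 * Real.log (min v (Real.exp (θ' / 6)) / p.x) - p.lam1 F * p.U F ^ 3 * Real.log (min v (Real.exp (θ / 6)) / p.x) = _
      ring
    rw [e]
    refine ll04c_abs_mul ?_ ?_
    · obtain ⟨a1, _, a3⟩ := ll04c_lam1_le F p hp hF.pS0.le he
      have hU0 := (lce_U_pos hp).le
      have hU3 : p.U F ^ 3 ≤ 1 := pow_le_one₀ hU0 lce_U_le_one
      rw [abs_of_nonneg (by positivity)]
      calc p.lam1 F * p.U F ^ 3 ≤ 1 * 1 := mul_le_mul a3 hU3 (by positivity) zero_le_one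
        _ = 1 := one_mul _
    · have lm : ∀ t : ℝ, Real.log (min v (Real.exp (t / 6)) / p.x) = min (Real.log v) (t / 6) - Real.log p.x := by
        intro t
        rw [Real.log_div (lt_min hv (hl t)).ne' hx.ne', Real.strictMonoOn_log.monotoneOn.map_min (mem_Ioi.2 hv) (mem_Ioi.2 (hl t)), Real.log_exp]
      rw [lm, lm]
      have h2 := abs_min_sub_min_le_max (Real.log v) (θ' / 6) (Real.log v) (θ / 6)
      simp only [sub_self, abs_zero] at h2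
      have h3 : |θ' / 6 - θ / 6| ≤ |θ' - θ| := by
        rw [← sub_div, abs_div, abs_of_pos (by norm_num : (0 : ℝ) < 6)]
        linarith
      calc |min (Real.log v) (θ' / 6) - Real.log p.x - (min (Real.log v) (θ / 6) - Real.log p.x)|
          = |min (Real.log v) (θ' / 6) - min (Real.log v) (θ / 6)| := by congr 1; ring
        _ ≤ |θ' - θ| := h2.trans (max_le hd0 h3)
  have k5 : |p.chiL * ((p.wTh θ').Hlin F v - (p.wTh θ).Hlin F v)| ≤ 1 * (1 * |θ' - θ|) := by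
    refine ll04c_abs_mul (by rw [abs_of_nonneg hp.chiL.1]; exact hp.chiL.2) ?_
    have e : (p.wTh θ').Hlin F v - (p.wTh θ).Hlin F v
        = p.x ^ 3 * (max 0 (min v (Real.exp (θ' / 6)) - 4 * F.vb) - max 0 (min v (Real.exp (θ / 6)) - 4 * F.vb)) := by
      show p.x ^ 3 * max 0 (min v (Real.exp (θ' / 6)) - 4 * F.vb) - p.x ^ 3 * max 0 (min v (Real.exp (θ / 6)) - 4 * F.vb) = _
      ring
    rw [e]
    refine ll04c_abs_mul (by rw [abs_of_nonneg (by positivity)]; exact pow_le_one₀ hx.le hx1) ?_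
    have h1 := abs_max_sub_max_le_max (0 : ℝ) (min v (Real.exp (θ' / 6)) - 4 * F.vb) 0 (min v (Real.exp (θ / 6)) - 4 * F.vb)
    have h2 := abs_min_sub_min_le_max v (Real.exp (θ' / 6)) v (Real.exp (θ / 6))
    simp only [sub_self, abs_zero] at h1 h2
    refine h1.trans (max_le hd0 ?_)
    have e2 : min v (Real.exp (θ' / 6)) - 4 * F.vb - (min v (Real.exp (θ / 6)) - 4 * F.vb) = min v (Real.exp (θ' / 6)) - min v (Real.exp (θ / 6)) := by ring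
    rw [e2]
    exact h2.trans (max_le hd0 (ll04c_ell_lip h h').1)
  have e : (p.wTh θ').hS F 𝔹 v + (p.wTh θ').Hlo F v + p.chiL * (p.wTh θ').Hlin F v + 0 * (p.wTh θ').He F 𝔹 v
      - ((p.wTh θ).hS F 𝔹 v + (p.wTh θ).Hlo F v + p.chiL * (p.wTh θ).Hlin F v + 0 * (p.wTh θ).He F 𝔹 v)
      = ((p.wTh θ').hS F 𝔹 v - (p.wTh θ).hS F 𝔹 v) + ((p.wTh θ').Hlo F v - (p.wTh θ).Hlo F v) + p.chiL * ((p.wTh θ').Hlin F v - (p.wTh θ).Hlin F v) := by ring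
  rw [e]
  have := (abs_add_le (((p.wTh θ').hS F 𝔹 v - (p.wTh θ).hS F 𝔹 v) + ((p.wTh θ').Hlo F v - (p.wTh θ).Hlo F v)) (p.chiL * ((p.wTh θ').Hlin F v - (p.wTh θ).Hlin F v))).trans
    (add_le_add_left (abs_add_le _ _) _)
  linarith

/-! ## 6. what is used of the P-list -/

/-- the facts of `LlSec3` used in this file, for all admissible points of the dyads `N ≥ N0` -/
structure Ll04cEnv (𝔹 : LlBase) (F : LlFix) (Cb CR CT ξ0 : ℝ) (N0 : ℕ) : Prop where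
  Cb0 : 0 ≤ Cb
  CR0 : 0 ≤ CR
  CT0 : 0 ≤ CT
  N2 : 2 ≤ N0
  xb : ∀ p : LlPt, N0 ≤ p.N → 8 * p.x ≤ F.vb
  mb : ∀ p : LlPt, p.Ok F → N0 ≤ p.N → MonotoneOn (p.b F 𝔹) (Icc 0 p.a)
  mh : ∀ p : LlPt, p.Ok F → N0 ≤ p.N → MonotoneOn (p.h F 𝔹) (Icc 0 p.a)
  mK : ∀ p : LlPt, p.Ok F → N0 ≤ p.N → MonotoneOn (p.K F 𝔹) (Icc 0 p.a)
  mq : ∀ p : LlPt, p.Ok F → N0 ≤ p.N → MonotoneOn (p.q F 𝔹) (Icc 0 p.a)
  b_rg : ∀ p : LlPt, p.Ok F → N0 ≤ p.N → ∀ v ∈ Icc 0 p.a, 0 ≤ p.b F 𝔹 v ∧ p.b F 𝔹 v ≤ Cb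
  h_nn : ∀ p : LlPt, p.Ok F → N0 ≤ p.N → ∀ v ∈ Icc 0 p.a, 0 ≤ p.h F 𝔹 v
  hS_nn : ∀ p : LlPt, p.Ok F → N0 ≤ p.N → ∀ v ∈ Icc 0 p.a, 0 ≤ p.hS F 𝔹 v
  q_rg : ∀ p : LlPt, p.Ok F → N0 ≤ p.N → ∀ v ∈ Ioo 0 p.a, 0 ≤ p.q F 𝔹 v ∧ p.q F 𝔹 v ≤ 1
  b0_rg : ∀ p : LlPt, p.Ok F → N0 ≤ p.N → |p.b0 F 𝔹| ≤ Cb
  b0_T : ∀ p : LlPt, p.Ok F → N0 ≤ p.N → |p.ell ^ 2 * p.b0 F 𝔹 - F.T| ≤ Cb * p.lam
  gapI : ∀ p : LlPt, p.Ok F → N0 ≤ p.N → p.sm = false → ∀ v ∈ Ioo 0 p.a, p.K F 𝔹 v - p.b0 F 𝔹 * p.q F 𝔹 v ≤ Cb * p.lam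
  regL : ∀ p : LlPt, p.Ok F → N0 ≤ p.N → p.sm = false → ∀ l', p.x ^ (12 : ℝ) ≤ l' → l' ≤ p.x ^ F.pS → p.RegL F 𝔹 CR ξ0 l'
  regTb : ∀ p : LlPt, p.Ok F → N0 ≤ p.N → p.sm = true → ∀ θ ∈ Icc 0 (Real.log 2), ∀ θ' ∈ Icc 0 (Real.log 2),
    |(p.wTh θ').ell ^ 2 * (p.wTh θ').b0 F 𝔹 - (p.wTh θ).ell ^ 2 * (p.wTh θ).b0 F 𝔹| ≤ CT * |θ' - θ|
  regTl : ∀ p : LlPt, p.Ok F → N0 ≤ p.N → p.sm = true → ∀ θ ∈ Icc 0 (Real.log 2), ∀ θ' ∈ Icc 0 (Real.log 2),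
    (∫ v in (0 : ℝ)..4, (|(p.wTh θ').K F 𝔹 v - (p.wTh θ).K F 𝔹 v| + |(p.wTh θ').q F 𝔹 v - (p.wTh θ).q F 𝔹 v|)) ≤ CT * p.M ^ 2 * |θ' - θ|

/-- `K - b_∘ q = ∫_0^K (1 - b_∘ Γ') ≤ C λ ξ_*³` on a direct path ((P2), upper bound of the gap) -/
theorem ll04c_gapI (F : LlFix) (𝔹 : LlBase) (p : LlPt) (hp : p.Ok F) {c C v0 : ℝ} (hc : 0 ≤ c) (hR : p.Ref F 𝔹 c C v0) (hsm : p.sm = false)
    (v : ℝ) (hv : v ∈ Ioo 0 p.a) (hK : 0 ≤ p.K F 𝔹 v) : p.K F 𝔹 v - p.b0 F 𝔹 * p.q F 𝔹 v ≤ |C| * 𝔹.xiS F.T ^ 3 * p.lam := by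
  set t := p.K F 𝔹 v with ht
  have h0 := lce_lam_pos hp
  have hl2 : 1 ≤ p.ell ^ 2 := by nlinarith [hp.ell1]
  have htop : p.ell ^ 2 * t ≤ 𝔹.xiS F.T := by
    have := hR.K_top v hv
    rwa [hsm, if_neg (by simp)] at this
  have htx : t ≤ 𝔹.xiS F.T := le_trans (by nlinarith) htop
  have hq : p.q F 𝔹 v = ∫ s in (0 : ℝ)..t, p.Gam1 F 𝔹 s := by
    have := hR.gam_ftc 0 t le_rfl hK
    rw [hR.gam_zero, sub_zero] at this
    exact this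
  have hint : IntervalIntegrable (p.Gam1 F 𝔹) volume 0 t :=
    (hR.g1_cont.mono (by rw [uIcc_of_le hK]; exact fun s hs => hs.1)).intervalIntegrable
  have e : t - p.b0 F 𝔹 * p.q F 𝔹 v = ∫ s in (0 : ℝ)..t, p.gap F 𝔹 s := by
    unfold LlPt.gap
    rw [intervalIntegral.integral_sub intervalIntegrable_const (hint.const_mul _), intervalIntegral.integral_const,
      intervalIntegral.integral_const_mul, hq]
    simp
  rw [e]
  have hb : ∀ s ∈ Ioo 0 t, |p.gap F 𝔹 s| ≤ |C| * p.lam * 𝔹.xiS F.T ^ 2 := by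
    intro s hs
    have g0 : 0 ≤ p.gap F 𝔹 s := le_trans (by positivity) (hR.gap_lo s hs.1.le)
    rw [abs_of_nonneg g0]
    refine (hR.gap_hi s hs.1.le (le_trans (by nlinarith [hs.2]) htop)).trans ?_
    have h1 : s ^ 2 ≤ 𝔹.xiS F.T ^ 2 := pow_le_pow_left₀ hs.1.le (hs.2.le.trans htx) 2
    calc C * p.lam * s ^ 2 ≤ |C| * p.lam * s ^ 2 := by
          refine mul_le_mul_of_nonneg_right (mul_le_mul_of_nonneg_right (le_abs_self C) h0.le) (sq_nonneg s)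
      _ ≤ |C| * p.lam * 𝔹.xiS F.T ^ 2 := mul_le_mul_of_nonneg_left h1 (by positivity)
  refine (ll04c_int_const hK hb).trans ?_
  calc |C| * p.lam * 𝔹.xiS F.T ^ 2 * t ≤ |C| * p.lam * 𝔹.xiS F.T ^ 2 * 𝔹.xiS F.T := mul_le_mul_of_nonneg_left htx (by positivity)
    _ = |C| * 𝔹.xiS F.T ^ 3 * p.lam := by ring

theorem ll04c_M_nn (p : LlPt) (hN : 2 ≤ p.N) : 0 ≤ p.M := by
  unfold LlPt.M
  exact pow_nonneg (lcd_L_ge p.x (lce_x_pos hN) (lce_x_lt_one hN).le) 3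

/-- **the P-list gives the environment** -/
theorem ll04c_env (𝔹 : LlBase) (F : LlFix) (h3 : LlSec3 𝔹 F) : ∃ (Cb CR CT ξ0 : ℝ) (N0 : ℕ), Ll04cEnv 𝔹 F Cb CR CT ξ0 N0 := by
  obtain ⟨c, C, v0, hc, _, N1, hRef⟩ := h3.ref
  obtain ⟨CR, ξ0, _, N2, hRL⟩ := h3.regL
  obtain ⟨_, _, _, _, hRT⟩ := h3.regT
  obtain ⟨cT, CT, hcT, N3, hRT⟩ := hRT 0
  obtain ⟨cA, CA, hcA, N4, hA⟩ := h3.adm
  obtain ⟨N5, hx5⟩ := lce_x_small (F.vb / 8) (by have := h3.ok.vb0; positivity)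
  refine ⟨max (max |C| |CA|) (|C| * |𝔹.xiS F.T| ^ 3), |CR|, |CT|, ξ0, max (max (max N1 N2) (max N3 N4)) (max N5 2), ?_⟩
  have n1 : ∀ p : LlPt, max (max (max N1 N2) (max N3 N4)) (max N5 2) ≤ p.N → N1 ≤ p.N := fun p h => by
    have := le_max_left N1 N2; have := le_max_left (max N1 N2) (max N3 N4); have := le_max_left (max (max N1 N2) (max N3 N4)) (max N5 2); omega
  have n2 : ∀ p : LlPt, max (max (max N1 N2) (max N3 N4)) (max N5 2) ≤ p.N → N2 ≤ p.N := fun p h => by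
    have := le_max_right N1 N2; have := le_max_left (max N1 N2) (max N3 N4); have := le_max_left (max (max N1 N2) (max N3 N4)) (max N5 2); omega
  have n3 : ∀ p : LlPt, max (max (max N1 N2) (max N3 N4)) (max N5 2) ≤ p.N → N3 ≤ p.N := fun p h => by
    have := le_max_left N3 N4; have := le_max_right (max N1 N2) (max N3 N4); have := le_max_left (max (max N1 N2) (max N3 N4)) (max N5 2); omega
  have n4 : ∀ p : LlPt, max (max (max N1 N2) (max N3 N4)) (max N5 2) ≤ p.N → N4 ≤ p.N := fun p h => by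
    have := le_max_right N3 N4; have := le_max_right (max N1 N2) (max N3 N4); have := le_max_left (max (max N1 N2) (max N3 N4)) (max N5 2); omega
  have n5 : ∀ p : LlPt, max (max (max N1 N2) (max N3 N4)) (max N5 2) ≤ p.N → N5 ≤ p.N := fun p h => by
    have := le_max_left N5 2; have := le_max_right (max (max N1 N2) (max N3 N4)) (max N5 2); omega
  have c1 : |C| ≤ max (max |C| |CA|) (|C| * |𝔹.xiS F.T| ^ 3) := (le_max_left _ _).trans (le_max_left _ _)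
  have c2 : |CA| ≤ max (max |C| |CA|) (|C| * |𝔹.xiS F.T| ^ 3) := (le_max_right _ _).trans (le_max_left _ _)
  have c3 : |C| * |𝔹.xiS F.T| ^ 3 ≤ max (max |C| |CA|) (|C| * |𝔹.xiS F.T| ^ 3) := le_max_right _ _
  refine ⟨(abs_nonneg C).trans c1, abs_nonneg _, abs_nonneg _, (le_max_right _ _).trans (le_max_right _ _), fun p h => ?_, fun p hp h => (hA p hp (n4 p h)).1,
    fun p hp h => (hA p hp (n4 p h)).2.1, fun p hp h => (hA p hp (n4 p h)).2.2.2.1, fun p hp h => (hA p hp (n4 p h)).2.2.2.2.1, fun p hp h v hv => ?_,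
    fun p hp h v hv => ((hA p hp (n4 p h)).2.2.2.2.2.1 v hv).2.2.1, fun p hp h v hv => ((hA p hp (n4 p h)).2.2.2.2.2.1 v hv).2.2.2.1,
    fun p hp h v hv => ?_, fun p hp h => ?_, fun p hp h => ?_, fun p hp h hsm v hv => ?_, fun p hp h hsm l' h1 h2 => ?_, fun p hp h hsm θ hθ θ' hθ' => ?_,
    fun p hp h hsm θ hθ θ' hθ' => ?_⟩
  · have := hx5 p (n5 p h); linarith
  · have := (hA p hp (n4 p h)).2.2.2.2.2.1 v hv
    exact ⟨hcA.le.trans this.1, this.2.1.trans ((le_abs_self _).trans c2)⟩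
  · have hR := hRef p hp (n1 p h)
    have hK : 0 ≤ p.K F 𝔹 v := ((hA p hp (n4 p h)).2.2.2.2.2.1 v ⟨hv.1.le, hv.2.le⟩).2.2.2.2
    exact ⟨le_trans (mul_nonneg hc.le hv.1.le) (hR.q_lo v hv), hR.gam_le _ hK⟩
  · have hR := hRef p hp (n1 p h)
    rw [abs_of_nonneg (hc.le.trans hR.b0_lo)]
    exact hR.b0_hi.trans ((le_abs_self _).trans c1)
  · have hR := hRef p hp (n1 p h)
    exact hR.b0_T.trans (mul_le_mul_of_nonneg_right ((le_abs_self _).trans c1) (lce_lam_pos hp).le)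
  · have hR := hRef p hp (n1 p h)
    have hK : 0 ≤ p.K F 𝔹 v := ((hA p hp (n4 p h)).2.2.2.2.2.1 v ⟨hv.1.le, hv.2.le⟩).2.2.2.2
    refine (ll04c_gapI F 𝔹 p hp hc.le hR hsm v hv hK).trans (mul_le_mul_of_nonneg_right (le_trans ?_ c3) (lce_lam_pos hp).le)
    refine mul_le_mul_of_nonneg_left ?_ (abs_nonneg C)
    calc 𝔹.xiS F.T ^ 3 ≤ |𝔹.xiS F.T ^ 3| := le_abs_self _
      _ = |𝔹.xiS F.T| ^ 3 := abs_pow _ _
  · have hR := hRL p hp (n2 p h) hsm l' h1 h2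
    have m : ∀ y : ℝ, 0 ≤ y → CR * y ≤ |CR| * y := fun y hy => mul_le_mul_of_nonneg_right (le_abs_self _) hy
    refine ⟨hR.b0.trans (m _ (abs_nonneg _)), fun v hv => (hR.K v hv).trans ?_, hR.K_far, fun v hv => (hR.q v hv).trans ?_,
      fun ξ hξ => (hR.gap0 ξ hξ).trans ?_, fun ξ hξ => (hR.gap ξ hξ).trans (m _ (abs_nonneg _))⟩
    · exact mul_le_mul_of_nonneg_right (m _ (abs_nonneg _)) hv.1.le
    · exact mul_le_mul_of_nonneg_right (m _ (abs_nonneg _)) (le_min hv.1.le zero_le_one)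
    · exact mul_le_mul_of_nonneg_right (m _ (abs_nonneg _)) (sq_nonneg _)
  · have hR := hRT p hp (n3 p h) hsm θ hθ θ' hθ'
    refine hR.b0.trans (mul_le_mul_of_nonneg_right ?_ (abs_nonneg _))
    have h1 : Real.exp (-cT * p.M) ≤ 1 := Real.exp_le_one_iff.2 (by nlinarith [ll04c_M_nn p hp.N2])
    calc CT * Real.exp (-cT * p.M) ≤ |CT| * Real.exp (-cT * p.M) := mul_le_mul_of_nonneg_right (le_abs_self _) (Real.exp_pos _).le
      _ ≤ |CT| * 1 := mul_le_mul_of_nonneg_left h1 (abs_nonneg _)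
      _ = |CT| := mul_one _
  · have hR := hRT p hp (n3 p h) hsm θ hθ θ' hθ'
    refine hR.l1.trans (mul_le_mul_of_nonneg_right (mul_le_mul_of_nonneg_right (le_abs_self _) (sq_nonneg _)) (abs_nonneg _))

/-! ## 7. logarithms are a subpower loss -/

theorem ll04c_L6 (x : ℝ) (hx0 : 0 < x) (hx1 : x ≤ 1) :
    1 ≤ 1 + Real.log (1 / x) ∧ (1 + Real.log (1 / x)) ^ 6 ≤ 49 ^ 6 * x ^ (-(1 / 8 : ℝ)) := by
  have h0 := lcd_L_ge x hx0 hx1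
  refine ⟨by linarith, ?_⟩
  have h1 := lcd_log_le (1 / 48) (by norm_num) x hx0 hx1
  have h2 := pow_le_pow_left₀ (by linarith : 0 ≤ 1 + Real.log (1 / x)) h1 6
  have h3 : (x ^ (-(1 / 48 : ℝ))) ^ 6 = x ^ (-(1 / 8 : ℝ)) := by
    rw [← Real.rpow_natCast, ← Real.rpow_mul hx0.le]
    congr 1
    norm_num
  rw [mul_pow, h3] at h2
  refine h2.trans (le_of_eq ?_)
  norm_num

theorem ll04c_Lk {L : ℝ} (hL : 1 ≤ L) (k : ℕ) (hk : k ≤ 6) : L ^ k ≤ L ^ 6 := pow_le_pow_right₀ hL hk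

/-! ## 8. the total clocks -/

theorem ll04c_xi_a (F : LlFix) (hF : F.Ok) (𝔹 : LlBase) (hP : LlBaseProfile 𝔹 F.T) (p : LlPt) (hp : p.Ok F) :
    0 ≤ p.xi F 𝔹 p.a ∧ p.xi F 𝔹 p.a ≤ 𝔹.xiS F.T + p.M := by
  have hM := ll04c_M_nn p hp.N2
  have hxi := hP.xi_pos
  have hl0 : 0 < p.ell := by linarith [hp.ell1]
  constructor
  · exact Real.sInf_nonneg fun ξ hξ => hξ.1
  · unfold LlPt.xi LlPt.Aprof LlPt.a
    rcases hsm : p.sm with _ | _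
    · simp only [Bool.false_eq_true, if_false]
      refine (lcx_inv_le hxi.le ?_).trans (by linarith)
      rw [div_self hl0.ne']
      unfold LlPt.Adir
      rw [hP.top _ le_rfl]
      have := mul_nonneg (lce_lam_pos hp).le (hF.P_nn _ hxi.le).1
      linarith
    · simp only [if_true]
      refine (lcx_inv_le hM ?_).trans (by linarith)
      unfold LlPt.Asm
      rw [if_pos le_rfl]

theorem ll04c_bd (F : LlFix) (hF : F.Ok) (𝔹 : LlBase) (hP : LlBaseProfile 𝔹 F.T) {Cb CR CT ξ0 CH : ℝ} {N0 : ℕ} (env : Ll04cEnv 𝔹 F Cb CR CT ξ0 N0)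
    (hHe : Ll04cHe 𝔹 F CH) (he : 0 ≤ F.eta) (p : LlPt) (hp : p.Ok F) (hN : N0 ≤ p.N) :
    p.b F 𝔹 p.a + p.h F 𝔹 p.a ≤ (Cb + 𝔹.xiS F.T + CH + 4) * (1 + Real.log (1 / p.x)) ^ 6 := by
  have hx := lce_x_pos hp.N2
  have hx1 := (lce_x_lt_one hp.N2)
  have ha := lce_a_mem hp
  have hl0 : 0 < p.ell := by linarith [hp.ell1]
  have haa : p.a ∈ Icc 0 p.a := ⟨by linarith, le_rfl⟩
  obtain ⟨hb0, hb1⟩ := env.b_rg p hp hN p.a haa
  obtain ⟨hL1, _⟩ := ll04c_L6 p.x hx hx1.le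
  set L := 1 + Real.log (1 / p.x) with hL
  have hq : 0 ≤ p.q F 𝔹 p.a := by
    have h1 := env.mq p hp hN (a := p.a / 2) ⟨by linarith, by linarith⟩ haa (by linarith)
    exact (env.q_rg p hp hN (p.a / 2) ⟨by linarith, by linarith⟩).1.trans h1
  obtain ⟨hxi0, hxi1⟩ := ll04c_xi_a F hF 𝔹 hP p hp
  have hK : p.K F 𝔹 p.a ≤ 𝔹.xiS F.T + p.M := by
    unfold LlPt.K
    have h1 : (p.ell ^ 2)⁻¹ ≤ 1 := inv_le_one_of_one_le₀ (by nlinarith [hp.ell1])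
    calc (p.ell ^ 2)⁻¹ * p.xi F 𝔹 p.a ≤ 1 * p.xi F 𝔹 p.a := mul_le_mul_of_nonneg_right h1 hxi0
      _ ≤ _ := by linarith
  have hM : p.M ≤ L ^ 3 := by
    unfold LlPt.M
    exact pow_le_pow_left₀ (lcd_L_ge p.x hx hx1.le) (by linarith) 3
  have hhS : p.hS F 𝔹 p.a ≤ 𝔹.xiS F.T + L ^ 3 := by
    unfold LlPt.hS
    have := mul_nonneg hb0 hq
    linarith
  obtain ⟨a1, _, a3⟩ := ll04c_lam1_le F p hp hF.pS0.le he
  have hHlo : p.Hlo F p.a ≤ L := by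
    refine (lcd_Hlo_mem F p hx hx1.le hp.ell1 (lce_ell_le hp) (lce_lam_pos hp) p.a (by linarith)).2.trans ?_
    have hU0 := (lce_U_pos hp).le
    have hU3 : p.U F ^ 3 ≤ 1 := pow_le_one₀ hU0 lce_U_le_one
    have : p.lam1 F * p.U F ^ 3 ≤ 1 := by
      calc p.lam1 F * p.U F ^ 3 ≤ 1 * 1 := mul_le_mul a3 hU3 (by positivity) zero_le_one
        _ = 1 := one_mul _
    calc p.lam1 F * p.U F ^ 3 * L ≤ 1 * L := mul_le_mul_of_nonneg_right this (by linarith)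
      _ = L := one_mul _
  have hHlin : p.chiL * p.Hlin F p.a ≤ 2 := by
    have := ll04c_abs_mul (x := p.chiL) (X := 1) (by rw [abs_of_nonneg hp.chiL.1]; exact hp.chiL.2) (ll04c_Hlin_bd F hF p hp p.a)
    linarith [le_abs_self (p.chiL * p.Hlin F p.a)]
  have hCH := hHe.nn
  have hHe' : p.chiE * p.He F 𝔹 p.a ≤ CH := by
    rcases hsm : p.sm with _ | _
    · have hae : p.a = p.ell := lce_a_direct hsm
      have k1 : |p.He F 𝔹 p.a| ≤ CH := by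
        refine (hHe.abs p hsm hp.N2 hl0 (lce_lam_pos hp) (lce_lam_le_one hp hF.pS0.le) p.a (by rw [hae, div_self hl0.ne'])).trans ?_
        exact mul_le_of_le_one_right hCH a3
      have := ll04c_abs_mul (x := p.chiE) (X := 1) (by rw [abs_of_nonneg hp.chiE.1]; exact hp.chiE.2) k1
      linarith [le_abs_self (p.chiE * p.He F 𝔹 p.a)]
    · rw [(hp.sm_fin hsm).2, zero_mul]; exact hCH
  have hh : p.h F 𝔹 p.a = p.hS F 𝔹 p.a + p.Hlo F p.a + p.chiL * p.Hlin F p.a + p.chiE * p.He F 𝔹 p.a := by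
    unfold LlPt.h
    rw [if_neg (by linarith)]
  have h3 := ll04c_Lk hL1 3 (by norm_num)
  have h1 := ll04c_Lk hL1 1 (by norm_num)
  have h6 : 1 ≤ L ^ 6 := one_le_pow₀ hL1
  rw [pow_one] at h1
  rw [hh]
  have hA : 0 ≤ Cb + 𝔹.xiS F.T + CH + 2 := by have := env.Cb0; have := hP.xi_pos; linarith
  nlinarith

/-! ## 9. pointwise bounds along the segments -/

/-- the constant of the move (γ) -/
noncomputable def ll04cCg (F : LlFix) (B : ℝ) : ℝ := F.cb * F.c1 * (16 * max 64 (F.G1 2) + 1 + 2 * B)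

theorem ll04c_Cg_nn (F : LlFix) (hF : F.Ok) {B : ℝ} (hB : 0 ≤ B) : 0 ≤ ll04cCg F B := by
  have h1 : (0 : ℝ) ≤ max 64 (F.G1 2) := le_trans (by norm_num) (le_max_left _ _)
  have := hF.cb0
  have := hF.c10
  unfold ll04cCg
  positivity

theorem ll04c_gam_pw (F : LlFix) (hF : F.Ok) (𝔹 : LlBase) {B Cb CR CT ξ0 : ℝ} {N0 : ℕ} (hB : ∀ w, |F.phi w| ≤ B) (env : Ll04cEnv 𝔹 F Cb CR CT ξ0 N0)
    (N : ℕ) (ell lam chiL chiE : ℝ) (sm : Bool) (γ γ' : Fin (N + 1) → ℝ) (hok : (ll04Pt N ell lam chiL chiE sm γ).Ok F) (hN : N0 ≤ N)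
    (v : ℝ) (hv : v ∈ Ioo 0 (ll04Pt N ell lam chiL chiE sm γ).a) :
    |(ll04Pt N ell lam chiL chiE sm γ).b F 𝔹 v - (ll04Pt N ell lam chiL chiE sm γ').b F 𝔹 v|
      + |(ll04Pt N ell lam chiL chiE sm γ).h F 𝔹 v - (ll04Pt N ell lam chiL chiE sm γ').h F 𝔹 v| ≤ 2 * ll04cCg F B * dist γ γ' := by
  set p := ll04Pt N ell lam chiL chiE sm γ with hp
  have hx := lce_x_pos hok.N2
  have hxb := env.xb p hN
  have hB0 : 0 ≤ B := (abs_nonneg _).trans (hB 0)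
  have ha := lce_a_mem hok
  have hv4 : v ∈ Icc (0 : ℝ) 4 := ⟨hv.1.le, hv.2.le.trans ha.2⟩
  have hd : 0 ≤ dist γ γ' := dist_nonneg
  have k : |p.b F 𝔹 v - (ll04Pt N ell lam chiL chiE sm γ').b F 𝔹 v| ≤ F.cb * p.lam * F.c1 * (p.G F v + p.U F ^ 2 + 2 * B) * dist γ γ' :=
    ll04c_gam_b F hF 𝔹 hB p hx hxb (lce_lam_pos hok).le (ll04Pt N ell lam chiL chiE sm γ').gam0 (ll04Pt N ell lam chiL chiE sm γ').gu
      (ll04c_gam0 N ell lam chiL chiE sm γ γ') (ll04c_gu N ell lam chiL chiE sm γ γ') v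
  have k' : |p.b F 𝔹 v - (ll04Pt N ell lam chiL chiE sm γ').b F 𝔹 v| ≤ ll04cCg F B * dist γ γ' := by
    refine k.trans (mul_le_mul_of_nonneg_right ?_ hd)
    obtain ⟨hG0, hG1⟩ := ll04c_G_bd F hF p hx hxb v hv4
    have hU2 : p.U F ^ 2 ≤ 1 := pow_le_one₀ (lce_U_pos hok).le lce_U_le_one
    have hl1 := lce_lam_le_one hok hF.pS0.le
    have hl0 := (lce_lam_pos hok).le
    have hcb := hF.cb0.le
    have hc1 := hF.c10.le
    unfold ll04cCg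
    calc F.cb * p.lam * F.c1 * (p.G F v + p.U F ^ 2 + 2 * B) ≤ F.cb * 1 * F.c1 * (16 * max 64 (F.G1 2) + 1 + 2 * B) := by
          refine mul_le_mul (mul_le_mul_of_nonneg_right (mul_le_mul_of_nonneg_left hl1 hcb) hc1) (by linarith) (by positivity) (by positivity)
      _ = _ := by ring
  have e : p.h F 𝔹 v - (ll04Pt N ell lam chiL chiE sm γ').h F 𝔹 v
      = if v < p.x then 0 else -(p.b F 𝔹 v - (ll04Pt N ell lam chiL chiE sm γ').b F 𝔹 v) * p.q F 𝔹 v :=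
    ll04c_gam_h F 𝔹 p (ll04Pt N ell lam chiL chiE sm γ').gam0 (ll04Pt N ell lam chiL chiE sm γ').gu v
  have k2 : |p.h F 𝔹 v - (ll04Pt N ell lam chiL chiE sm γ').h F 𝔹 v| ≤ ll04cCg F B * dist γ γ' := by
    rw [e]
    split_ifs
    · rw [abs_zero]; exact mul_nonneg (ll04c_Cg_nn F hF hB0) hd
    · obtain ⟨q0, q1⟩ := env.q_rg p hok hN v hv
      have := ll04c_abs_mul (x := -(p.b F 𝔹 v - (ll04Pt N ell lam chiL chiE sm γ').b F 𝔹 v)) (y := p.q F 𝔹 v)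
        (X := ll04cCg F B * dist γ γ') (Y := 1) (by rw [abs_neg]; exact k') (by rw [abs_of_nonneg q0]; exact q1)
      linarith
  linarith

theorem ll04c_wLm_ok (F : LlFix) (p : LlPt) (hp : p.Ok F) (hsm : p.sm = false) (l' : ℝ) (hl : p.lam ≤ l') (hl' : l' ≤ p.x ^ F.pS) : (p.wLm l').Ok F :=
  ⟨hp.N2, hp.ell1, hp.ell2, hp.lam_lo.trans hl, hl', hp.g0, hp.gu, hp.chiL, hp.chiE, fun h => absurd (hsm.symm.trans h) (by simp)⟩

/-- move (λ), both clocks -/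
theorem ll04c_lam_pw (F : LlFix) (hF : F.Ok) (𝔹 : LlBase) {B Cb CR CT ξ0 CH : ℝ} {N0 : ℕ} (hB : ∀ w, |F.phi w| ≤ B) (env : Ll04cEnv 𝔹 F Cb CR CT ξ0 N0)
    (hHe : Ll04cHe 𝔹 F CH) (hE : LlExpOk F.sS F.eta F.pS) (p : LlPt) (hp : p.Ok F) (hN : N0 ≤ p.N) (hsm : p.sm = false)
    (l' : ℝ) (hl : p.lam ≤ l') (hl' : l' ≤ p.x ^ F.pS) (v : ℝ) (hv : v ∈ Ioo 0 p.a) :
    |(p.wLm l').b F 𝔹 v - p.b F 𝔹 v| + |(p.wLm l').h F 𝔹 v - p.h F 𝔹 v|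
      ≤ (ll04cCb F B CR + ll04cCh F B CR Cb CH) * (1 + Real.log (1 / p.x)) * Real.log (l' / p.lam) := by
  have hx := lce_x_pos hp.N2
  have hx1 := (lce_x_lt_one hp.N2).le
  have h0 := lce_lam_pos hp
  have hB0 : 0 ≤ B := (abs_nonneg _).trans (hB 0)
  have hok' := ll04c_wLm_ok F p hp hsm l' hl hl'
  have hl1 : l' ≤ 1 := lce_lam_le_one hok' hF.pS0.le
  have ha := lce_a_mem hp
  have hv4 : v ∈ Icc (0 : ℝ) 4 := ⟨hv.1.le, hv.2.le.trans ha.2⟩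
  have hR := env.regL p hp hN hsm l' (hp.lam_lo.trans hl) hl'
  have hδ : 0 ≤ Real.log (l' / p.lam) := Real.log_nonneg ((one_le_div h0).2 hl)
  have hL1 := (ll04c_L6 p.x hx hx1).1
  have k1 := ll04c_lam_b F hF 𝔹 hB p hp (by linarith [hE.s_hi]) (env.xb p hN) l' hl hl1 env.CR0 hR.b0 v hv4
  have k2 := ll04c_lam_h F hF 𝔹 hB hHe p hp hE hsm (env.xb p hN) l' hl hl1 env.CR0 hR
    (fun w hw => by
      obtain ⟨b0, b1⟩ := env.b_rg (p.wLm l') hok' hN w ⟨hw.1.le, hw.2.le⟩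
      rw [abs_of_nonneg b0]; exact b1)
    (fun w hw => by
      obtain ⟨q0, q1⟩ := env.q_rg p hp hN w hw
      rw [abs_of_nonneg q0]; exact q1) v hv
  have k3 : ll04cCb F B CR * Real.log (l' / p.lam) ≤ ll04cCb F B CR * Real.log (l' / p.lam) * (1 + Real.log (1 / p.x)) :=
    le_mul_of_one_le_right (mul_nonneg (ll04c_Cb_nn F hF hB0 env.CR0) hδ) hL1
  calc _ ≤ ll04cCb F B CR * Real.log (l' / p.lam) * (1 + Real.log (1 / p.x))
        + ll04cCh F B CR Cb CH * (1 + Real.log (1 / p.x)) * Real.log (l' / p.lam) := add_le_add (k1.trans k3) k2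
    _ = _ := by ring

theorem ll04c_tri {b1 b2 b3 h1 h2 h3 R S : ℝ} (h12 : |b1 - b2| + |h1 - h2| ≤ R) (h23 : |b2 - b3| + |h2 - h3| ≤ S) :
    |b1 - b3| + |h1 - h3| ≤ R + S := by
  have := abs_sub_le b1 b2 b3
  have := abs_sub_le h1 h2 h3
  linarith

theorem ll04c_D_le {𝔹 : LlBase} {F : LlFix} {p p' : LlPt} {R : ℝ} (ha0 : 0 ≤ p.a) (ha4 : p.a ≤ 4) (hR : 0 ≤ R)
    (h : ∀ v ∈ Ioo 0 p.a, |p.b F 𝔹 v - p'.b F 𝔹 v| + |p.h F 𝔹 v - p'.h F 𝔹 v| ≤ R) : ll04D 𝔹 F p p' ≤ 4 * R := by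
  unfold ll04D
  refine (ll04c_int_const (B := R) ha0 (fun v hv => ?_)).trans ?_
  · rw [abs_of_nonneg (by positivity)]; exact h v hv
  · nlinarith

/-- the strength sweep, parameter `τ` -/
theorem ll04c_dir0_pw (F : LlFix) (hF : F.Ok) (𝔹 : LlBase) {B Cb CR CT ξ0 CH : ℝ} {N0 : ℕ} (hB : ∀ w, |F.phi w| ≤ B) (env : Ll04cEnv 𝔹 F Cb CR CT ξ0 N0)
    (hHe : Ll04cHe 𝔹 F CH) (hE : LlExpOk F.sS F.eta F.pS) {N : ℕ} (hN : N0 ≤ N) {ell : ℝ} (hl : ell ∈ Icc (1 : ℝ) ((2 : ℝ) ^ (1 / 6 : ℝ)))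
    (γ : Fin (N + 1) → ℝ) (t t' : ℝ) (v : ℝ) (hv : v ∈ Ioo 0 ell) :
    |(ll04Dir F N ell 0 γ t).b F 𝔹 v - (ll04Dir F N ell 0 γ t').b F 𝔹 v| + |(ll04Dir F N ell 0 γ t).h F 𝔹 v - (ll04Dir F N ell 0 γ t').h F 𝔹 v|
      ≤ 12 * (ll04cCb F B CR + ll04cCh F B CR Cb CH) * (1 + Real.log (1 / skX N)) ^ 2 * |t - t'| := by
  have hN2 : 2 ≤ N := env.N2.trans hN
  have hp12 : F.pS ≤ 12 := by linarith [hE.p_hi]
  have hB0 : 0 ≤ B := (abs_nonneg _).trans (hB 0)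
  have hx := ll04w_x_mem (N := N) (by omega)
  have hCC : 0 ≤ ll04cCb F B CR + ll04cCh F B CR Cb CH := by
    have h1 := ll04c_Cb_nn F hF hB0 env.CR0
    have h2 := env.Cb0
    have h3 := env.CR0
    have h4 := hHe.nn
    unfold ll04cCh
    positivity
  have hL0 := lcd_L_ge (skX N) hx.1 hx.2
  have key : ∀ t t' : ℝ, ll04U 1 t ≤ ll04U 1 t' →
      |(ll04Dir F N ell 0 γ t').b F 𝔹 v - (ll04Dir F N ell 0 γ t).b F 𝔹 v| + |(ll04Dir F N ell 0 γ t').h F 𝔹 v - (ll04Dir F N ell 0 γ t).h F 𝔹 v|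
        ≤ 12 * (ll04cCb F B CR + ll04cCh F B CR Cb CH) * (1 + Real.log (1 / skX N)) ^ 2 * |t - t'| := by
    intro t t' huu
    have hok := ll04c_ok F hp12 hN2 hl 0 γ t
    have hok' := ll04c_ok F hp12 hN2 hl 0 γ t'
    have hlam : (ll04Dir F N ell 0 γ t).lam = skX N ^ (12 * (1 - ll04U 1 t) + F.pS * ll04U 1 t) := by rw [ll04c_dir0]; rfl
    have hlam' : (ll04Dir F N ell 0 γ t').lam = skX N ^ (12 * (1 - ll04U 1 t') + F.pS * ll04U 1 t') := by rw [ll04c_dir0]; rfl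
    have e' : ll04Dir F N ell 0 γ t' = (ll04Dir F N ell 0 γ t).wLm (skX N ^ (12 * (1 - ll04U 1 t') + F.pS * ll04U 1 t')) := by
      rw [ll04c_dir0, ll04c_dir0]; rfl
    have hle : (ll04Dir F N ell 0 γ t).lam ≤ skX N ^ (12 * (1 - ll04U 1 t') + F.pS * ll04U 1 t') := by
      rw [hlam]
      exact Real.rpow_le_rpow_of_exponent_ge hx.1 hx.2 (by nlinarith)
    have hhi : skX N ^ (12 * (1 - ll04U 1 t') + F.pS * ll04U 1 t') ≤ (ll04Dir F N ell 0 γ t).x ^ F.pS := by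
      have := hok'.lam_hi
      rw [hlam'] at this
      exact this
    have k := ll04c_lam_pw F hF 𝔹 hB env hHe hE (ll04Dir F N ell 0 γ t) hok hN rfl _ hle hhi v hv
    rw [← e'] at k
    refine k.trans ?_
    have hlog : Real.log (skX N ^ (12 * (1 - ll04U 1 t') + F.pS * ll04U 1 t') / (ll04Dir F N ell 0 γ t).lam)
        = (12 - F.pS) * (ll04U 1 t' - ll04U 1 t) * Real.log (1 / skX N) := by
      rw [hlam, Real.log_div (Real.rpow_pos_of_pos hx.1 _).ne' (Real.rpow_pos_of_pos hx.1 _).ne', Real.log_rpow hx.1, Real.log_rpow hx.1,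
        one_div, Real.log_inv]
      ring
    rw [hlog]
    have hu : ll04U 1 t' - ll04U 1 t ≤ |t - t'| := by
      have := ll04c_U_lip 1 t' t
      rw [abs_sub_comm t t']
      exact (le_abs_self _).trans this
    have h1 : (12 - F.pS) * (ll04U 1 t' - ll04U 1 t) * Real.log (1 / skX N) ≤ 12 * |t - t'| * (1 + Real.log (1 / skX N)) := by
      refine mul_le_mul (mul_le_mul (by linarith [hE.p_lo]) hu (by linarith) (by norm_num)) (by linarith) hL0 (by positivity)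
    have hxx : (ll04Dir F N ell 0 γ t).x = skX N := rfl
    rw [hxx]
    calc (ll04cCb F B CR + ll04cCh F B CR Cb CH) * (1 + Real.log (1 / skX N)) * ((12 - F.pS) * (ll04U 1 t' - ll04U 1 t) * Real.log (1 / skX N))
        ≤ (ll04cCb F B CR + ll04cCh F B CR Cb CH) * (1 + Real.log (1 / skX N)) * (12 * |t - t'| * (1 + Real.log (1 / skX N))) :=
          mul_le_mul_of_nonneg_left h1 (mul_nonneg hCC (by linarith))
      _ = _ := by ring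
  rcases le_total (ll04U 1 t) (ll04U 1 t') with h | h
  · have := key t t' h
    rwa [abs_sub_comm ((ll04Dir F N ell 0 γ t').b F 𝔹 v), abs_sub_comm ((ll04Dir F N ell 0 γ t').h F 𝔹 v)] at this
  · have := key t' t h
    rwa [abs_sub_comm t' t] at this

/-- the multiplier sweeps, parameter `τ` -/
theorem ll04c_dir12_pw (F : LlFix) (hF : F.Ok) (𝔹 : LlBase) {CH : ℝ} (hHe : Ll04cHe 𝔹 F CH) (hE : LlExpOk F.sS F.eta F.pS) {N : ℕ} (hN2 : 2 ≤ N)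
    {ell : ℝ} (hl : ell ∈ Icc (1 : ℝ) ((2 : ℝ) ^ (1 / 6 : ℝ))) (i : Fin 3) (hi : i ≠ 0) (γ : Fin (N + 1) → ℝ) (t t' : ℝ) (v : ℝ) (hv : v ∈ Ioo 0 ell) :
    |(ll04Dir F N ell i γ t).b F 𝔹 v - (ll04Dir F N ell i γ t').b F 𝔹 v| + |(ll04Dir F N ell i γ t).h F 𝔹 v - (ll04Dir F N ell i γ t').h F 𝔹 v|
      ≤ (2 + CH) * |t - t'| := by
  have hp12 : F.pS ≤ 12 := by linarith [hE.p_hi]
  have hok := ll04c_ok F hp12 hN2 hl i γ t
  have hCH := hHe.nn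
  have hu := ll04c_U_lip 1 t' t
  rw [abs_sub_comm t' t] at hu
  have hd := abs_nonneg (t - t')
  have hi' : i = 1 ∨ i = 2 := by fin_cases i <;> simp_all
  rcases hi' with rfl | rfl
  · have e' : ll04Dir F N ell 1 γ t' = (ll04Dir F N ell 1 γ t).wChi (ll04U 1 t') 1 := by rw [ll04c_dir1, ll04c_dir1]; rfl
    have k := ll04c_chi_h F hF 𝔹 hHe (ll04Dir F N ell 1 γ t) hok hE.e_lo.le rfl (ll04U 1 t') 1 v hv
    rw [← e'] at k
    have e1 : (ll04Dir F N ell 1 γ t).chiL = ll04U 1 t := by rw [ll04c_dir1]; rfl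
    have e2 : (ll04Dir F N ell 1 γ t).chiE = 1 := by rw [ll04c_dir1]; rfl
    have e3 : (ll04Dir F N ell 1 γ t).b F 𝔹 v = (ll04Dir F N ell 1 γ t').b F 𝔹 v := by rw [e']; rfl
    rw [e1, e2, sub_self, abs_zero, mul_zero, add_zero] at k
    rw [e3, sub_self, abs_zero, zero_add, abs_sub_comm]
    nlinarith
  · have e' : ll04Dir F N ell 2 γ t' = (ll04Dir F N ell 2 γ t).wChi 1 (1 - ll04U 1 t') := by rw [ll04c_dir2, ll04c_dir2]; rfl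
    have k := ll04c_chi_h F hF 𝔹 hHe (ll04Dir F N ell 2 γ t) hok hE.e_lo.le rfl 1 (1 - ll04U 1 t') v hv
    rw [← e'] at k
    have e1 : (ll04Dir F N ell 2 γ t).chiL = 1 := by rw [ll04c_dir2]; rfl
    have e2 : (ll04Dir F N ell 2 γ t).chiE = 1 - ll04U 1 t := by rw [ll04c_dir2]; rfl
    have e3 : (ll04Dir F N ell 2 γ t).b F 𝔹 v = (ll04Dir F N ell 2 γ t').b F 𝔹 v := by rw [e']; rfl
    have e4 : |1 - ll04U 1 t' - (1 - ll04U 1 t)| = |ll04U 1 t' - ll04U 1 t| := by rw [← abs_neg]; congr 1; ring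
    rw [e1, e2, sub_self, abs_zero, mul_zero, zero_add, e4] at k
    rw [e3, sub_self, abs_zero, zero_add, abs_sub_comm]
    nlinarith

/-! ## 10. the size segment -/

theorem ll04c_siz_a (F : LlFix) (N : ℕ) (Θ : ℝ) (γ : Fin (N + 1) → ℝ) (θ : ℝ) : (ll04Siz F N Θ γ θ).a = 4 := by
  simp [LlPt.a, ll04Siz, ll04Pt]

/-- the constant of the size segment -/
noncomputable def ll04cCs (F : LlFix) (B Cb CT : ℝ) : ℝ := 8 * ll04cCg F B + (1 + Cb) * CT + 4 * (2 * (CT + Cb) + 2)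

theorem ll04c_siz_lip (F : LlFix) (hF : F.Ok) (𝔹 : LlBase) {B Cb CR CT ξ0 : ℝ} {N0 : ℕ} (hB : ∀ w, |F.phi w| ≤ B) (env : Ll04cEnv 𝔹 F Cb CR CT ξ0 N0)
    (hE : LlExpOk F.sS F.eta F.pS) {N : ℕ} (hN : N0 ≤ N) {Θ : ℝ} (hΘ : Θ ∈ Icc (0 : ℝ) (Real.log 2)) (γ γ' : Fin (N + 1) → ℝ) (θ θ' : ℝ) :
    ll04D 𝔹 F (ll04Siz F N Θ γ θ) (ll04Siz F N Θ γ' θ') ≤ ll04cCs F B Cb CT * (1 + Real.log (1 / skX N)) ^ 6 * (|θ - θ'| + dist γ γ') := by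
  have hN2 : 2 ≤ N := env.N2.trans hN
  have hp12 : F.pS ≤ 12 := by linarith [hE.p_hi]
  have hB0 : 0 ≤ B := (abs_nonneg _).trans (hB 0)
  have hx := ll04w_x_mem (N := N) (by omega)
  obtain ⟨hL1, _⟩ := ll04c_L6 (skX N) hx.1 hx.2
  set L := 1 + Real.log (1 / skX N) with hL
  have hCg := ll04c_Cg_nn F hF hB0
  have hCb := env.Cb0
  have hCT := env.CT0
  have hd : 0 ≤ dist γ γ' := dist_nonneg
  have hok := ll04w_ok F hp12 hN2 hΘ γ θ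
  have hok1 := ll04w_ok F hp12 hN2 hΘ γ' θ
  have hok2 := ll04w_ok F hp12 hN2 hΘ γ' θ'
  have hu : ll04U Θ θ ∈ Icc 0 (Real.log 2) := ⟨(ll04w_U_mem hΘ.1 θ).1, (ll04w_U_mem hΘ.1 θ).2.trans hΘ.2⟩
  have hu' : ll04U Θ θ' ∈ Icc 0 (Real.log 2) := ⟨(ll04w_U_mem hΘ.1 θ').1, (ll04w_U_mem hΘ.1 θ').2.trans hΘ.2⟩
  set p1 := ll04Siz F N Θ γ' θ with hp1
  have e1 : p1.wTh (ll04U Θ θ) = p1 := rfl
  have e2 : p1.wTh (ll04U Θ θ') = ll04Siz F N Θ γ' θ' := rfl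
  set δ := |ll04U Θ θ' - ll04U Θ θ| with hδ
  have hδ0 : 0 ≤ δ := abs_nonneg _
  have hδle : δ ≤ |θ - θ'| := by rw [hδ, abs_sub_comm θ θ']; exact ll04c_U_lip Θ θ' θ
  have ha : (ll04Siz F N Θ γ θ).a = 4 := ll04c_siz_a F N Θ γ θ
  have ha1 : p1.a = 4 := ll04c_siz_a F N Θ γ' θ
  have ha2 : (ll04Siz F N Θ γ' θ').a = 4 := ll04c_siz_a F N Θ γ' θ'
  have hb0 := ll04c_th_b0 F 𝔹 p1 hu hu' (env.regTb p1 hok1 hN rfl _ hu _ hu') (env.b0_rg p1 hok1 hN)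
  have hl1 := env.regTl p1 hok1 hN rfl _ hu _ hu'
  rw [e1, e2] at hb0 hl1
  -- the majorant
  set D : ℝ → ℝ := fun v => |(ll04Siz F N Θ γ' θ').K F 𝔹 v - p1.K F 𝔹 v| + |(ll04Siz F N Θ γ' θ').q F 𝔹 v - p1.q F 𝔹 v| with hD
  have hDint : IntervalIntegrable D volume 0 4 := by
    have i1 : IntervalIntegrable (p1.K F 𝔹) volume 0 4 := by
      have := env.mK p1 hok1 hN
      rw [ha1] at this
      exact MonotoneOn.intervalIntegrable (by rwa [uIcc_of_le (by norm_num : (0 : ℝ) ≤ 4)])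
    have i2 : IntervalIntegrable ((ll04Siz F N Θ γ' θ').K F 𝔹) volume 0 4 := by
      have := env.mK _ hok2 hN
      rw [ha2] at this
      exact MonotoneOn.intervalIntegrable (by rwa [uIcc_of_le (by norm_num : (0 : ℝ) ≤ 4)])
    have i3 : IntervalIntegrable (p1.q F 𝔹) volume 0 4 := by
      have := env.mq p1 hok1 hN
      rw [ha1] at this
      exact MonotoneOn.intervalIntegrable (by rwa [uIcc_of_le (by norm_num : (0 : ℝ) ≤ 4)])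
    have i4 : IntervalIntegrable ((ll04Siz F N Θ γ' θ').q F 𝔹) volume 0 4 := by
      have := env.mq _ hok2 hN
      rw [ha2] at this
      exact MonotoneOn.intervalIntegrable (by rwa [uIcc_of_le (by norm_num : (0 : ℝ) ≤ 4)])
    exact (i2.sub i1).abs.add (i4.sub i3).abs
  have hpw : ∀ v ∈ Ioo (0 : ℝ) 4, |(ll04Siz F N Θ γ θ).b F 𝔹 v - (ll04Siz F N Θ γ' θ').b F 𝔹 v| + |(ll04Siz F N Θ γ θ).h F 𝔹 v - (ll04Siz F N Θ γ' θ').h F 𝔹 v|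
      ≤ (2 * ll04cCg F B * dist γ γ' + (2 * (CT + Cb) + 2) * δ) + (1 + Cb) * D v := by
    intro v hv
    have k1 : |(ll04Siz F N Θ γ θ).b F 𝔹 v - p1.b F 𝔹 v| + |(ll04Siz F N Θ γ θ).h F 𝔹 v - p1.h F 𝔹 v| ≤ 2 * ll04cCg F B * dist γ γ' :=
      ll04c_gam_pw F hF 𝔹 hB env N _ _ _ _ true γ γ' hok hN v (by
        show v ∈ Ioo 0 (ll04Siz F N Θ γ θ).a
        rw [ha]; exact hv)
    have kb : |(ll04Siz F N Θ γ' θ').b F 𝔹 v - p1.b F 𝔹 v| ≤ (CT + Cb) * δ := by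
      have := ll04c_th_b F 𝔹 p1 (ll04U Θ θ) (ll04U Θ θ') v
      rw [e1, e2] at this
      rw [this]; exact hb0
    have kh := ll04c_th_h F hF 𝔹 p1 hok1 hE.e_lo.le rfl hu hu' (C0 := CT + Cb) (Cb := Cb) (by rw [e1, e2]; exact hb0) v hv.1
      (by
        rw [e2]
        obtain ⟨b0, b1⟩ := env.b_rg _ hok2 hN v (by rw [ha2]; exact ⟨hv.1.le, hv.2.le⟩)
        rw [abs_of_nonneg b0]; exact b1)
      (by
        rw [e1]
        obtain ⟨q0, q1⟩ := env.q_rg p1 hok1 hN v (by rw [ha1]; exact hv)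
        rw [abs_of_nonneg q0]; exact q1)
    rw [e1, e2] at kh
    have k2 : |p1.b F 𝔹 v - (ll04Siz F N Θ γ' θ').b F 𝔹 v| + |p1.h F 𝔹 v - (ll04Siz F N Θ γ' θ').h F 𝔹 v| ≤ (2 * (CT + Cb) + 2) * δ + (1 + Cb) * D v := by
      rw [abs_sub_comm (p1.b F 𝔹 v), abs_sub_comm (p1.h F 𝔹 v)]
      have n1 := abs_nonneg ((ll04Siz F N Θ γ' θ').K F 𝔹 v - p1.K F 𝔹 v)
      have n2 := abs_nonneg ((ll04Siz F N Θ γ' θ').q F 𝔹 v - p1.q F 𝔹 v)
      have : (1 + Cb) * D v = |(ll04Siz F N Θ γ' θ').K F 𝔹 v - p1.K F 𝔹 v| + Cb * |(ll04Siz F N Θ γ' θ').q F 𝔹 v - p1.q F 𝔹 v|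
          + (Cb * |(ll04Siz F N Θ γ' θ').K F 𝔹 v - p1.K F 𝔹 v| + |(ll04Siz F N Θ γ' θ').q F 𝔹 v - p1.q F 𝔹 v|) := by
        simp only [hD]; ring
      have n3 := mul_nonneg hCb n1
      linarith
    have := ll04c_tri k1 k2
    linarith
  unfold ll04D
  rw [ha]
  have hgi : IntervalIntegrable (fun v => (2 * ll04cCg F B * dist γ γ' + (2 * (CT + Cb) + 2) * δ) + (1 + Cb) * D v) volume 0 4 :=
    intervalIntegrable_const.add (hDint.const_mul _)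
  refine (ll04c_int_mono (by norm_num) (fun v _ => by positivity) hgi hpw).trans ?_
  rw [intervalIntegral.integral_add intervalIntegrable_const (hDint.const_mul _), intervalIntegral.integral_const, intervalIntegral.integral_const_mul]
  have hM : p1.M ^ 2 ≤ L ^ 6 := by
    have h1 : p1.M = Real.log (1 / skX N) ^ 3 := rfl
    have h0 := lcd_L_ge (skX N) hx.1 hx.2
    rw [h1, ← pow_mul]
    exact pow_le_pow_left₀ h0 (by linarith) _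
  have h6 : 1 ≤ L ^ 6 := one_le_pow₀ hL1
  have hI : (1 + Cb) * ∫ v in (0 : ℝ)..4, D v ≤ (1 + Cb) * (CT * L ^ 6 * δ) := by
    refine mul_le_mul_of_nonneg_left (hl1.trans ?_) (by linarith)
    exact mul_le_mul_of_nonneg_right (mul_le_mul_of_nonneg_left hM hCT) hδ0
  have hT0 : 0 ≤ |θ - θ'| := abs_nonneg _
  simp only [sub_zero, smul_eq_mul]
  unfold ll04cCs
  have s1 : 8 * ll04cCg F B * dist γ γ' ≤ 8 * ll04cCg F B * dist γ γ' * L ^ 6 := le_mul_of_one_le_right (by positivity) h6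
  have s2 : 4 * (2 * (CT + Cb) + 2) * δ ≤ 4 * (2 * (CT + Cb) + 2) * |θ - θ'| * L ^ 6 :=
    (mul_le_mul_of_nonneg_left hδle (by positivity)).trans (le_mul_of_one_le_right (by positivity) h6)
  have s3 : (1 + Cb) * (CT * L ^ 6 * δ) ≤ (1 + Cb) * CT * |θ - θ'| * L ^ 6 := by
    calc (1 + Cb) * (CT * L ^ 6 * δ) = (1 + Cb) * CT * L ^ 6 * δ := by ring
      _ ≤ (1 + Cb) * CT * L ^ 6 * |θ - θ'| := mul_le_mul_of_nonneg_left hδle (by positivity)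
      _ = _ := by ring
  have s4 : 0 ≤ ((1 + Cb) * CT + 4 * (2 * (CT + Cb) + 2)) * L ^ 6 * dist γ γ' := by positivity
  have s5 : 0 ≤ 8 * ll04cCg F B * L ^ 6 * |θ - θ'| := by positivity
  nlinarith

/-! ## 11. (CLK) -/

theorem ll04c_fin {A S L X y : ℝ} (hA : 0 ≤ A) (hAS : A ≤ S) (hX : L ^ 6 ≤ 49 ^ 6 * X) (hL : 0 ≤ L ^ 6) (hy : 0 ≤ y) :
    A * L ^ 6 * y ≤ 49 ^ 6 * S * X * y := by
  calc A * L ^ 6 * y ≤ S * (49 ^ 6 * X) * y := mul_le_mul_of_nonneg_right (mul_le_mul hAS hX hL (hA.trans hAS)) hy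
    _ = _ := by ring

/-- the direct segments: `L¹` Lipschitz bound -/
theorem ll04c_dir_lip (F : LlFix) (hF : F.Ok) (𝔹 : LlBase) {B Cb CR CT ξ0 CH : ℝ} {N0 : ℕ} (hB : ∀ w, |F.phi w| ≤ B) (env : Ll04cEnv 𝔹 F Cb CR CT ξ0 N0)
    (hHe : Ll04cHe 𝔹 F CH) (hE : LlExpOk F.sS F.eta F.pS) {N : ℕ} (hN : N0 ≤ N) {ell : ℝ} (hl : ell ∈ Icc (1 : ℝ) ((2 : ℝ) ^ (1 / 6 : ℝ))) (i : Fin 3)
    (γ γ' : Fin (N + 1) → ℝ) (t t' : ℝ) :
    ll04D 𝔹 F (ll04Dir F N ell i γ t) (ll04Dir F N ell i γ' t')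
      ≤ 4 * (2 * ll04cCg F B + (12 * (ll04cCb F B CR + ll04cCh F B CR Cb CH) + (2 + CH))) * (1 + Real.log (1 / skX N)) ^ 6 * (|t - t'| + dist γ γ') := by
  have hN2 : 2 ≤ N := env.N2.trans hN
  have hp12 : F.pS ≤ 12 := by linarith [hE.p_hi]
  have hB0 : 0 ≤ B := (abs_nonneg _).trans (hB 0)
  have hx := ll04w_x_mem (N := N) (by omega)
  obtain ⟨hL1, _⟩ := ll04c_L6 (skX N) hx.1 hx.2
  set L := 1 + Real.log (1 / skX N) with hL
  have hCg := ll04c_Cg_nn F hF hB0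
  have hCH := hHe.nn
  have hCC : 0 ≤ ll04cCb F B CR + ll04cCh F B CR Cb CH := by
    have h1 := ll04c_Cb_nn F hF hB0 env.CR0
    have h2 := env.Cb0
    have h3 := env.CR0
    unfold ll04cCh
    positivity
  have hd : 0 ≤ dist γ γ' := dist_nonneg
  have hT0 : 0 ≤ |t - t'| := abs_nonneg _
  have hok := ll04c_ok F hp12 hN2 hl i γ t
  have ha : (ll04Dir F N ell i γ t).a = ell := lce_a_direct rfl
  have h2 := ll04c_Lk hL1 2 (by norm_num)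
  have h6 : 1 ≤ L ^ 6 := one_le_pow₀ hL1
  have h22 : 1 ≤ L ^ 2 := one_le_pow₀ hL1
  have hpw : ∀ v ∈ Ioo 0 (ll04Dir F N ell i γ t).a,
      |(ll04Dir F N ell i γ t).b F 𝔹 v - (ll04Dir F N ell i γ' t').b F 𝔹 v| + |(ll04Dir F N ell i γ t).h F 𝔹 v - (ll04Dir F N ell i γ' t').h F 𝔹 v|
        ≤ (2 * ll04cCg F B + (12 * (ll04cCb F B CR + ll04cCh F B CR Cb CH) + (2 + CH))) * L ^ 6 * (|t - t'| + dist γ γ') := by
    intro v hv
    have k1 : |(ll04Dir F N ell i γ t).b F 𝔹 v - (ll04Dir F N ell i γ' t).b F 𝔹 v| + |(ll04Dir F N ell i γ t).h F 𝔹 v - (ll04Dir F N ell i γ' t).h F 𝔹 v|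
        ≤ 2 * ll04cCg F B * dist γ γ' := ll04c_gam_pw F hF 𝔹 hB env N _ _ _ _ false γ γ' hok hN v hv
    rw [ha] at hv
    have k2 : |(ll04Dir F N ell i γ' t).b F 𝔹 v - (ll04Dir F N ell i γ' t').b F 𝔹 v| + |(ll04Dir F N ell i γ' t).h F 𝔹 v - (ll04Dir F N ell i γ' t').h F 𝔹 v|
        ≤ (12 * (ll04cCb F B CR + ll04cCh F B CR Cb CH) + (2 + CH)) * L ^ 6 * |t - t'| := by
      by_cases hi : i = 0
      · subst hi
        refine (ll04c_dir0_pw F hF 𝔹 hB env hHe hE hN hl γ' t t' v hv).trans ?_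
        refine mul_le_mul_of_nonneg_right ?_ hT0
        calc 12 * (ll04cCb F B CR + ll04cCh F B CR Cb CH) * L ^ 2 ≤ 12 * (ll04cCb F B CR + ll04cCh F B CR Cb CH) * L ^ 6 :=
              mul_le_mul_of_nonneg_left h2 (by positivity)
          _ ≤ (12 * (ll04cCb F B CR + ll04cCh F B CR Cb CH) + (2 + CH)) * L ^ 6 :=
              mul_le_mul_of_nonneg_right (by linarith) (by positivity)
      · refine (ll04c_dir12_pw F hF 𝔹 hHe hE hN2 hl i hi γ' t t' v hv).trans ?_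
        refine mul_le_mul_of_nonneg_right ?_ hT0
        calc 2 + CH ≤ (2 + CH) * L ^ 6 := le_mul_of_one_le_right (by linarith) h6
          _ ≤ (12 * (ll04cCb F B CR + ll04cCh F B CR Cb CH) + (2 + CH)) * L ^ 6 :=
              mul_le_mul_of_nonneg_right (by linarith) (by positivity)
    have k3 := ll04c_tri k1 k2
    have s1 : 2 * ll04cCg F B * dist γ γ' ≤ 2 * ll04cCg F B * dist γ γ' * L ^ 6 := le_mul_of_one_le_right (by positivity) h6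
    have s2 : 0 ≤ 2 * ll04cCg F B * L ^ 6 * |t - t'| := by positivity
    have s3 : 0 ≤ (12 * (ll04cCb F B CR + ll04cCh F B CR Cb CH) + (2 + CH)) * L ^ 6 * dist γ γ' := by positivity
    nlinarith
  have := ll04c_D_le (𝔹 := 𝔹) (F := F) (p := ll04Dir F N ell i γ t) (p' := ll04Dir F N ell i γ' t') (by rw [ha]; linarith [hl.1]) (lce_a_mem hok).2
    (by positivity) hpw
  calc _ ≤ _ := this
    _ = _ := by ring

/-- **SUPPLY (CLK)** from the environment -/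
theorem ll04c_clk (F : LlFix) (hF : F.Ok) (𝔹 : LlBase) (hP : LlBaseProfile 𝔹 F.T) {Cb CR CT ξ0 CH : ℝ} {N0 : ℕ} (env : Ll04cEnv 𝔹 F Cb CR CT ξ0 N0)
    (hHe : Ll04cHe 𝔹 F CH) (hE : LlExpOk F.sS F.eta F.pS) : Ll04Clk 𝔹 F := by
  obtain ⟨B, hB0, hB⟩ := ll04c_phi_bd F hF
  have hCg := ll04c_Cg_nn F hF hB0
  have hCH := hHe.nn
  have hCb := env.Cb0
  have hCT := env.CT0
  have hCC : 0 ≤ ll04cCb F B CR + ll04cCh F B CR Cb CH := by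
    have h1 := ll04c_Cb_nn F hF hB0 env.CR0
    have h3 := env.CR0
    unfold ll04cCh
    positivity
  have hp12 : F.pS ≤ 12 := by linarith [hE.p_hi]
  set A1 := Cb + 𝔹.xiS F.T + CH + 4 with hA1
  set A2 := 4 * (2 * ll04cCg F B + (12 * (ll04cCb F B CR + ll04cCh F B CR Cb CH) + (2 + CH))) with hA2
  set A3 := ll04cCs F B Cb CT with hA3
  have a1 : 0 ≤ A1 := by have := hP.xi_pos; rw [hA1]; positivity
  have a2 : 0 ≤ A2 := by rw [hA2]; positivity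
  have a3 : 0 ≤ A3 := by rw [hA3]; unfold ll04cCs; positivity
  refine ⟨49 ^ 6 * (A1 + A2 + A3), N0, fun N hN => ?_⟩
  have hN2 : 2 ≤ N := env.N2.trans hN
  have hx := ll04w_x_mem (N := N) (by omega)
  obtain ⟨hL1, hL6⟩ := ll04c_L6 (skX N) hx.1 hx.2
  have h60 : 0 ≤ (1 + Real.log (1 / skX N)) ^ 6 := by positivity
  have gen : ∀ pt : (Fin (N + 1) → ℝ) → ℝ → LlPt, (∀ γ t, (pt γ t).Ok F) → (∀ γ t, (pt γ t).N = N) → ∀ A : ℝ, 0 ≤ A → A ≤ A1 + A2 + A3 →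
      (∀ γ γ' t t', ll04D 𝔹 F (pt γ t) (pt γ' t') ≤ A * (1 + Real.log (1 / skX N)) ^ 6 * (|t - t'| + dist γ γ')) →
      Ll04ClkAt 𝔹 F (49 ^ 6 * (A1 + A2 + A3)) N pt := by
    intro pt hok hNN A hA hAS hlip
    have hNp : ∀ γ t, N0 ≤ (pt γ t).N := fun γ t => by rw [hNN]; exact hN
    have h0a : ∀ γ t, (0 : ℝ) ∈ Icc 0 (pt γ t).a := fun γ t => ⟨le_rfl, by linarith [(lce_a_mem (hok γ t)).1]⟩
    refine ⟨fun γ t => ⟨env.mb _ (hok γ t) (hNp γ t), (env.b_rg _ (hok γ t) (hNp γ t) 0 (h0a γ t)).1⟩,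
      fun γ t => ⟨env.mh _ (hok γ t) (hNp γ t), env.h_nn _ (hok γ t) (hNp γ t) 0 (h0a γ t)⟩, fun γ t => ?_, fun γ γ' t t' => ?_⟩
    · have k := ll04c_bd F hF 𝔹 hP env hHe hE.e_lo.le (pt γ t) (hok γ t) (hNp γ t)
      have hxx : (pt γ t).x = skX N := by unfold LlPt.x skX; rw [hNN]
      rw [hxx] at k
      have := ll04c_fin (A := A1) (S := A1 + A2 + A3) a1 (by linarith) hL6 h60 zero_le_one
      linarith
    · exact (hlip γ γ' t t').trans (ll04c_fin hA hAS hL6 h60 (add_nonneg (abs_nonneg _) dist_nonneg))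
  refine ⟨fun ell hl i => ?_, fun Θ hΘ => ?_⟩
  · exact gen _ (fun γ t => ll04c_ok F hp12 hN2 hl i γ t) (fun _ _ => rfl) A2 a2 (by linarith)
      (fun γ γ' t t' => ll04c_dir_lip F hF 𝔹 hB env hHe hE hN hl i γ γ' t t')
  · exact gen _ (fun γ t => ll04w_ok F hp12 hN2 hΘ γ t) (fun _ _ => rfl) A3 a3 (by linarith)
      (fun γ γ' t t' => ll04c_siz_lip F hF 𝔹 hB env hE hN hΘ γ γ' t t')

end Claimed.Agent.R286
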