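import Claimed.Agent.R286.LL04.Clk
import Claimed.Agent.R286.Brg.Osc
import Claimed.Agent.R286.Exit.LlClk

/-!
# Row 286 (S0533), unit LL04, file ClkSup: THE CLOCK VALUES AT THE POSITIONS OF A CHAIN ALONG THE FOUR SEGMENTS      (owner helper258; prefix `ll04v_`, `Ll04v`)

"VALUES" of the node REG of LL 09 (`L9Reg`; design note `origin/helper216:notes/R286/REG_216.md`, secs. 1, 2; order of helper136).   Abstract base `𝔹`; hypotheses `LlBaseProfile`, `LlSec3`, `LlExpOk`.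
* §0  TRANSFER: a linear inequality between monotone clocks on `(0,a)` (all left continuous at `a`) holds for their values `ghAt a c p` at every valid position.
* §1  (V1) `Ll04vAt`: sup-norm twin of `Ll04ClkAt`: the values of `b, h, K` at a position are jointly Lipschitz in (segment parameter, `γ`).
* §2  (V2) `Ll04vDom`: the size path: `K` is ANTITONE in `θ`, `0 ≤ K ≤ ξ_* + M`, and `b, h` are dominated by the variation of `K` (no inverse power of `ω`).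
-/

set_option autoImplicit false

namespace Claimed.Agent.R286

open MeasureTheory Set Filter Topology Function

/-! ## 0. transfer to positions -/

/-- the clamped clock inside `(0,a]` -/
theorem ll04v_clamp_of_pos {a : ℝ} (c : ℝ → ℝ) {y : ℝ} (hy : 0 < y) : ghClamp a c y = c (min y a) := by
  unfold ghClamp
  rw [if_neg (by linarith)]

/-- a linear inequality on `(0,a)` extends to `v = a` by left continuity -/
theorem ll04v_lin_end {a : ℝ} (ha : 0 < a) {ι : Type} (s : Finset ι) (α : ι → ℝ) (c : ι → ℝ → ℝ)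
    (hend : ∀ i ∈ s, Tendsto (c i) (𝓝[<] a) (𝓝 (c i a))) {R : ℝ} (h : ∀ v ∈ Ioo 0 a, ∑ i ∈ s, α i * c i v ≤ R) :
    ∀ v ∈ Ioc 0 a, ∑ i ∈ s, α i * c i v ≤ R := by
  intro v hv
  rcases lt_or_eq_of_le hv.2 with h1 | h1
  · exact h v ⟨hv.1, h1⟩
  · subst h1
    have ht : Tendsto (fun y => ∑ i ∈ s, α i * c i y) (𝓝[<] v) (𝓝 (∑ i ∈ s, α i * c i v)) :=
      tendsto_finsetSum s fun i hi => (hend i hi).const_mul (α i)
    refine le_of_tendsto ht ?_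
    filter_upwards [Ioo_mem_nhdsLT ha] with y hy using h y hy

/-- **TRANSFER**: a linear inequality between monotone clocks passes to the values at a valid position -/
theorem ll04v_at_lin {a : ℝ} (ha : 0 < a) {ι : Type} (s : Finset ι) (α : ι → ℝ) (c : ι → ℝ → ℝ) (hc : ∀ i ∈ s, GhClk1 a (c i))
    {R : ℝ} (hR : 0 ≤ R) (h : ∀ v ∈ Ioc 0 a, ∑ i ∈ s, α i * c i v ≤ R) {p : GhPos} (hp : p.Ok a) :
    ∑ i ∈ s, α i * ghAt a (c i) p ≤ R := by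
  have hm : ∀ i ∈ s, Monotone (ghClamp a (c i)) := fun i hi => gh_os_clamp_mono ha.le (hc i hi)
  have hL : ∑ i ∈ s, α i * leftLim (ghClamp a (c i)) p.u ≤ R := by
    have ht : Tendsto (fun y => ∑ i ∈ s, α i * ghClamp a (c i) y) (𝓝[<] p.u) (𝓝 (∑ i ∈ s, α i * leftLim (ghClamp a (c i)) p.u)) :=
      tendsto_finsetSum s fun i hi => ((hm i hi).tendsto_leftLim p.u).const_mul (α i)
    refine le_of_tendsto ht ?_
    rcases lt_or_eq_of_le hp.1 with h0 | h0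
    · filter_upwards [Ioo_mem_nhdsLT h0] with y hy
      have hya : y ≤ a := hy.2.le.trans hp.2.1
      have e : ∀ i ∈ s, α i * ghClamp a (c i) y = α i * c i y := fun i _ => by rw [ll04v_clamp_of_pos _ hy.1, min_eq_left hya]
      rw [Finset.sum_congr rfl e]
      exact h y ⟨hy.1, hya⟩
    · filter_upwards [self_mem_nhdsWithin] with y hy
      have hy0 : y < 0 := by rw [h0]; exact hy
      have e : ∀ i ∈ s, α i * ghClamp a (c i) y = 0 := fun i _ => by unfold ghClamp; rw [if_pos hy0, mul_zero]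
      rw [Finset.sum_eq_zero e]
      exact hR
  have hRt : ∑ i ∈ s, α i * rightLim (ghClamp a (c i)) p.u ≤ R := by
    have ht : Tendsto (fun y => ∑ i ∈ s, α i * ghClamp a (c i) y) (𝓝[>] p.u) (𝓝 (∑ i ∈ s, α i * rightLim (ghClamp a (c i)) p.u)) :=
      tendsto_finsetSum s fun i hi => ((hm i hi).tendsto_rightLim p.u).const_mul (α i)
    refine le_of_tendsto ht ?_
    filter_upwards [self_mem_nhdsWithin] with y hy
    have hy0 : 0 < y := lt_of_le_of_lt hp.1 hy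
    have e : ∀ i ∈ s, α i * ghClamp a (c i) y = α i * c i (min y a) := fun i _ => by rw [ll04v_clamp_of_pos _ hy0]
    rw [Finset.sum_congr rfl e]
    exact h _ ⟨lt_min hy0 ha, min_le_right _ _⟩
  have e : ∑ i ∈ s, α i * ghAt a (c i) p
      = (1 - p.lam) * ∑ i ∈ s, α i * leftLim (ghClamp a (c i)) p.u + p.lam * ∑ i ∈ s, α i * rightLim (ghClamp a (c i)) p.u := by
    rw [Finset.mul_sum, Finset.mul_sum, ← Finset.sum_add_distrib]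
    refine Finset.sum_congr rfl fun i _ => ?_
    unfold ghAt
    ring
  rw [e]
  have h1 := mul_le_mul_of_nonneg_left hL (sub_nonneg.2 hp.2.2.2)
  have h2 := mul_le_mul_of_nonneg_left hRt hp.2.2.1
  nlinarith

/-- two clocks: a sup bound passes to positions -/
theorem ll04v_at_sub {a : ℝ} (ha : 0 < a) {c c' : ℝ → ℝ} (hc : GhClk1 a c) (hc' : GhClk1 a c') {D : ℝ}
    (h : ∀ v ∈ Ioc 0 a, |c v - c' v| ≤ D) {p : GhPos} (hp : p.Ok a) : |ghAt a c p - ghAt a c' p| ≤ D := by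
  have hD : 0 ≤ D := (abs_nonneg _).trans (h a ⟨ha, le_rfl⟩)
  have h1 := ll04v_at_lin ha (Finset.univ : Finset (Fin 2)) ![1, -1] ![c, c'] (by intro i _; fin_cases i <;> simpa) hD
    (fun v hv => by
      have := (abs_le.1 (h v hv)).2
      simp only [Fin.sum_univ_two, Matrix.cons_val_zero, Matrix.cons_val_one]
      linarith) hp
  have h2 := ll04v_at_lin ha (Finset.univ : Finset (Fin 2)) ![-1, 1] ![c, c'] (by intro i _; fin_cases i <;> simpa) hD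
    (fun v hv => by
      have := (abs_le.1 (h v hv)).1
      simp only [Fin.sum_univ_two, Matrix.cons_val_zero, Matrix.cons_val_one]
      linarith) hp
  simp only [Fin.sum_univ_two, Matrix.cons_val_zero, Matrix.cons_val_one] at h1 h2
  rw [abs_le]
  constructor <;> linarith

/-- a sup bound on `(0,a)` extends to `v = a` by left continuity -/
theorem ll04v_sub_end {a : ℝ} (ha : 0 < a) {c c' : ℝ → ℝ} (hc : Tendsto c (𝓝[<] a) (𝓝 (c a))) (hc' : Tendsto c' (𝓝[<] a) (𝓝 (c' a))) {D : ℝ}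
    (h : ∀ v ∈ Ioo 0 a, |c v - c' v| ≤ D) : ∀ v ∈ Ioc 0 a, |c v - c' v| ≤ D := by
  intro v hv
  rcases lt_or_eq_of_le hv.2 with h1 | h1
  · exact h v ⟨hv.1, h1⟩
  · subst h1
    refine le_of_tendsto (hc.sub hc').abs ?_
    filter_upwards [Ioo_mem_nhdsLT ha] with y hy using h y hy

/-! ## 1. (V1): the values are jointly Lipschitz -/

/-- further facts of `LlSec3`: end continuity, pointwise size regularity, the response -/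
structure Ll04vEnv (𝔹 : LlBase) (F : LlFix) (Cv cv : ℝ) (N0 : ℕ) : Prop where
  Cv0 : 0 ≤ Cv
  cv0 : 0 < cv
  K_nn : ∀ p : LlPt, p.Ok F → N0 ≤ p.N → ∀ v ∈ Icc 0 p.a, 0 ≤ p.K F 𝔹 v
  eb : ∀ p : LlPt, p.Ok F → N0 ≤ p.N → Tendsto (p.b F 𝔹) (𝓝[<] p.a) (𝓝 (p.b F 𝔹 p.a))
  eh : ∀ p : LlPt, p.Ok F → N0 ≤ p.N → Tendsto (p.h F 𝔹) (𝓝[<] p.a) (𝓝 (p.h F 𝔹 p.a))
  eK : ∀ p : LlPt, p.Ok F → N0 ≤ p.N → Tendsto (p.K F 𝔹) (𝓝[<] p.a) (𝓝 (p.K F 𝔹 p.a))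
  Kpt : ∀ p : LlPt, p.Ok F → N0 ≤ p.N → p.sm = true → ∀ θ ∈ Icc 0 (Real.log 2), ∀ θ' ∈ Icc 0 (Real.log 2), ∀ v ∈ Ioo (0 : ℝ) 4,
    |(p.wTh θ').K F 𝔹 v - (p.wTh θ).K F 𝔹 v| ≤ Cv / p.om * |θ' - θ|
  qpt : ∀ p : LlPt, p.Ok F → N0 ≤ p.N → p.sm = true → ∀ θ ∈ Icc 0 (Real.log 2), ∀ θ' ∈ Icc 0 (Real.log 2), ∀ v ∈ Ioo (0 : ℝ) 4,
    |(p.wTh θ').q F 𝔹 v - (p.wTh θ).q F 𝔹 v| ≤ Cv / p.om * |θ' - θ|
  K_top : ∀ p : LlPt, p.Ok F → N0 ≤ p.N → ∀ v ∈ Ioo 0 p.a, p.ell ^ 2 * p.K F 𝔹 v ≤ if p.sm then p.M else 𝔹.xiS F.T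
  gamL : ∀ p : LlPt, p.Ok F → N0 ≤ p.N → ∀ t t', 0 ≤ t → t ≤ t' → |p.Gam F 𝔹 t' - p.Gam F 𝔹 t| ≤ (t' - t) / cv
  gamN : ∀ p : LlPt, p.Ok F → N0 ≤ p.N → p.sm = true → ∀ θ ∈ Icc 0 (Real.log 2), ∀ θ' ∈ Icc 0 (Real.log 2), ∀ ξ ∈ Icc 0 p.M,
    |(p.wTh θ').GamN F 𝔹 ξ - (p.wTh θ).GamN F 𝔹 ξ| ≤ Cv * (1 + p.M) * |θ' - θ|

/-- the response is Lipschitz: `0 < Γ' ≤ 1 / b_∘` -/
theorem ll04v_gamL (F : LlFix) (𝔹 : LlBase) (p : LlPt) (hp : p.Ok F) {c C v0 : ℝ} (hc : 0 < c) (hR : p.Ref F 𝔹 c C v0) (t t' : ℝ) (h0 : 0 ≤ t) (h : t ≤ t') :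
    |p.Gam F 𝔹 t' - p.Gam F 𝔹 t| ≤ (t' - t) / c := by
  rw [hR.gam_ftc t t' h0 h]
  have hb : ∀ s ∈ Set.uIoc t t', ‖p.Gam1 F 𝔹 s‖ ≤ 1 / c := by
    intro s hs
    rw [uIoc_of_le h] at hs
    have hs0 : 0 ≤ s := h0.trans hs.1.le
    have g1 := hR.g1_pos s hs0
    have g2 : 0 ≤ p.gap F 𝔹 s := le_trans (by have := lce_lam_pos hp; positivity) (hR.gap_lo s hs0)
    unfold LlPt.gap at g2
    rw [Real.norm_eq_abs, abs_of_pos g1, le_div_iff₀ hc]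
    nlinarith [hR.b0_lo]
  have := intervalIntegral.norm_integral_le_of_norm_le_const hb
  rw [Real.norm_eq_abs, abs_of_nonneg (sub_nonneg.2 h)] at this
  calc _ ≤ 1 / c * (t' - t) := this
    _ = (t' - t) / c := by ring

theorem ll04v_env (𝔹 : LlBase) (F : LlFix) (h3 : LlSec3 𝔹 F) : ∃ (Cv cv : ℝ) (N0 : ℕ), Ll04vEnv 𝔹 F Cv cv N0 := by
  obtain ⟨c, C, v0, hc, _, N1, hRef⟩ := h3.ref
  obtain ⟨_, _, _, _, hRT⟩ := h3.regT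
  obtain ⟨cT, CT, hcT, N3, hRT⟩ := hRT 0
  obtain ⟨cA, CA, hcA, N4, hA⟩ := h3.adm
  obtain ⟨N5, hEnd⟩ := h3.admEnd
  refine ⟨|CT|, c, max (max N1 N3) (max N4 N5), ?_⟩
  have n1 : ∀ p : LlPt, max (max N1 N3) (max N4 N5) ≤ p.N → N1 ≤ p.N := fun p h => by
    have := le_max_left N1 N3; have := le_max_left (max N1 N3) (max N4 N5); omega
  have n3 : ∀ p : LlPt, max (max N1 N3) (max N4 N5) ≤ p.N → N3 ≤ p.N := fun p h => by
    have := le_max_right N1 N3; have := le_max_left (max N1 N3) (max N4 N5); omega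
  have n4 : ∀ p : LlPt, max (max N1 N3) (max N4 N5) ≤ p.N → N4 ≤ p.N := fun p h => by
    have := le_max_left N4 N5; have := le_max_right (max N1 N3) (max N4 N5); omega
  have n5 : ∀ p : LlPt, max (max N1 N3) (max N4 N5) ≤ p.N → N5 ≤ p.N := fun p h => by
    have := le_max_right N4 N5; have := le_max_right (max N1 N3) (max N4 N5); omega
  have hom : ∀ p : LlPt, p.Ok F → 0 < p.om := fun p hp => Real.rpow_pos_of_pos (lce_x_pos hp.N2) _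
  refine ⟨abs_nonneg _, hc, fun p hp h v hv => ((hA p hp (n4 p h)).2.2.2.2.2.1 v hv).2.2.2.2, fun p hp h => (hEnd p hp (n5 p h)).1,
    fun p hp h => (hEnd p hp (n5 p h)).2.1, fun p hp h => (hEnd p hp (n5 p h)).2.2.2.1, fun p hp h hsm θ hθ θ' hθ' v hv => ?_,
    fun p hp h hsm θ hθ θ' hθ' v hv => ?_, fun p hp h => (hRef p hp (n1 p h)).K_top, fun p hp h t t' h0 h1 => ll04v_gamL F 𝔹 p hp hc (hRef p hp (n1 p h)) t t' h0 h1,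
    fun p hp h hsm θ hθ θ' hθ' ξ hξ => ?_⟩
  · refine ((hRT p hp (n3 p h) hsm θ hθ θ' hθ').Kpt v hv).trans (mul_le_mul_of_nonneg_right ?_ (abs_nonneg _))
    exact div_le_div_of_nonneg_right (le_abs_self _) (hom p hp).le
  · refine ((hRT p hp (n3 p h) hsm θ hθ θ' hθ').qpt v hv).trans (mul_le_mul_of_nonneg_right ?_ (abs_nonneg _))
    exact div_le_div_of_nonneg_right (le_abs_self _) (hom p hp).le
  · refine ((hRT p hp (n3 p h) hsm θ hθ θ' hθ').gamN ξ hξ).trans (mul_le_mul_of_nonneg_right ?_ (abs_nonneg _))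
    exact mul_le_mul_of_nonneg_right (le_abs_self _) (by have := ll04c_M_nn p hp.N2; linarith)

/-- **(V1) along ONE segment**: admissibility and joint Lipschitz dependence of the VALUES of `b, h, K` at every valid position -/
structure Ll04vAt (𝔹 : LlBase) (F : LlFix) (Lip a0 : ℝ) (N : ℕ) (pt : (Fin (N + 1) → ℝ) → ℝ → LlPt) : Prop where
  a_eq : ∀ γ t, (pt γ t).a = a0
  adm_b : ∀ γ t, GhClk1 a0 ((pt γ t).b F 𝔹)
  adm_h : ∀ γ t, GhClk1 a0 ((pt γ t).h F 𝔹)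
  adm_K : ∀ γ t, GhClk1 a0 ((pt γ t).K F 𝔹)
  lip_b : ∀ γ γ' t t' (p : GhPos), p.Ok a0 → |ghAt a0 ((pt γ t).b F 𝔹) p - ghAt a0 ((pt γ' t').b F 𝔹) p| ≤ Lip * (|t - t'| + dist γ γ')
  lip_h : ∀ γ γ' t t' (p : GhPos), p.Ok a0 → |ghAt a0 ((pt γ t).h F 𝔹) p - ghAt a0 ((pt γ' t').h F 𝔹) p| ≤ Lip * (|t - t'| + dist γ γ')
  lip_K : ∀ γ γ' t t' (p : GhPos), p.Ok a0 → |ghAt a0 ((pt γ t).K F 𝔹) p - ghAt a0 ((pt γ' t').K F 𝔹) p| ≤ Lip * (|t - t'| + dist γ γ')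

/-- constructor from pointwise bounds on the open interval -/
theorem ll04v_mk (F : LlFix) (𝔹 : LlBase) {Cb CR CT ξ0 Cv cv : ℝ} {N0 N1 : ℕ} (env : Ll04cEnv 𝔹 F Cb CR CT ξ0 N0) (venv : Ll04vEnv 𝔹 F Cv cv N1)
    {N : ℕ} (hN : N0 ≤ N) (hN1 : N1 ≤ N) (pt : (Fin (N + 1) → ℝ) → ℝ → LlPt) {a0 Lip : ℝ} (hok : ∀ γ t, (pt γ t).Ok F) (hNN : ∀ γ t, (pt γ t).N = N)
    (ha : ∀ γ t, (pt γ t).a = a0)
    (hb : ∀ γ γ' t t', ∀ v ∈ Ioo 0 a0, |(pt γ t).b F 𝔹 v - (pt γ' t').b F 𝔹 v| ≤ Lip * (|t - t'| + dist γ γ'))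
    (hh : ∀ γ γ' t t', ∀ v ∈ Ioo 0 a0, |(pt γ t).h F 𝔹 v - (pt γ' t').h F 𝔹 v| ≤ Lip * (|t - t'| + dist γ γ'))
    (hK : ∀ γ γ' t t', ∀ v ∈ Ioo 0 a0, |(pt γ t).K F 𝔹 v - (pt γ' t').K F 𝔹 v| ≤ Lip * (|t - t'| + dist γ γ')) : Ll04vAt 𝔹 F Lip a0 N pt := by
  have hNp : ∀ γ t, N0 ≤ (pt γ t).N := fun γ t => by rw [hNN]; exact hN
  have hNp1 : ∀ γ t, N1 ≤ (pt γ t).N := fun γ t => by rw [hNN]; exact hN1
  have ha0 : 0 < a0 := by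
    have := (lce_a_mem (hok 0 0)).1
    rw [ha] at this
    linarith
  have h0a : (0 : ℝ) ∈ Icc 0 a0 := ⟨le_rfl, ha0.le⟩
  have ab : ∀ γ t, GhClk1 a0 ((pt γ t).b F 𝔹) := fun γ t => by
    have h1 := env.mb _ (hok γ t) (hNp γ t)
    have h2 := env.b_rg _ (hok γ t) (hNp γ t)
    rw [ha] at h1 h2
    exact ⟨h1, (h2 0 h0a).1⟩
  have ah : ∀ γ t, GhClk1 a0 ((pt γ t).h F 𝔹) := fun γ t => by
    have h1 := env.mh _ (hok γ t) (hNp γ t)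
    have h2 := env.h_nn _ (hok γ t) (hNp γ t)
    rw [ha] at h1 h2
    exact ⟨h1, h2 0 h0a⟩
  have aK : ∀ γ t, GhClk1 a0 ((pt γ t).K F 𝔹) := fun γ t => by
    have h1 := env.mK _ (hok γ t) (hNp γ t)
    have h2 := venv.K_nn _ (hok γ t) (hNp1 γ t)
    rw [ha] at h1 h2
    exact ⟨h1, h2 0 h0a⟩
  have eb : ∀ γ t, Tendsto ((pt γ t).b F 𝔹) (𝓝[<] a0) (𝓝 ((pt γ t).b F 𝔹 a0)) := fun γ t => by
    have := venv.eb _ (hok γ t) (hNp1 γ t)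
    rwa [ha] at this
  have eh : ∀ γ t, Tendsto ((pt γ t).h F 𝔹) (𝓝[<] a0) (𝓝 ((pt γ t).h F 𝔹 a0)) := fun γ t => by
    have := venv.eh _ (hok γ t) (hNp1 γ t)
    rwa [ha] at this
  have eK : ∀ γ t, Tendsto ((pt γ t).K F 𝔹) (𝓝[<] a0) (𝓝 ((pt γ t).K F 𝔹 a0)) := fun γ t => by
    have := venv.eK _ (hok γ t) (hNp1 γ t)
    rwa [ha] at this
  exact ⟨ha, ab, ah, aK,
    fun γ γ' t t' p hp => ll04v_at_sub ha0 (ab γ t) (ab γ' t') (ll04v_sub_end ha0 (eb γ t) (eb γ' t') (hb γ γ' t t')) hp,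
    fun γ γ' t t' p hp => ll04v_at_sub ha0 (ah γ t) (ah γ' t') (ll04v_sub_end ha0 (eh γ t) (eh γ' t') (hh γ γ' t t')) hp,
    fun γ γ' t t' p hp => ll04v_at_sub ha0 (aK γ t) (aK γ' t') (ll04v_sub_end ha0 (eK γ t) (eK γ' t') (hK γ γ' t t')) hp⟩

/-- the constant of the direct segments -/
noncomputable def ll04vCd (F : LlFix) (B Cb CR CH : ℝ) : ℝ :=
  2 * ll04cCg F B + (12 * (ll04cCb F B CR + ll04cCh F B CR Cb CH) + (2 + CH)) + 48 * CR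

theorem ll04v_CC_nn (F : LlFix) (hF : F.Ok) {B Cb CR CH : ℝ} (hB : 0 ≤ B) (hCb : 0 ≤ Cb) (hCR : 0 ≤ CR) (hCH : 0 ≤ CH) :
    0 ≤ ll04cCb F B CR + ll04cCh F B CR Cb CH := by
  have h1 := ll04c_Cb_nn F hF hB hCR
  unfold ll04cCh
  positivity

/-- the direct segments: `b` and `h`, pointwise -/
theorem ll04v_dir_pw (F : LlFix) (hF : F.Ok) (𝔹 : LlBase) {B Cb CR CT ξ0 CH : ℝ} {N0 : ℕ} (hB : ∀ w, |F.phi w| ≤ B) (env : Ll04cEnv 𝔹 F Cb CR CT ξ0 N0)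
    (hHe : Ll04cHe 𝔹 F CH) (hE : LlExpOk F.sS F.eta F.pS) {N : ℕ} (hN : N0 ≤ N) {ell : ℝ} (hl : ell ∈ Icc (1 : ℝ) ((2 : ℝ) ^ (1 / 6 : ℝ))) (i : Fin 3)
    (γ γ' : Fin (N + 1) → ℝ) (t t' : ℝ) (v : ℝ) (hv : v ∈ Ioo 0 ell) :
    |(ll04Dir F N ell i γ t).b F 𝔹 v - (ll04Dir F N ell i γ' t').b F 𝔹 v| + |(ll04Dir F N ell i γ t).h F 𝔹 v - (ll04Dir F N ell i γ' t').h F 𝔹 v|
      ≤ ll04vCd F B Cb CR CH * (1 + Real.log (1 / skX N)) ^ 6 * (|t - t'| + dist γ γ') := by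
  have hN2 : 2 ≤ N := env.N2.trans hN
  have hp12 : F.pS ≤ 12 := by linarith [hE.p_hi]
  have hB0 : 0 ≤ B := (abs_nonneg _).trans (hB 0)
  have hx := ll04w_x_mem (N := N) (by omega)
  obtain ⟨hL1, _⟩ := ll04c_L6 (skX N) hx.1 hx.2
  set L := 1 + Real.log (1 / skX N) with hL
  have hCg := ll04c_Cg_nn F hF hB0
  have hCH := hHe.nn
  have hCR := env.CR0
  have hCC := ll04v_CC_nn F hF hB0 env.Cb0 env.CR0 hCH
  have hd : 0 ≤ dist γ γ' := dist_nonneg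
  have hT0 : 0 ≤ |t - t'| := abs_nonneg _
  have hok := ll04c_ok F hp12 hN2 hl i γ t
  have ha : (ll04Dir F N ell i γ t).a = ell := lce_a_direct rfl
  have h2 := ll04c_Lk hL1 2 (by norm_num)
  have h6 : 1 ≤ L ^ 6 := one_le_pow₀ hL1
  have k1 : |(ll04Dir F N ell i γ t).b F 𝔹 v - (ll04Dir F N ell i γ' t).b F 𝔹 v| + |(ll04Dir F N ell i γ t).h F 𝔹 v - (ll04Dir F N ell i γ' t).h F 𝔹 v|
      ≤ 2 * ll04cCg F B * dist γ γ' := ll04c_gam_pw F hF 𝔹 hB env N _ _ _ _ false γ γ' hok hN v (by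
        show v ∈ Ioo 0 (ll04Dir F N ell i γ t).a
        rw [ha]; exact hv)
  have k2 : |(ll04Dir F N ell i γ' t).b F 𝔹 v - (ll04Dir F N ell i γ' t').b F 𝔹 v| + |(ll04Dir F N ell i γ' t).h F 𝔹 v - (ll04Dir F N ell i γ' t').h F 𝔹 v|
      ≤ (12 * (ll04cCb F B CR + ll04cCh F B CR Cb CH) + (2 + CH)) * L ^ 6 * |t - t'| := by
    by_cases hi : i = 0
    · subst hi
      refine (ll04c_dir0_pw F hF 𝔹 hB env hHe hE hN hl γ' t t' v hv).trans ?_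
      refine mul_le_mul_of_nonneg_right ?_ hT0
      calc 12 * (ll04cCb F B CR + ll04cCh F B CR Cb CH) * L ^ 2 ≤ 12 * (ll04cCb F B CR + ll04cCh F B CR Cb CH) * L ^ 6 :=
            mul_le_mul_of_nonneg_left h2 (by positivity)
        _ ≤ (12 * (ll04cCb F B CR + ll04cCh F B CR Cb CH) + (2 + CH)) * L ^ 6 :=
            mul_le_mul_of_nonneg_right (by linarith) (by positivity)
    · refine (ll04c_dir12_pw F hF 𝔹 hHe hE hN2 hl i hi γ' t t' v hv).trans ?_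
      refine mul_le_mul_of_nonneg_right ?_ hT0
      calc 2 + CH ≤ (2 + CH) * L ^ 6 := le_mul_of_one_le_right (by linarith) h6
        _ ≤ (12 * (ll04cCb F B CR + ll04cCh F B CR Cb CH) + (2 + CH)) * L ^ 6 :=
            mul_le_mul_of_nonneg_right (by linarith) (by positivity)
  have k3 := ll04c_tri k1 k2
  have s1 : 2 * ll04cCg F B * dist γ γ' ≤ 2 * ll04cCg F B * dist γ γ' * L ^ 6 := le_mul_of_one_le_right (by positivity) h6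
  have s2 : 0 ≤ 2 * ll04cCg F B * L ^ 6 * |t - t'| := by positivity
  have s3 : 0 ≤ (12 * (ll04cCb F B CR + ll04cCh F B CR Cb CH) + (2 + CH)) * L ^ 6 * dist γ γ' := by positivity
  have s4 : 0 ≤ 48 * CR * L ^ 6 * (|t - t'| + dist γ γ') := by positivity
  unfold ll04vCd
  nlinarith

/-- the direct segments: `K`, pointwise (`K` sees neither `γ` nor `χ`) -/
theorem ll04v_dir_K (F : LlFix) (𝔹 : LlBase) {Cb CR CT ξ0 : ℝ} {N0 : ℕ} (env : Ll04cEnv 𝔹 F Cb CR CT ξ0 N0)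
    (hE : LlExpOk F.sS F.eta F.pS) {N : ℕ} (hN : N0 ≤ N) {ell : ℝ} (hl : ell ∈ Icc (1 : ℝ) ((2 : ℝ) ^ (1 / 6 : ℝ))) (i : Fin 3)
    (γ γ' : Fin (N + 1) → ℝ) (t t' : ℝ) (v : ℝ) (hv : v ∈ Ioo 0 ell) :
    |(ll04Dir F N ell i γ t).K F 𝔹 v - (ll04Dir F N ell i γ' t').K F 𝔹 v| ≤ 48 * CR * (1 + Real.log (1 / skX N)) ^ 6 * |t - t'| := by
  have hN2 : 2 ≤ N := env.N2.trans hN
  have hp12 : F.pS ≤ 12 := by linarith [hE.p_hi]
  have hx := ll04w_x_mem (N := N) (by omega)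
  obtain ⟨hL1, _⟩ := ll04c_L6 (skX N) hx.1 hx.2
  have hL0 := lcd_L_ge (skX N) hx.1 hx.2
  have hCR := env.CR0
  have hT0 : 0 ≤ |t - t'| := abs_nonneg _
  by_cases hi : i = 0
  · subst hi
    have key : ∀ t t' : ℝ, ll04U 1 t ≤ ll04U 1 t' →
        |(ll04Dir F N ell 0 γ' t').K F 𝔹 v - (ll04Dir F N ell 0 γ t).K F 𝔹 v| ≤ 48 * CR * (1 + Real.log (1 / skX N)) ^ 6 * |t - t'| := by
      intro t t' huu
      have hok := ll04c_ok F hp12 hN2 hl 0 γ t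
      have hok' := ll04c_ok F hp12 hN2 hl 0 γ t'
      have hlam : (ll04Dir F N ell 0 γ t).lam = skX N ^ (12 * (1 - ll04U 1 t) + F.pS * ll04U 1 t) := by rw [ll04c_dir0]; rfl
      have hlam' : (ll04Dir F N ell 0 γ t').lam = skX N ^ (12 * (1 - ll04U 1 t') + F.pS * ll04U 1 t') := by rw [ll04c_dir0]; rfl
      have e' : (ll04Dir F N ell 0 γ' t').K F 𝔹 v = ((ll04Dir F N ell 0 γ t).wLm (skX N ^ (12 * (1 - ll04U 1 t') + F.pS * ll04U 1 t'))).K F 𝔹 v := by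
        rw [ll04c_dir0, ll04c_dir0]; rfl
      have hle : (ll04Dir F N ell 0 γ t).lam ≤ skX N ^ (12 * (1 - ll04U 1 t') + F.pS * ll04U 1 t') := by
        rw [hlam]
        exact Real.rpow_le_rpow_of_exponent_ge hx.1 hx.2 (by nlinarith)
      have hhi : skX N ^ (12 * (1 - ll04U 1 t') + F.pS * ll04U 1 t') ≤ (ll04Dir F N ell 0 γ t).x ^ F.pS := by
        have := hok'.lam_hi
        rw [hlam'] at this
        exact this
      have hl1 : skX N ^ (12 * (1 - ll04U 1 t') + F.pS * ll04U 1 t') ≤ 1 := by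
        have := lce_lam_le_one hok' hE.p_lo.le
        rwa [hlam'] at this
      have hR := env.regL _ hok hN rfl _ (hok.lam_lo.trans hle) hhi
      have hdl := ll04c_dlam (lce_lam_pos hok) hle hl1
      have hlog : Real.log (skX N ^ (12 * (1 - ll04U 1 t') + F.pS * ll04U 1 t') / (ll04Dir F N ell 0 γ t).lam)
          = (12 - F.pS) * (ll04U 1 t' - ll04U 1 t) * Real.log (1 / skX N) := by
        rw [hlam, Real.log_div (Real.rpow_pos_of_pos hx.1 _).ne' (Real.rpow_pos_of_pos hx.1 _).ne', Real.log_rpow hx.1, Real.log_rpow hx.1,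
          one_div, Real.log_inv]
        ring
      rw [hlog] at hdl
      have hu : ll04U 1 t' - ll04U 1 t ≤ |t - t'| := by
        have := ll04c_U_lip 1 t' t
        rw [abs_sub_comm t t']
        exact (le_abs_self _).trans this
      have h1 : (12 - F.pS) * (ll04U 1 t' - ll04U 1 t) * Real.log (1 / skX N) ≤ 12 * |t - t'| * (1 + Real.log (1 / skX N)) := by
        refine mul_le_mul (mul_le_mul (by linarith [hE.p_lo]) hu (by linarith) (by norm_num)) (by linarith) hL0 (by positivity)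
      have h61 := ll04c_Lk hL1 1 (by norm_num)
      rw [pow_one] at h61
      have hv4 : v ≤ 4 := hv.2.le.trans (by have := lce_ell_le hok; have e : (ll04Dir F N ell 0 γ t).ell = ell := rfl; rw [e] at this; linarith)
      rw [e']
      refine (hR.K v hv).trans ?_
      calc CR * |skX N ^ (12 * (1 - ll04U 1 t') + F.pS * ll04U 1 t') - (ll04Dir F N ell 0 γ t).lam| * v
          ≤ CR * (12 * |t - t'| * (1 + Real.log (1 / skX N)) ^ 6) * 4 := by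
            refine mul_le_mul (mul_le_mul_of_nonneg_left ((hdl.trans h1).trans ?_) hCR) hv4 hv.1.le (by positivity)
            exact mul_le_mul_of_nonneg_left h61 (by positivity)
        _ = _ := by ring
    rcases le_total (ll04U 1 t) (ll04U 1 t') with h | h
    · have := key t t' h
      rwa [abs_sub_comm] at this
    · have e1 : (ll04Dir F N ell 0 γ t).K F 𝔹 v = (ll04Dir F N ell 0 γ' t).K F 𝔹 v := rfl
      have e2 : (ll04Dir F N ell 0 γ' t').K F 𝔹 v = (ll04Dir F N ell 0 γ t').K F 𝔹 v := rfl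
      have := key t' t h
      rw [abs_sub_comm t' t] at this
      rw [e1, e2]
      exact this
  · have e : (ll04Dir F N ell i γ t).K F 𝔹 v = (ll04Dir F N ell i γ' t').K F 𝔹 v := by
      have hi' : i = 1 ∨ i = 2 := by fin_cases i <;> simp_all
      rcases hi' with rfl | rfl
      · rw [ll04c_dir1, ll04c_dir1]; rfl
      · rw [ll04c_dir2, ll04c_dir2]; rfl
    rw [e, sub_self, abs_zero]
    positivity

/-- **(V1) on the direct segments** -/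
theorem ll04v_dir (F : LlFix) (hF : F.Ok) (𝔹 : LlBase) {B Cb CR CT ξ0 CH Cv cv : ℝ} {N0 N1 : ℕ} (hB : ∀ w, |F.phi w| ≤ B) (env : Ll04cEnv 𝔹 F Cb CR CT ξ0 N0)
    (venv : Ll04vEnv 𝔹 F Cv cv N1) (hHe : Ll04cHe 𝔹 F CH) (hE : LlExpOk F.sS F.eta F.pS) {N : ℕ} (hN : N0 ≤ N) (hN1 : N1 ≤ N) {ell : ℝ}
    (hl : ell ∈ Icc (1 : ℝ) ((2 : ℝ) ^ (1 / 6 : ℝ))) (i : Fin 3) :
    Ll04vAt 𝔹 F (ll04vCd F B Cb CR CH * (1 + Real.log (1 / skX N)) ^ 6) ell N (ll04Dir F N ell i) := by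
  have hN2 : 2 ≤ N := env.N2.trans hN
  have hp12 : F.pS ≤ 12 := by linarith [hE.p_hi]
  have hB0 : 0 ≤ B := (abs_nonneg _).trans (hB 0)
  refine ll04v_mk F 𝔹 env venv hN hN1 _ (fun γ t => ll04c_ok F hp12 hN2 hl i γ t) (fun _ _ => rfl) (fun _ _ => lce_a_direct rfl)
    (fun γ γ' t t' v hv => ?_) (fun γ γ' t t' v hv => ?_) (fun γ γ' t t' v hv => ?_)
  · have := ll04v_dir_pw F hF 𝔹 hB env hHe hE hN hl i γ γ' t t' v hv
    linarith [abs_nonneg ((ll04Dir F N ell i γ t).h F 𝔹 v - (ll04Dir F N ell i γ' t').h F 𝔹 v)]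
  · have := ll04v_dir_pw F hF 𝔹 hB env hHe hE hN hl i γ γ' t t' v hv
    linarith [abs_nonneg ((ll04Dir F N ell i γ t).b F 𝔹 v - (ll04Dir F N ell i γ' t').b F 𝔹 v)]
  · refine (ll04v_dir_K F 𝔹 env hE hN hl i γ γ' t t' v hv).trans ?_
    have hx := ll04w_x_mem (N := N) (by omega)
    have hL0 := lcd_L_ge (skX N) hx.1 hx.2
    have h1 := ll04c_Cg_nn F hF hB0
    have h2 := ll04v_CC_nn F hF hB0 env.Cb0 env.CR0 hHe.nn
    have h3 := hHe.nn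
    have h4 := env.CR0
    have hd : 0 ≤ dist γ γ' := dist_nonneg
    have hT0 : 0 ≤ |t - t'| := abs_nonneg _
    have h5 : 48 * CR ≤ ll04vCd F B Cb CR CH := by unfold ll04vCd; linarith
    calc 48 * CR * (1 + Real.log (1 / skX N)) ^ 6 * |t - t'| ≤ ll04vCd F B Cb CR CH * (1 + Real.log (1 / skX N)) ^ 6 * |t - t'| :=
          mul_le_mul_of_nonneg_right (mul_le_mul_of_nonneg_right h5 (by positivity)) hT0
      _ ≤ _ := mul_le_mul_of_nonneg_left (by linarith) (mul_nonneg (by linarith) (by positivity))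

/-! ### the size segment -/

theorem ll04v_wTh_ok (F : LlFix) (p : LlPt) (hp : p.Ok F) {θ : ℝ} (hθ : θ ∈ Icc 0 (Real.log 2)) : (p.wTh θ).Ok F :=
  ⟨hp.N2, (ll04w_exp_mem hθ).1, (ll04w_exp_mem hθ).2, hp.lam_lo, hp.lam_hi, hp.g0, hp.gu, hp.chiL, hp.chiE, hp.sm_fin⟩

theorem ll04v_wTh_a (p : LlPt) (hsm : p.sm = true) (θ : ℝ) : (p.wTh θ).a = 4 := by
  show (if p.sm = true then (4 : ℝ) else _) = 4
  rw [if_pos hsm]

/-- the move (θ) on a smoothed path, pointwise: `b` is Lipschitz, `h` is dominated by the moves of `K` and `q` -/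
theorem ll04v_th_core (F : LlFix) (hF : F.Ok) (𝔹 : LlBase) {Cb CR CT ξ0 : ℝ} {N0 : ℕ} (env : Ll04cEnv 𝔹 F Cb CR CT ξ0 N0)
    (hE : LlExpOk F.sS F.eta F.pS) (p : LlPt) (hp : p.Ok F) (hN : N0 ≤ p.N) (hsm : p.sm = true) {θ θ' : ℝ}
    (h : θ ∈ Icc 0 (Real.log 2)) (h' : θ' ∈ Icc 0 (Real.log 2)) (v : ℝ) (hv : v ∈ Ioo (0 : ℝ) 4) :
    |(p.wTh θ').b F 𝔹 v - (p.wTh θ).b F 𝔹 v| ≤ (CT + Cb) * |θ' - θ| ∧
    |(p.wTh θ').h F 𝔹 v - (p.wTh θ).h F 𝔹 v| ≤ |(p.wTh θ').K F 𝔹 v - (p.wTh θ).K F 𝔹 v| + Cb * |(p.wTh θ').q F 𝔹 v - (p.wTh θ).q F 𝔹 v|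
      + (CT + Cb + 2) * |θ' - θ| := by
  have hok := ll04v_wTh_ok F p hp h
  have hok' := ll04v_wTh_ok F p hp h'
  have ha := ll04v_wTh_a p hsm θ
  have ha' := ll04v_wTh_a p hsm θ'
  have hb0 := ll04c_th_b0 F 𝔹 p h h' (env.regTb p hp hN hsm _ h _ h') (env.b0_rg _ hok hN)
  refine ⟨by rw [ll04c_th_b]; exact hb0, ?_⟩
  refine ll04c_th_h F hF 𝔹 p hp hE.e_lo.le (hp.sm_fin hsm).2 h h' hb0 v hv.1 ?_ ?_
  · obtain ⟨b0, b1⟩ := env.b_rg _ hok' hN v (by rw [ha']; exact ⟨hv.1.le, hv.2.le⟩)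
    rw [abs_of_nonneg b0]; exact b1
  · obtain ⟨q0, q1⟩ := env.q_rg _ hok hN v (by rw [ha]; exact hv)
    rw [abs_of_nonneg q0]; exact q1

/-- the constant of the size segment -/
noncomputable def ll04vCs (F : LlFix) (B Cb CT Cv : ℝ) : ℝ := 2 * ll04cCg F B + (CT + Cb + 2) + (1 + Cb) * Cv

/-- **(V1) on the size segment** (the constant is `C / ω`) -/
theorem ll04v_siz (F : LlFix) (hF : F.Ok) (𝔹 : LlBase) {B Cb CR CT ξ0 Cv cv : ℝ} {N0 N1 : ℕ} (hB : ∀ w, |F.phi w| ≤ B) (env : Ll04cEnv 𝔹 F Cb CR CT ξ0 N0)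
    (venv : Ll04vEnv 𝔹 F Cv cv N1) (hE : LlExpOk F.sS F.eta F.pS) {N : ℕ} (hN : N0 ≤ N) (hN1 : N1 ≤ N) {Θ : ℝ} (hΘ : Θ ∈ Icc (0 : ℝ) (Real.log 2)) :
    Ll04vAt 𝔹 F (ll04vCs F B Cb CT Cv / skX N ^ (5 + 1 / 4 : ℝ)) 4 N (ll04Siz F N Θ) := by
  have hN2 : 2 ≤ N := env.N2.trans hN
  have hp12 : F.pS ≤ 12 := by linarith [hE.p_hi]
  have hB0 : 0 ≤ B := (abs_nonneg _).trans (hB 0)
  have hx := ll04w_x_mem (N := N) (by omega)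
  have hCg := ll04c_Cg_nn F hF hB0
  have hCb := env.Cb0
  have hCT := env.CT0
  have hCv := venv.Cv0
  set om : ℝ := skX N ^ (5 + 1 / 4 : ℝ) with hom
  have hom0 : 0 < om := Real.rpow_pos_of_pos hx.1 _
  have hom1 : om ≤ 1 := Real.rpow_le_one hx.1.le hx.2 (by norm_num)
  have hinv : 1 ≤ 1 / om := by rw [le_div_iff₀ hom0]; linarith
  -- all three pointwise bounds at once
  have key : ∀ (γ γ' : Fin (N + 1) → ℝ) (θ θ' : ℝ), ∀ v ∈ Ioo (0 : ℝ) 4,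
      |(ll04Siz F N Θ γ θ).b F 𝔹 v - (ll04Siz F N Θ γ' θ').b F 𝔹 v| ≤ ll04vCs F B Cb CT Cv / om * (|θ - θ'| + dist γ γ') ∧
      |(ll04Siz F N Θ γ θ).h F 𝔹 v - (ll04Siz F N Θ γ' θ').h F 𝔹 v| ≤ ll04vCs F B Cb CT Cv / om * (|θ - θ'| + dist γ γ') ∧
      |(ll04Siz F N Θ γ θ).K F 𝔹 v - (ll04Siz F N Θ γ' θ').K F 𝔹 v| ≤ ll04vCs F B Cb CT Cv / om * (|θ - θ'| + dist γ γ') := by
    intro γ γ' θ θ' v hv
    have hd : 0 ≤ dist γ γ' := dist_nonneg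
    have hok := ll04w_ok F hp12 hN2 hΘ γ θ
    have hok1 := ll04w_ok F hp12 hN2 hΘ γ' θ
    have hu : ll04U Θ θ ∈ Icc 0 (Real.log 2) := ⟨(ll04w_U_mem hΘ.1 θ).1, (ll04w_U_mem hΘ.1 θ).2.trans hΘ.2⟩
    have hu' : ll04U Θ θ' ∈ Icc 0 (Real.log 2) := ⟨(ll04w_U_mem hΘ.1 θ').1, (ll04w_U_mem hΘ.1 θ').2.trans hΘ.2⟩
    set p1 := ll04Siz F N Θ γ' θ with hp1
    have e1 : p1.wTh (ll04U Θ θ) = p1 := rfl
    have e2 : p1.wTh (ll04U Θ θ') = ll04Siz F N Θ γ' θ' := rfl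
    set δ := |ll04U Θ θ' - ll04U Θ θ| with hδ
    have hδ0 : 0 ≤ δ := abs_nonneg _
    have hδle : δ ≤ |θ - θ'| := by rw [hδ, abs_sub_comm θ θ']; exact ll04c_U_lip Θ θ' θ
    have ha : (ll04Siz F N Θ γ θ).a = 4 := ll04c_siz_a F N Θ γ θ
    have k1 : |(ll04Siz F N Θ γ θ).b F 𝔹 v - p1.b F 𝔹 v| + |(ll04Siz F N Θ γ θ).h F 𝔹 v - p1.h F 𝔹 v| ≤ 2 * ll04cCg F B * dist γ γ' :=
      ll04c_gam_pw F hF 𝔹 hB env N _ _ _ _ true γ γ' hok hN v (by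
        show v ∈ Ioo 0 (ll04Siz F N Θ γ θ).a
        rw [ha]; exact hv)
    obtain ⟨kb, kh⟩ := ll04v_th_core F hF 𝔹 env hE p1 hok1 hN rfl hu hu' v hv
    have kK := venv.Kpt p1 hok1 hN1 rfl _ hu _ hu' v hv
    have kq := venv.qpt p1 hok1 hN1 rfl _ hu _ hu' v hv
    rw [e1, e2] at kb kh kK kq
    have eom : p1.om = om := rfl
    rw [eom] at kK kq
    have eK : (ll04Siz F N Θ γ θ).K F 𝔹 v = p1.K F 𝔹 v := rfl
    have n1 := abs_nonneg ((ll04Siz F N Θ γ θ).b F 𝔹 v - p1.b F 𝔹 v)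
    have n2 := abs_nonneg ((ll04Siz F N Θ γ θ).h F 𝔹 v - p1.h F 𝔹 v)
    have hT0 : 0 ≤ |θ - θ'| := abs_nonneg _
    -- the common majorant
    have big : 2 * ll04cCg F B * dist γ γ' + ((CT + Cb + 2) * δ + (1 + Cb) * (Cv / om * δ)) ≤ ll04vCs F B Cb CT Cv / om * (|θ - θ'| + dist γ γ') := by
      have e : ll04vCs F B Cb CT Cv / om * (|θ - θ'| + dist γ γ')
          = 2 * ll04cCg F B * (1 / om) * (|θ - θ'| + dist γ γ') + (CT + Cb + 2) * (1 / om) * (|θ - θ'| + dist γ γ')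
            + (1 + Cb) * (Cv / om) * (|θ - θ'| + dist γ γ') := by
        unfold ll04vCs; ring
      rw [e]
      have s1 : 2 * ll04cCg F B * dist γ γ' ≤ 2 * ll04cCg F B * (1 / om) * (|θ - θ'| + dist γ γ') := by
        calc 2 * ll04cCg F B * dist γ γ' = 2 * ll04cCg F B * 1 * dist γ γ' := by ring
          _ ≤ 2 * ll04cCg F B * (1 / om) * (|θ - θ'| + dist γ γ') :=
            mul_le_mul (mul_le_mul_of_nonneg_left hinv (by positivity)) (by linarith) hd (by positivity)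
      have s2 : (CT + Cb + 2) * δ ≤ (CT + Cb + 2) * (1 / om) * (|θ - θ'| + dist γ γ') := by
        calc (CT + Cb + 2) * δ = (CT + Cb + 2) * 1 * δ := by ring
          _ ≤ (CT + Cb + 2) * (1 / om) * (|θ - θ'| + dist γ γ') :=
            mul_le_mul (mul_le_mul_of_nonneg_left hinv (by positivity)) (by linarith) hδ0 (by positivity)
      have s3 : (1 + Cb) * (Cv / om * δ) ≤ (1 + Cb) * (Cv / om) * (|θ - θ'| + dist γ γ') := by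
        calc (1 + Cb) * (Cv / om * δ) = (1 + Cb) * (Cv / om) * δ := by ring
          _ ≤ _ := mul_le_mul_of_nonneg_left (by linarith) (by positivity)
      linarith
    have m1 : 0 ≤ Cv / om * δ := by positivity
    have m2 : 0 ≤ (CT + Cb + 2) * δ := by positivity
    have m3 : 0 ≤ 2 * ll04cCg F B * dist γ γ' := by positivity
    have m4 : 0 ≤ Cb * (Cv / om * δ) := by positivity
    refine ⟨?_, ?_, ?_⟩
    · have t := abs_sub_le ((ll04Siz F N Θ γ θ).b F 𝔹 v) (p1.b F 𝔹 v) ((ll04Siz F N Θ γ' θ').b F 𝔹 v)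
      rw [abs_sub_comm (p1.b F 𝔹 v)] at t
      nlinarith
    · have t := abs_sub_le ((ll04Siz F N Θ γ θ).h F 𝔹 v) (p1.h F 𝔹 v) ((ll04Siz F N Θ γ' θ').h F 𝔹 v)
      rw [abs_sub_comm (p1.h F 𝔹 v)] at t
      have := mul_le_mul_of_nonneg_left kq hCb
      nlinarith
    · rw [eK, abs_sub_comm]
      nlinarith
  exact ll04v_mk F 𝔹 env venv hN hN1 _ (fun γ t => ll04w_ok F hp12 hN2 hΘ γ t) (fun _ _ => rfl) (fun γ t => ll04c_siz_a F N Θ γ t)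
    (fun γ γ' t t' v hv => (key γ γ' t t' v hv).1) (fun γ γ' t t' v hv => (key γ γ' t t' v hv).2.1) (fun γ γ' t t' v hv => (key γ γ' t t' v hv).2.2)

/-! ## 2. (V2): the size path; monotonicity in `θ` and domination -/

/-- the smoothed profile as a function of `θ`: only the terminal plateau sees `ℓ` -/
theorem ll04v_Asm (F : LlFix) (𝔹 : LlBase) (p : LlPt) (θ ξ : ℝ) :
    (p.wTh θ).Asm F 𝔹 ξ = if p.M ≤ ξ then 4 / Real.exp (θ / 6) else p.Asm F 𝔹 ξ := by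
  by_cases h : p.M ≤ ξ
  · rw [if_pos h]
    show (if p.M ≤ ξ then 4 / Real.exp (θ / 6) else _) = _
    rw [if_pos h]
  · rw [if_neg h]
    show (if p.M ≤ ξ then 4 / Real.exp (θ / 6) else (if ξ < 𝔹.xiS F.T then p.Adir F 𝔹 ξ
        else 𝔹.pTop F.T + (1 - 𝔹.pTop F.T) * min 1 ((ξ - 𝔹.xiS F.T) / p.om)) + p.om * ξ)
      = (if p.M ≤ ξ then 4 / p.ell else (if ξ < 𝔹.xiS F.T then p.Adir F 𝔹 ξ
        else 𝔹.pTop F.T + (1 - 𝔹.pTop F.T) * min 1 ((ξ - 𝔹.xiS F.T) / p.om)) + p.om * ξ)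
    rw [if_neg h, if_neg h]

/-- **the normalised time is ANTITONE in `θ`**, with values in `[0, M]` -/
theorem ll04v_xi (F : LlFix) (𝔹 : LlBase) (p : LlPt) (hN : 2 ≤ p.N) (hsm : p.sm = true) {θ θ' : ℝ} (h : θ ≤ θ') (v : ℝ) (hv : v ∈ Icc (0 : ℝ) 4) :
    0 ≤ (p.wTh θ').xi F 𝔹 v ∧ (p.wTh θ').xi F 𝔹 v ≤ (p.wTh θ).xi F 𝔹 v ∧ (p.wTh θ).xi F 𝔹 v ≤ p.M := by
  have hM := ll04c_M_nn p hN
  have eA : ∀ t : ℝ, (p.wTh t).xi F 𝔹 v = sInf {ξ : ℝ | 0 ≤ ξ ∧ v / Real.exp (t / 6) ≤ if p.M ≤ ξ then 4 / Real.exp (t / 6) else p.Asm F 𝔹 ξ} := by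
    intro t
    have e1 : (p.wTh t).Aprof F 𝔹 = (p.wTh t).Asm F 𝔹 := by
      show (if p.sm = true then (p.wTh t).Asm F 𝔹 else (p.wTh t).Adir F 𝔹) = _
      rw [if_pos hsm]
    show llInv ((p.wTh t).Aprof F 𝔹) (v / Real.exp (t / 6)) = _
    rw [e1]
    unfold llInv
    congr 1
    ext ξ
    simp only [Set.mem_ofPred_eq, ll04v_Asm]
  have hbd : ∀ t : ℝ, BddBelow {ξ : ℝ | 0 ≤ ξ ∧ v / Real.exp (t / 6) ≤ if p.M ≤ ξ then 4 / Real.exp (t / 6) else p.Asm F 𝔹 ξ} :=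
    fun t => ⟨0, fun ξ hξ => hξ.1⟩
  have hmem : ∀ t : ℝ, p.M ∈ {ξ : ℝ | 0 ≤ ξ ∧ v / Real.exp (t / 6) ≤ if p.M ≤ ξ then 4 / Real.exp (t / 6) else p.Asm F 𝔹 ξ} := by
    intro t
    refine ⟨hM, ?_⟩
    rw [if_pos le_rfl]
    exact div_le_div_of_nonneg_right hv.2 (Real.exp_pos _).le
  rw [eA, eA]
  refine ⟨le_csInf ⟨_, hmem θ'⟩ fun ξ hξ => hξ.1, csInf_le_csInf (hbd θ') ⟨_, hmem θ⟩ ?_, csInf_le (hbd θ) (hmem θ)⟩
  rintro ξ ⟨h0, h1⟩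
  refine ⟨h0, ?_⟩
  by_cases hξ : p.M ≤ ξ
  · rw [if_pos hξ]
    exact div_le_div_of_nonneg_right hv.2 (Real.exp_pos _).le
  · rw [if_neg hξ] at h1 ⊢
    refine le_trans ?_ h1
    exact div_le_div_of_nonneg_left hv.1 (Real.exp_pos _) (Real.exp_le_exp.2 (by linarith))

/-- **`K` is ANTITONE in `θ`**, with values in `[0, M]` -/
theorem ll04v_K (F : LlFix) (𝔹 : LlBase) (p : LlPt) (hN : 2 ≤ p.N) (hsm : p.sm = true) {θ θ' : ℝ} (h0 : 0 ≤ θ) (h : θ ≤ θ') (v : ℝ) (hv : v ∈ Icc (0 : ℝ) 4) :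
    0 ≤ (p.wTh θ').K F 𝔹 v ∧ (p.wTh θ').K F 𝔹 v ≤ (Real.exp (θ / 6) ^ 2)⁻¹ * (p.wTh θ').xi F 𝔹 v ∧
      (Real.exp (θ / 6) ^ 2)⁻¹ * (p.wTh θ').xi F 𝔹 v ≤ (p.wTh θ).K F 𝔹 v ∧ (p.wTh θ).K F 𝔹 v ≤ p.M := by
  obtain ⟨x0, x1, x2⟩ := ll04v_xi F 𝔹 p hN hsm h v hv
  have hl : 1 ≤ Real.exp (θ / 6) := Real.one_le_exp (by linarith)
  have hll : Real.exp (θ / 6) ≤ Real.exp (θ' / 6) := Real.exp_le_exp.2 (by linarith)
  have hl2 : 1 ≤ Real.exp (θ / 6) ^ 2 := one_le_pow₀ hl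
  have hi : (Real.exp (θ' / 6) ^ 2)⁻¹ ≤ (Real.exp (θ / 6) ^ 2)⁻¹ := inv_anti₀ (by positivity) (pow_le_pow_left₀ (by positivity) hll 2)
  have hi1 : (Real.exp (θ / 6) ^ 2)⁻¹ ≤ 1 := inv_le_one_of_one_le₀ hl2
  have hi0 : 0 ≤ (Real.exp (θ / 6) ^ 2)⁻¹ := by positivity
  refine ⟨?_, ?_, ?_, ?_⟩
  · show 0 ≤ (Real.exp (θ' / 6) ^ 2)⁻¹ * (p.wTh θ').xi F 𝔹 v
    positivity
  · show (Real.exp (θ' / 6) ^ 2)⁻¹ * (p.wTh θ').xi F 𝔹 v ≤ _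
    exact mul_le_mul_of_nonneg_right hi x0
  · show _ ≤ (Real.exp (θ / 6) ^ 2)⁻¹ * (p.wTh θ).xi F 𝔹 v
    exact mul_le_mul_of_nonneg_left x1 hi0
  · show (Real.exp (θ / 6) ^ 2)⁻¹ * (p.wTh θ).xi F 𝔹 v ≤ _
    calc _ ≤ 1 * p.M := mul_le_mul hi1 x2 (x0.trans x1) zero_le_one
      _ = p.M := one_mul _

/-- **domination of the overlap clock** by the variation of `K` -/
theorem ll04v_q (F : LlFix) (𝔹 : LlBase) {Cv cv : ℝ} {N1 : ℕ} (venv : Ll04vEnv 𝔹 F Cv cv N1) (p : LlPt) (hp : p.Ok F) (hN : N1 ≤ p.N) (hsm : p.sm = true) {θ θ' : ℝ}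
    (hθ : θ ∈ Icc 0 (Real.log 2)) (hθ' : θ' ∈ Icc 0 (Real.log 2)) (h : θ ≤ θ') (v : ℝ) (hv : v ∈ Icc (0 : ℝ) 4) :
    |(p.wTh θ').q F 𝔹 v - (p.wTh θ).q F 𝔹 v| ≤ ((p.wTh θ).K F 𝔹 v - (p.wTh θ').K F 𝔹 v) / cv + Cv * (1 + p.M) * (θ' - θ) := by
  obtain ⟨x0, x1, x2⟩ := ll04v_xi F 𝔹 p hp.N2 hsm h v hv
  obtain ⟨k0, k1, k2, _⟩ := ll04v_K F 𝔹 p hp.N2 hsm hθ.1 h v hv
  have hok := ll04v_wTh_ok F p hp hθ
  have hne : ∀ t : ℝ, Real.exp (t / 6) ^ 2 ≠ 0 := fun t => by positivity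
  have e' : (p.wTh θ').q F 𝔹 v = (p.wTh θ').GamN F 𝔹 ((p.wTh θ').xi F 𝔹 v) := by
    show (p.wTh θ').GamN F 𝔹 (Real.exp (θ' / 6) ^ 2 * ((Real.exp (θ' / 6) ^ 2)⁻¹ * (p.wTh θ').xi F 𝔹 v)) = _
    rw [mul_inv_cancel_left₀ (hne θ')]
  have em : (p.wTh θ).Gam F 𝔹 ((Real.exp (θ / 6) ^ 2)⁻¹ * (p.wTh θ').xi F 𝔹 v) = (p.wTh θ).GamN F 𝔹 ((p.wTh θ').xi F 𝔹 v) := by
    show (p.wTh θ).GamN F 𝔹 (Real.exp (θ / 6) ^ 2 * ((Real.exp (θ / 6) ^ 2)⁻¹ * (p.wTh θ').xi F 𝔹 v)) = _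
    rw [mul_inv_cancel_left₀ (hne θ)]
  have g1 := venv.gamN p hp hN hsm θ hθ θ' hθ' _ ⟨x0, x1.trans x2⟩
  have g2 := venv.gamL _ hok hN _ _ (k0.trans k1) k2
  rw [em] at g2
  rw [abs_of_nonneg (sub_nonneg.2 h)] at g1
  have g3 : ((p.wTh θ).K F 𝔹 v - (Real.exp (θ / 6) ^ 2)⁻¹ * (p.wTh θ').xi F 𝔹 v) / cv ≤ ((p.wTh θ).K F 𝔹 v - (p.wTh θ').K F 𝔹 v) / cv :=
    div_le_div_of_nonneg_right (by linarith) venv.cv0.le
  have e : (p.wTh θ).q F 𝔹 v = (p.wTh θ).Gam F 𝔹 ((p.wTh θ).K F 𝔹 v) := rfl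
  rw [e', e]
  have t := abs_sub_le ((p.wTh θ').GamN F 𝔹 ((p.wTh θ').xi F 𝔹 v)) ((p.wTh θ).GamN F 𝔹 ((p.wTh θ').xi F 𝔹 v)) ((p.wTh θ).Gam F 𝔹 ((p.wTh θ).K F 𝔹 v))
  rw [abs_sub_comm ((p.wTh θ).GamN F 𝔹 ((p.wTh θ').xi F 𝔹 v))] at t
  linarith

/-- the size path WITHOUT the clamp of the parameter      (`l9PtS F N γ θ` of `L09/Contract.lean` is this point, by `rfl`) -/
noncomputable def ll04vS (F : LlFix) (N : ℕ) (γ : Fin (N + 1) → ℝ) (θ : ℝ) : LlPt := ll04Pt N (Real.exp (θ / 6)) (skX N ^ F.pS) 1 0 true γ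

theorem ll04v_S_siz (F : LlFix) (N : ℕ) (Θ : ℝ) (γ : Fin (N + 1) → ℝ) (θ : ℝ) : ll04Siz F N Θ γ θ = ll04vS F N γ (ll04U Θ θ) := rfl

theorem ll04v_S_ok (F : LlFix) (hp : F.pS ≤ 12) {N : ℕ} (hN : 2 ≤ N) (γ : Fin (N + 1) → ℝ) {θ : ℝ} (hθ : θ ∈ Icc (0 : ℝ) (Real.log 2)) : (ll04vS F N γ θ).Ok F := by
  have := ll04w_ok F hp hN (Θ := Real.log 2) ⟨Real.log_nonneg (by norm_num), le_rfl⟩ γ θ
  rwa [ll04v_S_siz, ll04w_U_of_mem hθ] at this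

/-- **(V2)**: on the size path the values of `K` at a position do not see `γ`, are antitone in `θ` with values in `[0, M]`, and dominate the variation of the values of `b`, `h` -/
structure Ll04vDom (𝔹 : LlBase) (F : LlFix) (A : ℝ) (N : ℕ) : Prop where
  A0 : 0 ≤ A
  adm_b : ∀ γ, ∀ θ ∈ Icc (0 : ℝ) (Real.log 2), GhClk1 4 ((ll04vS F N γ θ).b F 𝔹)
  adm_h : ∀ γ, ∀ θ ∈ Icc (0 : ℝ) (Real.log 2), GhClk1 4 ((ll04vS F N γ θ).h F 𝔹)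
  adm_K : ∀ γ, ∀ θ ∈ Icc (0 : ℝ) (Real.log 2), GhClk1 4 ((ll04vS F N γ θ).K F 𝔹)
  K_gam : ∀ γ γ' θ, (ll04vS F N γ θ).K F 𝔹 = (ll04vS F N γ' θ).K F 𝔹
  K_nn : ∀ γ, ∀ θ ∈ Icc (0 : ℝ) (Real.log 2), ∀ p : GhPos, p.Ok 4 → 0 ≤ ghAt 4 ((ll04vS F N γ θ).K F 𝔹) p
  K_le : ∀ γ, ∀ θ ∈ Icc (0 : ℝ) (Real.log 2), ∀ p : GhPos, p.Ok 4 → ghAt 4 ((ll04vS F N γ θ).K F 𝔹) p ≤ Real.log (1 / skX N) ^ 3
  K_anti : ∀ γ, ∀ θ ∈ Icc (0 : ℝ) (Real.log 2), ∀ θ' ∈ Icc (0 : ℝ) (Real.log 2), θ ≤ θ' → ∀ p : GhPos, p.Ok 4 →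
    ghAt 4 ((ll04vS F N γ θ').K F 𝔹) p ≤ ghAt 4 ((ll04vS F N γ θ).K F 𝔹) p
  dom_b : ∀ γ, ∀ θ ∈ Icc (0 : ℝ) (Real.log 2), ∀ θ' ∈ Icc (0 : ℝ) (Real.log 2), θ ≤ θ' → ∀ p : GhPos, p.Ok 4 →
    |ghAt 4 ((ll04vS F N γ θ').b F 𝔹) p - ghAt 4 ((ll04vS F N γ θ).b F 𝔹) p| ≤ A * (θ' - θ)
  dom_h : ∀ γ, ∀ θ ∈ Icc (0 : ℝ) (Real.log 2), ∀ θ' ∈ Icc (0 : ℝ) (Real.log 2), θ ≤ θ' → ∀ p : GhPos, p.Ok 4 →
    |ghAt 4 ((ll04vS F N γ θ').h F 𝔹) p - ghAt 4 ((ll04vS F N γ θ).h F 𝔹) p|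
      ≤ A * (ghAt 4 ((ll04vS F N γ θ).K F 𝔹) p - ghAt 4 ((ll04vS F N γ θ').K F 𝔹) p) + A * (θ' - θ)

/-- four clocks: `|c₁ - c₂| ≤ A (c₃ - c₄) + R` passes to positions -/
theorem ll04v_at_dom {a : ℝ} (ha : 0 < a) {c1 c2 c3 c4 : ℝ → ℝ} (h1 : GhClk1 a c1) (h2 : GhClk1 a c2) (h3 : GhClk1 a c3) (h4 : GhClk1 a c4)
    (e1 : Tendsto c1 (𝓝[<] a) (𝓝 (c1 a))) (e2 : Tendsto c2 (𝓝[<] a) (𝓝 (c2 a))) (e3 : Tendsto c3 (𝓝[<] a) (𝓝 (c3 a))) (e4 : Tendsto c4 (𝓝[<] a) (𝓝 (c4 a)))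
    {A R : ℝ} (hR : 0 ≤ R) (h : ∀ v ∈ Ioo 0 a, |c1 v - c2 v| ≤ A * (c3 v - c4 v) + R) {p : GhPos} (hp : p.Ok a) :
    |ghAt a c1 p - ghAt a c2 p| ≤ A * (ghAt a c3 p - ghAt a c4 p) + R := by
  have hc : ∀ i ∈ (Finset.univ : Finset (Fin 4)), GhClk1 a ((![c1, c2, c3, c4] : Fin 4 → ℝ → ℝ) i) := by
    intro i _; fin_cases i <;> simpa
  have he : ∀ i ∈ (Finset.univ : Finset (Fin 4)), Tendsto ((![c1, c2, c3, c4] : Fin 4 → ℝ → ℝ) i) (𝓝[<] a) (𝓝 ((![c1, c2, c3, c4] : Fin 4 → ℝ → ℝ) i a)) := by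
    intro i _; fin_cases i <;> simpa
  have k1 := ll04v_at_lin ha (Finset.univ : Finset (Fin 4)) ![1, -1, -A, A] ![c1, c2, c3, c4] hc hR
    (ll04v_lin_end ha _ _ _ he (fun v hv => by
      have := (abs_le.1 (h v hv)).2
      simp only [Fin.sum_univ_four, Matrix.cons_val_zero, Matrix.cons_val_one, Matrix.cons_val]
      linarith)) hp
  have k2 := ll04v_at_lin ha (Finset.univ : Finset (Fin 4)) ![-1, 1, -A, A] ![c1, c2, c3, c4] hc hR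
    (ll04v_lin_end ha _ _ _ he (fun v hv => by
      have := (abs_le.1 (h v hv)).1
      simp only [Fin.sum_univ_four, Matrix.cons_val_zero, Matrix.cons_val_one, Matrix.cons_val]
      linarith)) hp
  simp only [Fin.sum_univ_four, Matrix.cons_val_zero, Matrix.cons_val_one, Matrix.cons_val] at k1 k2
  rw [abs_le]
  constructor <;> linarith

/-- one clock: two-sided bounds pass to positions -/
theorem ll04v_at_rg {a : ℝ} (ha : 0 < a) {c : ℝ → ℝ} (hc : GhClk1 a c) {R : ℝ} (h : ∀ v ∈ Ioc 0 a, c v ≤ R) {p : GhPos} (hp : p.Ok a) :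
    0 ≤ ghAt a c p ∧ ghAt a c p ≤ R := by
  have hca : ∀ v ∈ Ioc 0 a, 0 ≤ c v := fun v hv => hc.2.trans (hc.1 ⟨le_rfl, ha.le⟩ ⟨hv.1.le, hv.2⟩ hv.1.le)
  have hR : 0 ≤ R := (hca a ⟨ha, le_rfl⟩).trans (h a ⟨ha, le_rfl⟩)
  have k1 := ll04v_at_lin ha (Finset.univ : Finset (Fin 1)) ![1] ![c] (by intro i _; fin_cases i; simpa) hR
    (fun v hv => by simpa using h v hv) hp
  have k2 := ll04v_at_lin ha (Finset.univ : Finset (Fin 1)) ![-1] ![c] (by intro i _; fin_cases i; simpa) le_rfl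
    (fun v hv => by simpa using hca v hv) hp
  simp at k1 k2
  exact ⟨k2, k1⟩

/-- admissibility of the three clocks at one point -/
theorem ll04v_adm (F : LlFix) (𝔹 : LlBase) {Cb CR CT ξ0 Cv cv : ℝ} {N0 N1 : ℕ} (env : Ll04cEnv 𝔹 F Cb CR CT ξ0 N0) (venv : Ll04vEnv 𝔹 F Cv cv N1)
    (p : LlPt) (hp : p.Ok F) (hN : N0 ≤ p.N) (hN1 : N1 ≤ p.N) : GhClk1 p.a (p.b F 𝔹) ∧ GhClk1 p.a (p.h F 𝔹) ∧ GhClk1 p.a (p.K F 𝔹) := by
  have h0a : (0 : ℝ) ∈ Icc 0 p.a := ⟨le_rfl, by linarith [(lce_a_mem hp).1]⟩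
  exact ⟨⟨env.mb p hp hN, (env.b_rg p hp hN 0 h0a).1⟩, ⟨env.mh p hp hN, env.h_nn p hp hN 0 h0a⟩, ⟨env.mK p hp hN, venv.K_nn p hp hN1 0 h0a⟩⟩

/-- the constant of (V2) -/
noncomputable def ll04vCa (Cb CT Cv cv : ℝ) : ℝ := 1 + Cb / cv + Cb * Cv + CT + Cb + 2

/-- **(V2)** -/
theorem ll04v_dom (F : LlFix) (hF : F.Ok) (𝔹 : LlBase) {Cb CR CT ξ0 Cv cv : ℝ} {N0 N1 : ℕ} (env : Ll04cEnv 𝔹 F Cb CR CT ξ0 N0)
    (venv : Ll04vEnv 𝔹 F Cv cv N1) (hE : LlExpOk F.sS F.eta F.pS) {N : ℕ} (hN : N0 ≤ N) (hN1 : N1 ≤ N) :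
    Ll04vDom 𝔹 F (ll04vCa Cb CT Cv cv * (1 + Real.log (1 / skX N)) ^ 3) N := by
  have hN2 : 2 ≤ N := env.N2.trans hN
  have hp12 : F.pS ≤ 12 := by linarith [hE.p_hi]
  have hx := ll04w_x_mem (N := N) (by omega)
  have hL0 := lcd_L_ge (skX N) hx.1 hx.2
  have hCb := env.Cb0
  have hCT := env.CT0
  have hCv := venv.Cv0
  have hcv := venv.cv0
  set L0 := Real.log (1 / skX N) with hL0d
  set A := ll04vCa Cb CT Cv cv * (1 + L0) ^ 3 with hA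
  have h13 : 1 + L0 ^ 3 ≤ (1 + L0) ^ 3 := by nlinarith [mul_nonneg hL0 hL0]
  have h1 : 1 ≤ (1 + L0) ^ 3 := by nlinarith [pow_nonneg hL0 3]
  have hq0 : 0 ≤ Cb / cv := by positivity
  have hCa0 : 0 ≤ ll04vCa Cb CT Cv cv := by unfold ll04vCa; positivity
  have hA0 : 0 ≤ A := by positivity
  have hA1 : 1 + Cb / cv ≤ A := by
    calc 1 + Cb / cv ≤ ll04vCa Cb CT Cv cv := by unfold ll04vCa; nlinarith [mul_nonneg hCb hCv]
      _ ≤ A := le_mul_of_one_le_right hCa0 h1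
  have hA2 : Cb * (Cv * (1 + L0 ^ 3)) + (CT + Cb + 2) ≤ A := by
    have e : A = (1 + Cb / cv) * (1 + L0) ^ 3 + Cb * Cv * (1 + L0) ^ 3 + (CT + Cb + 2) * (1 + L0) ^ 3 := by rw [hA]; unfold ll04vCa; ring
    have s1 : Cb * (Cv * (1 + L0 ^ 3)) ≤ Cb * Cv * (1 + L0) ^ 3 := by
      rw [← mul_assoc]; exact mul_le_mul_of_nonneg_left h13 (by positivity)
    have s2 : CT + Cb + 2 ≤ (CT + Cb + 2) * (1 + L0) ^ 3 := le_mul_of_one_le_right (by positivity) h1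
    have s3 : 0 ≤ (1 + Cb / cv) * (1 + L0) ^ 3 := by positivity
    linarith
  have hA3 : CT + Cb ≤ A := by nlinarith [mul_nonneg hCb (mul_nonneg hCv (by positivity : (0 : ℝ) ≤ 1 + L0 ^ 3))]
  have h00 : (0 : ℝ) ∈ Icc (0 : ℝ) (Real.log 2) := ⟨le_rfl, Real.log_nonneg (by norm_num)⟩
  have hok : ∀ γ, ∀ θ ∈ Icc (0 : ℝ) (Real.log 2), (ll04vS F N γ θ).Ok F := fun γ θ hθ => ll04v_S_ok F hp12 hN2 γ hθ
  have ha : ∀ γ θ, (ll04vS F N γ θ).a = 4 := fun γ θ => by simp [LlPt.a, ll04vS, ll04Pt]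
  have adm : ∀ γ, ∀ θ ∈ Icc (0 : ℝ) (Real.log 2),
      GhClk1 4 ((ll04vS F N γ θ).b F 𝔹) ∧ GhClk1 4 ((ll04vS F N γ θ).h F 𝔹) ∧ GhClk1 4 ((ll04vS F N γ θ).K F 𝔹) := fun γ θ hθ => by
    have := ll04v_adm F 𝔹 env venv _ (hok γ θ hθ) hN hN1
    rwa [ha] at this
  have eb : ∀ γ, ∀ θ ∈ Icc (0 : ℝ) (Real.log 2), Tendsto ((ll04vS F N γ θ).b F 𝔹) (𝓝[<] 4) (𝓝 ((ll04vS F N γ θ).b F 𝔹 4)) := fun γ θ hθ => by
    have := venv.eb _ (hok γ θ hθ) hN1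
    rwa [ha] at this
  have eh : ∀ γ, ∀ θ ∈ Icc (0 : ℝ) (Real.log 2), Tendsto ((ll04vS F N γ θ).h F 𝔹) (𝓝[<] 4) (𝓝 ((ll04vS F N γ θ).h F 𝔹 4)) := fun γ θ hθ => by
    have := venv.eh _ (hok γ θ hθ) hN1
    rwa [ha] at this
  have eK : ∀ γ, ∀ θ ∈ Icc (0 : ℝ) (Real.log 2), Tendsto ((ll04vS F N γ θ).K F 𝔹) (𝓝[<] 4) (𝓝 ((ll04vS F N γ θ).K F 𝔹 4)) := fun γ θ hθ => by
    have := venv.eK _ (hok γ θ hθ) hN1
    rwa [ha] at this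
  have hK : ∀ γ, ∀ θ ∈ Icc (0 : ℝ) (Real.log 2), ∀ θ' ∈ Icc (0 : ℝ) (Real.log 2), θ ≤ θ' → ∀ v ∈ Icc (0 : ℝ) 4,
      0 ≤ (ll04vS F N γ θ').K F 𝔹 v ∧ (ll04vS F N γ θ').K F 𝔹 v ≤ (ll04vS F N γ θ).K F 𝔹 v ∧ (ll04vS F N γ θ).K F 𝔹 v ≤ L0 ^ 3 := by
    intro γ θ hθ θ' _ hle v hv
    obtain ⟨k0, k1, k2, k3⟩ := ll04v_K F 𝔹 (ll04vS F N γ 0) hN2 rfl hθ.1 hle v hv
    exact ⟨k0, k1.trans k2, k3⟩
  have h4 : (0 : ℝ) < 4 := by norm_num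
  refine ⟨hA0, fun γ θ hθ => (adm γ θ hθ).1, fun γ θ hθ => (adm γ θ hθ).2.1, fun γ θ hθ => (adm γ θ hθ).2.2, fun _ _ _ => rfl,
    fun γ θ hθ p hp => (ll04v_at_rg h4 (adm γ θ hθ).2.2 (fun v hv => (hK γ θ hθ θ hθ le_rfl v ⟨hv.1.le, hv.2⟩).2.2) hp).1,
    fun γ θ hθ p hp => (ll04v_at_rg h4 (adm γ θ hθ).2.2 (fun v hv => (hK γ θ hθ θ hθ le_rfl v ⟨hv.1.le, hv.2⟩).2.2) hp).2,
    fun γ θ hθ θ' hθ' hle p hp => ?_, fun γ θ hθ θ' hθ' hle p hp => ?_, fun γ θ hθ θ' hθ' hle p hp => ?_⟩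
  · have k := ll04v_at_lin h4 (Finset.univ : Finset (Fin 2)) ![1, -1] ![(ll04vS F N γ θ').K F 𝔹, (ll04vS F N γ θ).K F 𝔹]
      (by intro i _; fin_cases i; exacts [(adm γ θ' hθ').2.2, (adm γ θ hθ).2.2]) le_rfl
      (fun v hv => by
        have := (hK γ θ hθ θ' hθ' hle v ⟨hv.1.le, hv.2⟩).2.1
        simp only [Fin.sum_univ_two, Matrix.cons_val_zero, Matrix.cons_val_one]
        linarith) hp
    simp only [Fin.sum_univ_two, Matrix.cons_val_zero, Matrix.cons_val_one] at k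
    linarith
  · refine ll04v_at_sub h4 (adm γ θ' hθ').1 (adm γ θ hθ).1 (ll04v_sub_end h4 (eb γ θ' hθ') (eb γ θ hθ) fun v hv => ?_) hp
    have kb := (ll04v_th_core F hF 𝔹 env hE (ll04vS F N γ 0) (hok γ 0 h00) hN rfl hθ hθ' v hv).1
    rw [abs_of_nonneg (sub_nonneg.2 hle)] at kb
    exact kb.trans (mul_le_mul_of_nonneg_right hA3 (sub_nonneg.2 hle))
  · refine ll04v_at_dom h4 (adm γ θ' hθ').2.1 (adm γ θ hθ).2.1 (adm γ θ hθ).2.2 (adm γ θ' hθ').2.2 (eh γ θ' hθ') (eh γ θ hθ) (eK γ θ hθ) (eK γ θ' hθ')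
      (mul_nonneg hA0 (sub_nonneg.2 hle)) (fun v hv => ?_) hp
    have hv' : v ∈ Icc (0 : ℝ) 4 := ⟨hv.1.le, hv.2.le⟩
    have kh := (ll04v_th_core F hF 𝔹 env hE (ll04vS F N γ 0) (hok γ 0 h00) hN rfl hθ hθ' v hv).2
    have kq := ll04v_q F 𝔹 venv (ll04vS F N γ 0) (hok γ 0 h00) hN1 rfl hθ hθ' hle v hv'
    have kK := (hK γ θ hθ θ' hθ' hle v hv').2.1
    have e1 : ∀ t, (ll04vS F N γ 0).wTh t = ll04vS F N γ t := fun _ => rfl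
    have eM : (ll04vS F N γ 0).M = L0 ^ 3 := rfl
    rw [e1, e1] at kh kq
    rw [eM] at kq
    rw [abs_of_nonneg (sub_nonneg.2 hle), abs_sub_comm ((ll04vS F N γ θ').K F 𝔹 v), abs_of_nonneg (sub_nonneg.2 kK)] at kh
    set D := (ll04vS F N γ θ).K F 𝔹 v - (ll04vS F N γ θ').K F 𝔹 v with hD
    have hD0 : 0 ≤ D := sub_nonneg.2 kK
    have hd0 : 0 ≤ θ' - θ := sub_nonneg.2 hle
    have s1 := mul_le_mul_of_nonneg_left kq hCb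
    have s2 : D + Cb * (D / cv) = (1 + Cb / cv) * D := by ring
    have s3 := mul_le_mul_of_nonneg_right hA1 hD0
    have s4 := mul_le_mul_of_nonneg_right hA2 hd0
    nlinarith

/-! ## 3. the package -/

theorem Ll04vAt.mono {𝔹 : LlBase} {F : LlFix} {Lip Lip' a0 : ℝ} {N : ℕ} {pt : (Fin (N + 1) → ℝ) → ℝ → LlPt} (h : Ll04vAt 𝔹 F Lip a0 N pt) (hL : Lip ≤ Lip') :
    Ll04vAt 𝔹 F Lip' a0 N pt :=
  ⟨h.a_eq, h.adm_b, h.adm_h, h.adm_K,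
    fun γ γ' t t' p hp => (h.lip_b γ γ' t t' p hp).trans (mul_le_mul_of_nonneg_right hL (add_nonneg (abs_nonneg _) dist_nonneg)),
    fun γ γ' t t' p hp => (h.lip_h γ γ' t t' p hp).trans (mul_le_mul_of_nonneg_right hL (add_nonneg (abs_nonneg _) dist_nonneg)),
    fun γ γ' t t' p hp => (h.lip_K γ γ' t t' p hp).trans (mul_le_mul_of_nonneg_right hL (add_nonneg (abs_nonneg _) dist_nonneg))⟩

theorem Ll04vDom.mono {𝔹 : LlBase} {F : LlFix} {A A' : ℝ} {N : ℕ} (h : Ll04vDom 𝔹 F A N) (hA : A ≤ A') : Ll04vDom 𝔹 F A' N :=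
  ⟨h.A0.trans hA, h.adm_b, h.adm_h, h.adm_K, h.K_gam, h.K_nn, h.K_le, h.K_anti,
    fun γ θ hθ θ' hθ' hle p hp => (h.dom_b γ θ hθ θ' hθ' hle p hp).trans (mul_le_mul_of_nonneg_right hA (sub_nonneg.2 hle)),
    fun γ θ hθ θ' hθ' hle p hp => (h.dom_h γ θ hθ θ' hθ' hle p hp).trans
      (add_le_add (mul_le_mul_of_nonneg_right hA (sub_nonneg.2 (h.K_anti γ θ hθ θ' hθ' hle p hp))) (mul_le_mul_of_nonneg_right hA (sub_nonneg.2 hle)))⟩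

/-- **VALUES** (node REG of LL 09): (V1) on the four segments and (V2) on the size path, from the P-list of LL 03, for an abstract base.
`Lip = C (1 + log 1/x)^6` on the direct segments, `C / ω` on the size segment;   `A = C (1 + log 1/x)^3` in the domination. -/
theorem ll04v_main (𝔹 : LlBase) (F : LlFix) (hE : LlExpOk F.sS F.eta F.pS) (hP : LlBaseProfile 𝔹 F.T) (h3 : LlSec3 𝔹 F) :
    ∃ (C : ℝ) (N0 : ℕ), 0 ≤ C ∧ 2 ≤ N0 ∧ ∀ N : ℕ, N0 ≤ N →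
      (∀ ell : ℝ, ell ∈ Icc (1 : ℝ) ((2 : ℝ) ^ (1 / 6 : ℝ)) → ∀ i : Fin 3, Ll04vAt 𝔹 F (C * (1 + Real.log (1 / skX N)) ^ 6) ell N (ll04Dir F N ell i)) ∧
      (∀ Θ : ℝ, Θ ∈ Icc (0 : ℝ) (Real.log 2) → Ll04vAt 𝔹 F (C / skX N ^ (5 + 1 / 4 : ℝ)) 4 N (ll04Siz F N Θ)) ∧
      Ll04vDom 𝔹 F (C * (1 + Real.log (1 / skX N)) ^ 3) N := by
  have hF := h3.ok
  obtain ⟨Cb, CR, CT, ξ0, N0, env⟩ := ll04c_env 𝔹 F h3
  obtain ⟨Cv, cv, N1, venv⟩ := ll04v_env 𝔹 F h3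
  obtain ⟨CH, hHe⟩ := exit_llclk_he F 𝔹 hF hP
  obtain ⟨B, hB0, hB⟩ := ll04c_phi_bd F hF
  have hCg := ll04c_Cg_nn F hF hB0
  have hCb := env.Cb0
  have hCT := env.CT0
  have hCR := env.CR0
  have hCv := venv.Cv0
  have hcv := venv.cv0
  have hCH := hHe.nn
  have a1 : 0 ≤ ll04vCd F B Cb CR CH := by
    have := ll04v_CC_nn F hF hB0 hCb hCR hCH
    unfold ll04vCd; positivity
  have a2 : 0 ≤ ll04vCs F B Cb CT Cv := by unfold ll04vCs; positivity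
  have a3 : 0 ≤ ll04vCa Cb CT Cv cv := by unfold ll04vCa; positivity
  refine ⟨ll04vCd F B Cb CR CH + ll04vCs F B Cb CT Cv + ll04vCa Cb CT Cv cv, max N0 N1, by positivity, env.N2.trans (le_max_left _ _), fun N hN => ?_⟩
  have hN0 : N0 ≤ N := (le_max_left _ _).trans hN
  have hN1 : N1 ≤ N := (le_max_right _ _).trans hN
  have hN2 : 2 ≤ N := env.N2.trans hN0
  have hx := ll04w_x_mem (N := N) (by omega)
  have hL0 := lcd_L_ge (skX N) hx.1 hx.2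
  have hom0 : 0 < skX N ^ (5 + 1 / 4 : ℝ) := Real.rpow_pos_of_pos hx.1 _
  refine ⟨fun ell hl i => (ll04v_dir F hF 𝔹 hB env venv hHe hE hN0 hN1 hl i).mono (mul_le_mul_of_nonneg_right (by linarith) (by positivity)),
    fun Θ hΘ => (ll04v_siz F hF 𝔹 hB env venv hE hN0 hN1 hΘ).mono (div_le_div_of_nonneg_right (by linarith) hom0.le),
    (ll04v_dom F hF 𝔹 env venv hE hN0 hN1).mono (mul_le_mul_of_nonneg_right (by linarith) (by positivity))⟩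

theorem ll04v_eqns_cite : True := by
  have := @ll04vCd.eq_1
  have := @ll04vCs.eq_1
  have := @ll04vCa.eq_1
  have := @ll04vS.eq_1
  trivial

end Claimed.Agent.R286
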