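import Claimed.Agent.R286.LL04.ClkSup

/-!
# Row 286 (S0533), unit LL04, file ClkY: THE SUPPLY `L8yClk` (direct clocks at function level) FROM THE P-LIST OF LL 03      (owner helper258; prefix `ll04y_`, `Ll04y`)

`L8yClk 𝔹 F` is typed by helper78 in `L08/CSP.lean` (consumers `l8y_coarse`, `l8y_switch` = `L9Coarse`, `L9Switch`).   Abstract base `𝔹`; hypotheses `LlExpOk`, `LlBaseProfile`, `LlSec3`.
THIS FILE DOES NOT IMPORT `L08/CSP.lean` (shallow DAG; CSP moves a lot): `Ll04yPar`, `Ll04yClk` below are VERBATIM COPIES of `L8yPar`, `L8yClk`, so that   `(ll04y_clk 𝔹 F hE hP h3 : L8yClk 𝔹 F)`   typechecks by unfolding (`exact`).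
* §1  arithmetic: `λ' log (λ'/λ) ≤ (1 + log (λ'/λ)) (λ' - λ)`;   `(1 + log 1/x)^k ≤ C_{k,δ} x^(-δ)`.
* §2  SHARP moves in the strength: `|Δ_λ b|, |Δ_λ h| ≤ C (1 + log 1/x) λ' log (λ'/λ)` (the moves of `LL04/Clk.lean` lose the factor `λ'`).
* §3  the glue:   (1) `LlAdm`, (SLOPE) = `lch_LlSlope`, `ll04c_bd`, `Ll04cHe.abs`;   (2) `LlEqui`;   (3) §2 + `LlAdmEnd` at `v = ℓ`.
TEX[LL:paths:parameter-regularity] (03 l.356-490)
-/

set_option autoImplicit false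

namespace Claimed.Agent.R286

open MeasureTheory Set Filter Topology

/-! ## 1. arithmetic -/

/-- `λ' log (λ'/λ) ≤ (1 + log (λ'/λ)) (λ' - λ)` -/
theorem ll04y_mu_le {lam l' : ℝ} (h0 : 0 < lam) (h1 : lam ≤ l') : l' * Real.log (l' / lam) ≤ (1 + Real.log (l' / lam)) * (l' - lam) := by
  have hr : 0 < l' / lam := div_pos (h0.trans_le h1) h0
  have h2 := Real.log_le_sub_one_of_pos hr
  have h3 : lam * Real.log (l' / lam) ≤ l' - lam := by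
    have := mul_le_mul_of_nonneg_left h2 h0.le
    have e : lam * (l' / lam - 1) = l' - lam := by field_simp
    linarith
  have e : (1 + Real.log (l' / lam)) * (l' - lam) = (l' - lam) - lam * Real.log (l' / lam) + l' * Real.log (l' / lam) := by ring
  linarith

/-- `log (λ'/λ) ≤ 12 log (1/x)` in the range of (P1) -/
theorem ll04y_log_le {x lam l' : ℝ} (hx : 0 < x) (h0 : x ^ (12 : ℝ) ≤ lam) (h1 : 0 < l') (h2 : l' ≤ 1) : Real.log (l' / lam) ≤ 12 * Real.log (1 / x) := by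
  have hx12 : 0 < x ^ (12 : ℝ) := Real.rpow_pos_of_pos hx _
  have hlam : 0 < lam := hx12.trans_le h0
  rw [Real.log_div h1.ne' hlam.ne', one_div, Real.log_inv]
  have k1 : Real.log l' ≤ 0 := Real.log_nonpos h1.le h2
  have k2 : 12 * Real.log x ≤ Real.log lam := by
    rw [← Real.log_rpow hx]
    exact Real.log_le_log hx12 h0
  linarith

/-- subpower loss of the logarithms -/
theorem ll04y_log_pow (k : ℕ) (δ : ℝ) (hδ : 0 < δ) : ∃ C : ℝ, 0 ≤ C ∧ ∀ x : ℝ, 0 < x → x ≤ 1 → (1 + Real.log (1 / x)) ^ k ≤ C * x ^ (-δ) := by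
  set ε : ℝ := δ / (k + 1) with hε
  have hk : (0 : ℝ) < k + 1 := by positivity
  have hε0 : 0 < ε := by positivity
  refine ⟨(1 + 1 / ε) ^ k, by positivity, fun x hx hx1 => ?_⟩
  have hinv : 1 ≤ 1 / x := by rw [le_div_iff₀ hx]; linarith
  have h1 : Real.log (1 / x) ≤ (1 / x) ^ ε / ε := Real.log_le_rpow_div (by positivity) hε0
  have h2 : 1 ≤ (1 / x) ^ ε := Real.one_le_rpow hinv hε0.le
  have h3 : 1 + Real.log (1 / x) ≤ (1 + 1 / ε) * (1 / x) ^ ε := by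
    have : (1 + 1 / ε) * (1 / x) ^ ε = (1 / x) ^ ε + (1 / x) ^ ε / ε := by ring
    linarith
  have h0 : 0 ≤ 1 + Real.log (1 / x) := by have := Real.log_nonneg hinv; linarith
  calc (1 + Real.log (1 / x)) ^ k ≤ ((1 + 1 / ε) * (1 / x) ^ ε) ^ k := pow_le_pow_left₀ h0 h3 k
    _ = (1 + 1 / ε) ^ k * ((1 / x) ^ ε) ^ k := mul_pow _ _ _
    _ ≤ (1 + 1 / ε) ^ k * x ^ (-δ) := by
        refine mul_le_mul_of_nonneg_left ?_ (by positivity)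
        rw [← Real.rpow_natCast, ← Real.rpow_mul (by positivity), one_div, Real.inv_rpow hx.le, ← Real.rpow_neg hx.le]
        refine Real.rpow_le_rpow_of_exponent_ge hx hx1 ?_
        have : ε * k ≤ δ := by
          rw [hε, div_mul_eq_mul_div, div_le_iff₀ hk]
          nlinarith
        linarith

/-! ## 2. sharp moves in the strength -/

/-- move (λ), the matrix clock, with the factor `λ'` -/
theorem ll04y_lam_b (F : LlFix) (hF : F.Ok) (𝔹 : LlBase) {B CR : ℝ} (hB : ∀ w, |F.phi w| ≤ B) (p : LlPt) (hp : p.Ok F) (hs1 : F.sS ≤ 1)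
    (hxb : 8 * p.x ≤ F.vb) (l' : ℝ) (hl : p.lam ≤ l') (hCR : 0 ≤ CR)
    (hb0 : |(p.wLm l').b0 F 𝔹 - p.b0 F 𝔹| ≤ CR * |l' - p.lam|) (v : ℝ) (hv : v ∈ Icc (0 : ℝ) 4) :
    |(p.wLm l').b F 𝔹 v - p.b F 𝔹 v| ≤ ll04cCb F B CR * (l' * Real.log (l' / p.lam)) := by
  have hx := lce_x_pos hp.N2
  have h0 := lce_lam_pos hp
  have hl0 : 0 < l' := h0.trans_le hl
  have hB0 : 0 ≤ B := (abs_nonneg _).trans (hB 0)
  set δ := Real.log (l' / p.lam) with hδdef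
  have hδ : 0 ≤ δ := Real.log_nonneg ((one_le_div h0).2 hl)
  have hdl : |l' - p.lam| ≤ l' * δ := by
    rw [abs_of_nonneg (by linarith)]
    exact lcf_lam_diff p.lam l' h0 hl
  obtain ⟨hG0, hG1⟩ := ll04c_G_bd F hF p hx hxb v hv
  set CG := 16 * max 64 (F.G1 2) with hCG
  have hDy := ll04c_dy_abs F hF hB p hx hxb hp.gu v
  obtain ⟨hU1, hU2⟩ := lcf_U_pow_diff p.x F.sS p.lam l' 2 hx hF.sS0.le h0 hl
  have hUle : lcfU p.x F.sS p.lam ≤ 1 := min_le_left _ _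
  have hUpos : 0 < lcfU p.x F.sS p.lam := lt_min one_pos (mul_pos hx (Real.rpow_pos_of_pos h0 _))
  have hU'le : lcfU p.x F.sS l' ≤ 1 := min_le_left _ _
  have hU'pos : 0 < lcfU p.x F.sS l' := lt_min one_pos (mul_pos hx (Real.rpow_pos_of_pos hl0 _))
  have hg0 : |p.gam0| ≤ 4 := abs_le.2 hp.g0
  have hc1 := hF.c10
  have hcb := hF.cb0
  have e : (p.wLm l').b F 𝔹 v - p.b F 𝔹 v = ((p.wLm l').b0 F 𝔹 - p.b0 F 𝔹)
      + F.cb * ((l' - p.lam) * (p.G F v * (1 - F.c1 * p.gam0) - F.c1 * p.dySum F v - lcfU p.x F.sS l' ^ 2 * (1 + F.c1 * p.gam0))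
        + p.lam * ((lcfU p.x F.sS p.lam ^ 2 - lcfU p.x F.sS l' ^ 2) * (1 + F.c1 * p.gam0))) := by
    show ((p.wLm l').b0 F 𝔹 + F.cb * l' * (p.G F v - lcfU p.x F.sS l' ^ 2 - F.c1 * p.gam0 * (p.G F v + lcfU p.x F.sS l' ^ 2) - F.c1 * p.dySum F v))
      - (p.b0 F 𝔹 + F.cb * p.lam * (p.G F v - lcfU p.x F.sS p.lam ^ 2 - F.c1 * p.gam0 * (p.G F v + lcfU p.x F.sS p.lam ^ 2) - F.c1 * p.dySum F v)) = _
    ring
  have k1 : |1 - F.c1 * p.gam0| ≤ 1 + 4 * F.c1 := by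
    have : |F.c1 * p.gam0| ≤ F.c1 * 4 := by rw [abs_mul, abs_of_pos hc1]; exact mul_le_mul_of_nonneg_left hg0 hc1.le
    calc |1 - F.c1 * p.gam0| ≤ |(1 : ℝ)| + |F.c1 * p.gam0| := abs_sub _ _
      _ ≤ 1 + 4 * F.c1 := by rw [abs_one]; linarith
  have k2 : |1 + F.c1 * p.gam0| ≤ 1 + 4 * F.c1 := by
    have : |F.c1 * p.gam0| ≤ F.c1 * 4 := by rw [abs_mul, abs_of_pos hc1]; exact mul_le_mul_of_nonneg_left hg0 hc1.le
    calc |1 + F.c1 * p.gam0| ≤ |(1 : ℝ)| + |F.c1 * p.gam0| := abs_add_le _ _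
      _ ≤ 1 + 4 * F.c1 := by rw [abs_one]; linarith
  have k3 : |p.G F v * (1 - F.c1 * p.gam0)| ≤ CG * (1 + 4 * F.c1) := ll04c_abs_mul (by rw [abs_of_nonneg hG0]; exact hG1) k1
  have k4 : |F.c1 * p.dySum F v| ≤ F.c1 * (8 * B) := ll04c_abs_mul (by rw [abs_of_pos hc1]) hDy
  have k5 : |lcfU p.x F.sS l' ^ 2 * (1 + F.c1 * p.gam0)| ≤ 1 * (1 + 4 * F.c1) :=
    ll04c_abs_mul (by rw [abs_of_nonneg (sq_nonneg _)]; exact pow_le_one₀ hU'pos.le hU'le) k2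
  have k6 : |p.G F v * (1 - F.c1 * p.gam0) - F.c1 * p.dySum F v - lcfU p.x F.sS l' ^ 2 * (1 + F.c1 * p.gam0)|
      ≤ CG * (1 + 4 * F.c1) + F.c1 * (8 * B) + 1 * (1 + 4 * F.c1) :=
    (abs_sub _ _).trans (add_le_add ((abs_sub _ _).trans (add_le_add k3 k4)) k5)
  have k7 : |lcfU p.x F.sS p.lam ^ 2 - lcfU p.x F.sS l' ^ 2| ≤ δ := by
    rw [abs_of_nonneg hU1]
    refine hU2.trans ?_
    have h3 : lcfU p.x F.sS p.lam ^ 2 ≤ 1 := pow_le_one₀ hUpos.le hUle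
    have h4 : ((2 : ℕ) : ℝ) * (F.sS / 2) * lcfU p.x F.sS p.lam ^ 2 ≤ 1 := by
      push_cast
      have := hF.sS0
      nlinarith [sq_nonneg (lcfU p.x F.sS p.lam)]
    calc ((2 : ℕ) : ℝ) * (F.sS / 2) * lcfU p.x F.sS p.lam ^ 2 * δ ≤ 1 * δ := mul_le_mul_of_nonneg_right h4 hδ
      _ = δ := one_mul _
  have k8 : |p.lam * ((lcfU p.x F.sS p.lam ^ 2 - lcfU p.x F.sS l' ^ 2) * (1 + F.c1 * p.gam0))| ≤ l' * (δ * (1 + 4 * F.c1)) :=
    ll04c_abs_mul (by rw [abs_of_pos h0]; exact hl) (ll04c_abs_mul k7 k2)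
  have k9 := ll04c_abs_mul hdl k6
  have k10 : |(p.wLm l').b0 F 𝔹 - p.b0 F 𝔹| ≤ CR * (l' * δ) := hb0.trans (mul_le_mul_of_nonneg_left hdl hCR)
  rw [e]
  calc _ ≤ |(p.wLm l').b0 F 𝔹 - p.b0 F 𝔹| + |F.cb * ((l' - p.lam) * (p.G F v * (1 - F.c1 * p.gam0) - F.c1 * p.dySum F v - lcfU p.x F.sS l' ^ 2 * (1 + F.c1 * p.gam0))
        + p.lam * ((lcfU p.x F.sS p.lam ^ 2 - lcfU p.x F.sS l' ^ 2) * (1 + F.c1 * p.gam0)))| := abs_add_le _ _
    _ ≤ CR * (l' * δ) + F.cb * (l' * δ * (CG * (1 + 4 * F.c1) + F.c1 * (8 * B) + 1 * (1 + 4 * F.c1)) + l' * (δ * (1 + 4 * F.c1))) := by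
        refine add_le_add k10 (ll04c_abs_mul (by rw [abs_of_pos hcb]) ((abs_add_le _ _).trans (add_le_add k9 k8)))
    _ = ll04cCb F B CR * (l' * δ) := by unfold ll04cCb; ring

/-- **the SHARP Lipschitz bound of `H_e` in the strength** (factor `λ'^(1+η)`)      (proved in `LL04/ClkHe.lean`, helper245: `ll04h_He_lip2`) -/
def Ll04yHe (𝔹 : LlBase) (F : LlFix) (CH : ℝ) : Prop :=
  ∀ p : LlPt, p.sm = false → 2 ≤ p.N → 0 < p.lam → ∀ l2 A v : ℝ, p.lam ≤ l2 → l2 ≤ 1 → 0 ≤ A → v / p.ell ≤ 1 →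
    |(p.wLm l2).xi F 𝔹 v - p.xi F 𝔹 v| ≤ A * Real.log (l2 / p.lam) →
    |(p.wLm l2).He F 𝔹 v - p.He F 𝔹 v| ≤ CH * (1 + A) * (l2 ^ (1 + F.eta) * Real.log (l2 / p.lam))

/-- **(H3')** = `ll04h_He_lip2` (helper245, `LL04/ClkHe.lean`) -/
theorem ll04y_He (F : LlFix) (𝔹 : LlBase) (hF : F.Ok) (hB : LlBaseProfile 𝔹 F.T) : ∃ C : ℝ, 0 ≤ C ∧ Ll04yHe 𝔹 F C := by
  obtain ⟨C, hC0, hC⟩ := ll04h_He_lip2 F 𝔹 hF hB
  refine ⟨C, hC0, fun p hsm hN hlam l2 A v hl _ hA hv hξ => ?_⟩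
  rw [← mul_assoc]
  exact hC p l2 A v hsm hN hlam hl hA hv hξ

/-- move (λ), the field clock, with the factor `λ'` -/
theorem ll04y_lam_h (F : LlFix) (hF : F.Ok) (𝔹 : LlBase) {B CR Cb CH ξ0 : ℝ} (hB : ∀ w, |F.phi w| ≤ B) (hCH : 0 ≤ CH) (hHe : Ll04yHe 𝔹 F CH) (p : LlPt) (hp : p.Ok F)
    (hE : LlExpOk F.sS F.eta F.pS) (hsm : p.sm = false) (hxb : 8 * p.x ≤ F.vb) (l' : ℝ) (hl : p.lam ≤ l') (hl1 : l' ≤ 1) (hCR : 0 ≤ CR)
    (hR : p.RegL F 𝔹 CR ξ0 l') (hb' : ∀ v ∈ Ioo 0 p.a, |(p.wLm l').b F 𝔹 v| ≤ Cb) (hq : ∀ v ∈ Ioo 0 p.a, |p.q F 𝔹 v| ≤ 1)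
    (v : ℝ) (hv : v ∈ Ioo 0 p.a) :
    |(p.wLm l').h F 𝔹 v - p.h F 𝔹 v| ≤ ll04cCh F B CR Cb CH * (1 + Real.log (1 / p.x)) * (l' * Real.log (l' / p.lam)) := by
  have hx := lce_x_pos hp.N2
  have hx1 := (lce_x_lt_one hp.N2).le
  have h0 := lce_lam_pos hp
  have hl0' : 0 < l' := h0.trans_le hl
  have hB0 : 0 ≤ B := (abs_nonneg _).trans (hB 0)
  have ha := lce_a_mem hp
  have hae : p.a = p.ell := lce_a_direct hsm
  have hv4 : v ∈ Icc (0 : ℝ) 4 := ⟨hv.1.le, hv.2.le.trans ha.2⟩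
  have hCb : 0 ≤ Cb := (abs_nonneg _).trans (hb' v hv)
  set δ := Real.log (l' / p.lam) with hδdef
  have hδ : 0 ≤ δ := Real.log_nonneg ((one_le_div h0).2 hl)
  set μ := l' * δ with hμ
  have hμ0 : 0 ≤ μ := by positivity
  have hμδ : μ ≤ δ := by rw [hμ]; exact mul_le_of_le_one_left hδ hl1
  have hdl : |l' - p.lam| ≤ μ := by
    rw [abs_of_nonneg (by linarith)]
    exact lcf_lam_diff p.lam l' h0 hl
  set L := 1 + Real.log (1 / p.x) with hL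
  have hL1 : 1 ≤ L := by have := lcd_L_ge p.x hx hx1; linarith
  have hCbn := ll04c_Cb_nn F hF hB0 hCR
  have hCh : 0 ≤ ll04cCh F B CR Cb CH := by unfold ll04cCh; positivity
  show |(if v < p.x then 0 else (p.wLm l').hS F 𝔹 v + (p.wLm l').Hlo F v + p.chiL * p.Hlin F v + p.chiE * (p.wLm l').He F 𝔹 v)
    - (if v < p.x then 0 else p.hS F 𝔹 v + p.Hlo F v + p.chiL * p.Hlin F v + p.chiE * p.He F 𝔹 v)| ≤ _
  split_ifs with hvx
  · rw [sub_self, abs_zero]; positivity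
  rw [not_lt] at hvx
  have hb := ll04y_lam_b F hF 𝔹 hB p hp (by linarith [hE.s_hi]) hxb l' hl hCR hR.b0 v hv4
  -- the reference field
  have k1 : |(p.wLm l').K F 𝔹 v - p.K F 𝔹 v| ≤ 4 * CR * μ := by
    refine (hR.K v hv).trans ?_
    calc CR * |l' - p.lam| * v ≤ CR * μ * 4 := mul_le_mul (mul_le_mul_of_nonneg_left hdl hCR) hv4.2 hv4.1 (by positivity)
      _ = 4 * CR * μ := by ring
  have k2 : |(p.wLm l').q F 𝔹 v - p.q F 𝔹 v| ≤ CR * μ := by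
    refine (hR.q v hv).trans ?_
    calc CR * |l' - p.lam| * min v 1 ≤ CR * μ * 1 :=
          mul_le_mul (mul_le_mul_of_nonneg_left hdl hCR) (min_le_right _ _) (le_min hv4.1 zero_le_one) (by positivity)
      _ = CR * μ := by ring
  have k3 : |(p.wLm l').hS F 𝔹 v - p.hS F 𝔹 v| ≤ (4 * CR + Cb * CR + ll04cCb F B CR) * μ := by
    have e : (p.wLm l').hS F 𝔹 v - p.hS F 𝔹 v = ((p.wLm l').K F 𝔹 v - p.K F 𝔹 v) - (p.wLm l').b F 𝔹 v * ((p.wLm l').q F 𝔹 v - p.q F 𝔹 v)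
        - ((p.wLm l').b F 𝔹 v - p.b F 𝔹 v) * p.q F 𝔹 v := by
      simp only [LlPt.hS]; ring
    rw [e]
    calc _ ≤ |(p.wLm l').K F 𝔹 v - p.K F 𝔹 v| + |(p.wLm l').b F 𝔹 v * ((p.wLm l').q F 𝔹 v - p.q F 𝔹 v)|
          + |((p.wLm l').b F 𝔹 v - p.b F 𝔹 v) * p.q F 𝔹 v| := (abs_sub _ _).trans (add_le_add_left (abs_sub _ _) _)
      _ ≤ 4 * CR * μ + Cb * (CR * μ) + ll04cCb F B CR * μ * 1 :=
          add_le_add (add_le_add k1 (ll04c_abs_mul (hb' v hv) k2)) (ll04c_abs_mul hb (hq v hv))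
      _ = _ := by ring
  have h4 : l' ^ (1 + F.eta) ≤ l' := by
    calc l' ^ (1 + F.eta) ≤ l' ^ (1 : ℝ) := Real.rpow_le_rpow_of_exponent_ge hl0' hl1 (by linarith [hE.e_lo])
      _ = l' := Real.rpow_one _
  have h5 : 0 ≤ l' ^ (1 + F.eta) := Real.rpow_nonneg hl0'.le _
  -- `H_lo`
  obtain ⟨hlg0, hlg1⟩ := ll04c_log_mem (v := v) hx hp.ell1 (lce_ell_le hp) hx1 hvx
  have k4 : |(p.wLm l').Hlo F v - p.Hlo F v| ≤ 2 * μ * L := by
    have e : (p.wLm l').Hlo F v - p.Hlo F v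
        = (l' ^ (1 + F.eta) * lcfU p.x F.sS l' ^ 3 - p.lam ^ (1 + F.eta) * lcfU p.x F.sS p.lam ^ 3) * Real.log (min v p.ell / p.x) := by
      show l' ^ (1 + F.eta) * lcfU p.x F.sS l' ^ 3 * Real.log (min v p.ell / p.x) - p.lam ^ (1 + F.eta) * lcfU p.x F.sS p.lam ^ 3 * Real.log (min v p.ell / p.x) = _
      ring
    rw [e]
    refine ll04c_abs_mul ?_ (by rw [abs_of_nonneg hlg0]; exact hlg1)
    refine (lcf_lamU_diff p.x F.sS F.eta p.lam l' hx hF.sS0.le hE.e_lo.le h0 hl).trans ?_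
    have hUle : lcfU p.x F.sS p.lam ≤ 1 := min_le_left _ _
    have hUpos : 0 < lcfU p.x F.sS p.lam := lt_min one_pos (mul_pos hx (Real.rpow_pos_of_pos h0 _))
    have h3 : lcfU p.x F.sS p.lam ^ 3 ≤ 1 := pow_le_one₀ hUpos.le hUle
    have h6 : l' ^ (1 + F.eta) * lcfU p.x F.sS p.lam ^ 3 ≤ l' := by
      calc _ ≤ l' * 1 := mul_le_mul h4 h3 (by positivity) hl0'.le
        _ = l' := mul_one _
    have h7 : 1 + F.eta + 3 * F.sS / 2 ≤ 2 := by linarith [hE.e_hi, hE.s_hi]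
    have h8 : 0 ≤ 1 + F.eta + 3 * F.sS / 2 := by linarith [hE.e_lo, hE.s_lo]
    calc (1 + F.eta + 3 * F.sS / 2) * (l' ^ (1 + F.eta) * lcfU p.x F.sS p.lam ^ 3) * δ ≤ 2 * l' * δ :=
          mul_le_mul_of_nonneg_right (mul_le_mul h7 h6 (by positivity) (by norm_num)) hδ
      _ = 2 * μ := by rw [hμ]; ring
  -- `H_e`
  have hl0 : 0 < p.ell := by linarith [hp.ell1]
  have hvl : v / p.ell ≤ 1 := by rw [div_le_one hl0, ← hae]; exact hv.2.le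
  have k5 : |(p.wLm l').xi F 𝔹 v - p.xi F 𝔹 v| ≤ 8 * CR * δ := by
    have e : (p.wLm l').xi F 𝔹 v - p.xi F 𝔹 v = p.ell ^ 2 * ((p.wLm l').K F 𝔹 v - p.K F 𝔹 v) := by
      show _ = p.ell ^ 2 * ((p.ell ^ 2)⁻¹ * (p.wLm l').xi F 𝔹 v - (p.ell ^ 2)⁻¹ * p.xi F 𝔹 v)
      field_simp
    rw [e]
    calc _ ≤ 2 * (4 * CR * μ) := ll04c_abs_mul (by rw [abs_of_nonneg (sq_nonneg _)]; exact lce_ell_sq hp) k1
      _ ≤ 2 * (4 * CR * δ) := by have := mul_le_mul_of_nonneg_left hμδ (by positivity : (0 : ℝ) ≤ 4 * CR); linarith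
      _ = 8 * CR * δ := by ring
  have k6 : |(p.wLm l').He F 𝔹 v - p.He F 𝔹 v| ≤ CH * (1 + 8 * CR) * μ := by
    refine (hHe p hsm hp.N2 h0 l' (8 * CR) v hl hl1 (by positivity) hvl k5).trans ?_
    refine mul_le_mul_of_nonneg_left ?_ (by positivity)
    rw [hμ]
    exact mul_le_mul_of_nonneg_right h4 hδ
  have k7 : |p.chiE * ((p.wLm l').He F 𝔹 v - p.He F 𝔹 v)| ≤ 1 * (CH * (1 + 8 * CR) * μ) :=
    ll04c_abs_mul (by rw [abs_of_nonneg hp.chiE.1]; exact hp.chiE.2) k6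
  have e : (p.wLm l').hS F 𝔹 v + (p.wLm l').Hlo F v + p.chiL * p.Hlin F v + p.chiE * (p.wLm l').He F 𝔹 v
      - (p.hS F 𝔹 v + p.Hlo F v + p.chiL * p.Hlin F v + p.chiE * p.He F 𝔹 v)
      = ((p.wLm l').hS F 𝔹 v - p.hS F 𝔹 v) + ((p.wLm l').Hlo F v - p.Hlo F v) + p.chiE * ((p.wLm l').He F 𝔹 v - p.He F 𝔹 v) := by ring
  rw [e]
  have hA : 0 ≤ 4 * CR + Cb * CR + ll04cCb F B CR := by positivity
  have hA2 : 0 ≤ CH * (1 + 8 * CR) := by positivity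
  calc _ ≤ |(p.wLm l').hS F 𝔹 v - p.hS F 𝔹 v| + |(p.wLm l').Hlo F v - p.Hlo F v| + |p.chiE * ((p.wLm l').He F 𝔹 v - p.He F 𝔹 v)| :=
        (abs_add_le _ _).trans (add_le_add_left (abs_add_le _ _) _)
    _ ≤ (4 * CR + Cb * CR + ll04cCb F B CR) * μ + 2 * μ * L + 1 * (CH * (1 + 8 * CR) * μ) := add_le_add (add_le_add k3 k4) k7
    _ ≤ (4 * CR + Cb * CR + ll04cCb F B CR) * μ * L + 2 * μ * L + (CH * (1 + 8 * CR) * μ) * L := by
        have m1 : (4 * CR + Cb * CR + ll04cCb F B CR) * μ ≤ (4 * CR + Cb * CR + ll04cCb F B CR) * μ * L := le_mul_of_one_le_right (by positivity) hL1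
        have m2 : CH * (1 + 8 * CR) * μ ≤ CH * (1 + 8 * CR) * μ * L := le_mul_of_one_le_right (by positivity) hL1
        linarith
    _ = ll04cCh F B CR Cb CH * L * μ := by unfold ll04cCh; ring

/-! ## 3. the glue -/

/-- VERBATIM `L8yPar` (`L08/CSP.lean`) -/
def Ll04yPar (F : LlFix) (N : ℕ) (ell lam cL cE : ℝ) : Prop :=
  ell ∈ Icc (1 : ℝ) ((2 : ℝ) ^ (1 / 6 : ℝ)) ∧ lam ∈ Icc (skX N ^ (12 : ℝ)) (skX N ^ F.pS) ∧ cL ∈ Icc (0 : ℝ) 1 ∧ cE ∈ Icc (0 : ℝ) 1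

/-- VERBATIM `L8yClk` (`L08/CSP.lean`, helper78) -/
def Ll04yClk (𝔹 : LlBase) (F : LlFix) : Prop :=
  ∀ δ : ℝ, 0 < δ → ∃ (C : ℝ) (N0 : ℕ), ∀ N : ℕ, N0 ≤ N →
    (∀ (ell lam cL cE : ℝ) (γ : Fin (N + 1) → ℝ), Ll04yPar F N ell lam cL cE →
      GhClk1 ell ((ll04Pt N ell lam cL cE false γ).b F 𝔹) ∧ GhClk1 ell ((ll04Pt N ell lam cL cE false γ).h F 𝔹) ∧
      (∀ v ∈ Icc 0 (skX N), (ll04Pt N ell lam cL cE false γ).b F 𝔹 v = (ll04Pt N ell lam cL cE false γ).b F 𝔹 0) ∧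
      (∀ u1 u2 : ℝ, skX N ≤ u1 → u1 ≤ u2 → u2 ≤ ell →
        (ll04Pt N ell lam cL cE false γ).lam1 F * (ll04Pt N ell lam cL cE false γ).U F ^ 3 * Real.log (u2 / u1)
          ≤ (ll04Pt N ell lam cL cE false γ).h F 𝔹 u2 - (ll04Pt N ell lam cL cE false γ).h F 𝔹 u1) ∧
      (ll04Pt N ell lam cL cE false γ).h F 𝔹 ell ≤ C * skX N ^ (-δ) ∧
      ∀ v ∈ Icc (skX N) ell, |(ll04Pt N ell lam cL cE false γ).He F 𝔹 v| ≤ C * skX N ^ (-δ)) ∧
    (∀ ρ : ℝ, 0 < ρ → ∃ d : ℝ, 0 < d ∧ ∀ (ell lam cL cE : ℝ) (γ : Fin (N + 1) → ℝ), Ll04yPar F N ell lam cL cE →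
      ∀ u1 u2 : ℝ, 0 ≤ u1 → u1 ≤ u2 → u2 ≤ ell → u2 - u1 ≤ d →
        (ll04Pt N ell lam cL cE false γ).b F 𝔹 u2 - (ll04Pt N ell lam cL cE false γ).b F 𝔹 u1 ≤ ρ ∧
        (skX N ≤ u1 → (ll04Pt N ell lam cL cE false γ).h F 𝔹 u2 - (ll04Pt N ell lam cL cE false γ).h F 𝔹 u1 ≤ ρ)) ∧
    ∀ (ell lam lam' : ℝ) (γ : Fin (N + 1) → ℝ), Ll04yPar F N ell lam 0 1 → Ll04yPar F N ell lam' 0 1 → ∀ v ∈ Icc 0 ell,
      |(ll04Pt N ell lam' 0 1 false γ).b F 𝔹 v - (ll04Pt N ell lam 0 1 false γ).b F 𝔹 v| ≤ C * skX N ^ (-δ) * |lam' - lam| ∧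
      |(ll04Pt N ell lam' 0 1 false γ).h F 𝔹 v - (ll04Pt N ell lam 0 1 false γ).h F 𝔹 v| ≤ C * skX N ^ (-δ) * |lam' - lam|

/-- the direct points in the ranges `L8yPar` are admissible parameters -/
theorem ll04y_ok (F : LlFix) {N : ℕ} (hN : 2 ≤ N) {ell lam cL cE : ℝ} (h : Ll04yPar F N ell lam cL cE) (γ : Fin (N + 1) → ℝ) :
    (ll04Pt N ell lam cL cE false γ).Ok F := by
  obtain ⟨hl, hlam, hcL, hcE⟩ := h
  have hcl : ∀ y, ll04Cl y ∈ Icc (-4 : ℝ) 4 := fun y =>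
    ⟨by linarith [(ll04w_cl_mem y).1], by linarith [(ll04w_cl_mem y).2]⟩
  refine ⟨hN, hl.1, hl.2, hlam.1, hlam.2, hcl _, fun h => ?_, hcL, hcE, fun h => absurd h (by simp [ll04Pt])⟩
  show (if hh : h < N then ll04Cl (γ ⟨h + 1, Nat.succ_lt_succ hh⟩) else 1 / 2) ∈ Icc (-4 : ℝ) 4
  split_ifs
  · exact hcl _
  · constructor <;> norm_num

/-- (3) of `L8yClk` for ordered strengths, on the open interval -/
theorem ll04y_lam_pw (F : LlFix) (hF : F.Ok) (𝔹 : LlBase) {B Cb CR CT ξ0 CH : ℝ} {N0 : ℕ} (hB : ∀ w, |F.phi w| ≤ B) (env : Ll04cEnv 𝔹 F Cb CR CT ξ0 N0)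
    (hCH : 0 ≤ CH) (hHe : Ll04yHe 𝔹 F CH) (hE : LlExpOk F.sS F.eta F.pS) (p : LlPt) (hp : p.Ok F) (hN : N0 ≤ p.N) (hsm : p.sm = false)
    (l' : ℝ) (hl : p.lam ≤ l') (hl' : l' ≤ p.x ^ F.pS) :
    (∀ v ∈ Icc (0 : ℝ) 4, |(p.wLm l').b F 𝔹 v - p.b F 𝔹 v| ≤ 12 * (ll04cCb F B CR + ll04cCh F B CR Cb CH) * (1 + Real.log (1 / p.x)) ^ 2 * |l' - p.lam|) ∧
    ∀ v ∈ Ioo 0 p.a, |(p.wLm l').h F 𝔹 v - p.h F 𝔹 v| ≤ 12 * (ll04cCb F B CR + ll04cCh F B CR Cb CH) * (1 + Real.log (1 / p.x)) ^ 2 * |l' - p.lam| := by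
  have hx := lce_x_pos hp.N2
  have hx1 := (lce_x_lt_one hp.N2).le
  have h0 := lce_lam_pos hp
  have hB0 : 0 ≤ B := (abs_nonneg _).trans (hB 0)
  have hok' := ll04c_wLm_ok F p hp hsm l' hl hl'
  have hl1 : l' ≤ 1 := lce_lam_le_one hok' hF.pS0.le
  have hR := env.regL p hp hN hsm l' (hp.lam_lo.trans hl) hl'
  have hL0 := lcd_L_ge p.x hx hx1
  set L := 1 + Real.log (1 / p.x) with hL
  have hL1 : 1 ≤ L := by linarith
  have hC1 := ll04c_Cb_nn F hF hB0 env.CR0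
  have hC2 : 0 ≤ ll04cCh F B CR Cb CH := by have := env.Cb0; have := env.CR0; unfold ll04cCh; positivity
  have hd : 0 ≤ l' - p.lam := by linarith
  -- the modulus
  have hμ : l' * Real.log (l' / p.lam) ≤ 12 * L * |l' - p.lam| := by
    rw [abs_of_nonneg hd]
    refine (ll04y_mu_le h0 hl).trans (mul_le_mul_of_nonneg_right ?_ hd)
    have := ll04y_log_le hx hp.lam_lo (h0.trans_le hl) hl1
    linarith
  have hμ0 : 0 ≤ l' * Real.log (l' / p.lam) := mul_nonneg (h0.trans_le hl).le (Real.log_nonneg ((one_le_div h0).2 hl))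
  have hA0 : 0 ≤ |l' - p.lam| := abs_nonneg _
  constructor
  · intro v hv
    refine (ll04y_lam_b F hF 𝔹 hB p hp (by linarith [hE.s_hi]) (env.xb p hN) l' hl env.CR0 hR.b0 v hv).trans ?_
    calc ll04cCb F B CR * (l' * Real.log (l' / p.lam)) ≤ ll04cCb F B CR * (12 * L * |l' - p.lam|) := mul_le_mul_of_nonneg_left hμ hC1
      _ = 12 * ll04cCb F B CR * L * |l' - p.lam| := by ring
      _ ≤ 12 * (ll04cCb F B CR + ll04cCh F B CR Cb CH) * L ^ 2 * |l' - p.lam| := by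
          refine mul_le_mul_of_nonneg_right ?_ hA0
          refine mul_le_mul (by linarith) (by nlinarith) (by linarith) (by positivity)
  · intro v hv
    refine (ll04y_lam_h F hF 𝔹 hB hCH hHe p hp hE hsm (env.xb p hN) l' hl hl1 env.CR0 hR
      (fun w hw => by
        obtain ⟨b0, b1⟩ := env.b_rg (p.wLm l') hok' hN w ⟨hw.1.le, hw.2.le⟩
        rw [abs_of_nonneg b0]; exact b1)
      (fun w hw => by
        obtain ⟨q0, q1⟩ := env.q_rg p hp hN w hw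
        rw [abs_of_nonneg q0]; exact q1) v hv).trans ?_
    calc ll04cCh F B CR Cb CH * L * (l' * Real.log (l' / p.lam)) ≤ ll04cCh F B CR Cb CH * L * (12 * L * |l' - p.lam|) :=
          mul_le_mul_of_nonneg_left hμ (by positivity)
      _ = 12 * ll04cCh F B CR Cb CH * L ^ 2 * |l' - p.lam| := by ring
      _ ≤ 12 * (ll04cCb F B CR + ll04cCh F B CR Cb CH) * L ^ 2 * |l' - p.lam| := by
          refine mul_le_mul_of_nonneg_right (mul_le_mul_of_nonneg_right (by linarith) (by positivity)) hA0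

/-- **THE SUPPLY `L8yClk`**, modulo the sharp bound of `H_e` -/
theorem ll04y_clk_of (𝔹 : LlBase) (F : LlFix) (hE : LlExpOk F.sS F.eta F.pS) (hP : LlBaseProfile 𝔹 F.T) (h3 : LlSec3 𝔹 F)
    (hSlope : LlUnif F fun p => ∀ v v' : ℝ, p.x ≤ v → v ≤ v' → v' ≤ p.a → p.Hlo F v' - p.Hlo F v ≤ p.h F 𝔹 v' - p.h F 𝔹 v) {CH2 : ℝ} (hCH2 : 0 ≤ CH2)
    (hHe2 : Ll04yHe 𝔹 F CH2) : Ll04yClk 𝔹 F := by
  intro δ hδ
  have hF := h3.ok
  obtain ⟨Cb, CR, CT, ξ0, N0, env⟩ := ll04c_env 𝔹 F h3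
  obtain ⟨Cv, cv, N1, venv⟩ := ll04v_env 𝔹 F h3
  obtain ⟨CH, hHe⟩ := exit_llclk_he F 𝔹 hF hP
  obtain ⟨B, hB0, hB⟩ := ll04c_phi_bd F hF
  obtain ⟨_, _, _, N2, hA⟩ := h3.adm
  obtain ⟨N3, hSl⟩ := hSlope
  obtain ⟨N4, hEq⟩ := h3.equi
  obtain ⟨C6, hC60, hC6⟩ := ll04y_log_pow 6 δ hδ
  obtain ⟨C2, hC20, hC2⟩ := ll04y_log_pow 2 δ hδ
  have hCb := env.Cb0
  have hCR := env.CR0
  have hCH := hHe.nn
  have hxi := hP.xi_pos
  have hK1 : 0 ≤ Cb + 𝔹.xiS F.T + CH + 4 := by positivity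
  have hC1 := ll04c_Cb_nn F hF hB0 hCR
  have hC2' : 0 ≤ ll04cCh F B CR Cb CH2 := by unfold ll04cCh; positivity
  set K3 := 12 * (ll04cCb F B CR + ll04cCh F B CR Cb CH2) with hK3
  have hK30 : 0 ≤ K3 := by positivity
  refine ⟨(Cb + 𝔹.xiS F.T + CH + 4) * C6 + CH + K3 * C2, max (max N0 N1) (max (max N2 N3) N4), fun N hN => ?_⟩
  have n0 : N0 ≤ N := ((le_max_left _ _).trans (le_max_left _ _)).trans hN
  have n1 : N1 ≤ N := ((le_max_right _ _).trans (le_max_left _ _)).trans hN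
  have n2 : N2 ≤ N := (((le_max_left _ _).trans (le_max_left _ _)).trans (le_max_right _ _)).trans hN
  have n3 : N3 ≤ N := (((le_max_right _ _).trans (le_max_left _ _)).trans (le_max_right _ _)).trans hN
  have n4 : N4 ≤ N := ((le_max_right _ _).trans (le_max_right _ _)).trans hN
  have hN2 : 2 ≤ N := env.N2.trans n0
  have hx := ll04w_x_mem (N := N) (by omega)
  have hX0 : 0 < skX N ^ (-δ) := Real.rpow_pos_of_pos hx.1 _
  have hX1 : 1 ≤ skX N ^ (-δ) := Real.one_le_rpow_of_pos_of_le_one_of_nonpos hx.1 hx.2 (by linarith)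
  have h6 := hC6 (skX N) hx.1 hx.2
  have h2 := hC2 (skX N) hx.1 hx.2
  have t1 : 0 ≤ (Cb + 𝔹.xiS F.T + CH + 4) * C6 * skX N ^ (-δ) := by positivity
  have t2 : 0 ≤ CH * skX N ^ (-δ) := by positivity
  have t3 : 0 ≤ K3 * C2 * skX N ^ (-δ) := by positivity
  have eC : ((Cb + 𝔹.xiS F.T + CH + 4) * C6 + CH + K3 * C2) * skX N ^ (-δ)
      = (Cb + 𝔹.xiS F.T + CH + 4) * C6 * skX N ^ (-δ) + CH * skX N ^ (-δ) + K3 * C2 * skX N ^ (-δ) := by ring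
  refine ⟨fun ell lam cL cE γ hpar => ?_, fun ρ hρ => ?_, fun ell lam lam' γ hpar hpar' v hv => ?_⟩
  · -- (1)
    have hok := ll04y_ok F hN2 hpar γ
    set p := ll04Pt N ell lam cL cE false γ with hp
    have ha : p.a = ell := lce_a_direct rfl
    have hpx : p.x = skX N := rfl
    have hl0 : 0 < ell := by linarith [hpar.1.1]
    obtain ⟨a1, a2, _⟩ := ll04v_adm F 𝔹 env venv p hok n0 n1
    rw [ha] at a1 a2
    refine ⟨a1, a2, fun v hv => (hA p hok n2).2.2.2.2.2.2.2 v hv, fun u1 u2 h1 h12 h2' => ?_, ?_, fun v hv => ?_⟩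
    · have k := hSl p hok n3 u1 u2 h1 h12 (by rw [ha]; exact h2')
      refine le_trans (le_of_eq ?_) k
      have hu1 : 0 < u1 := lt_of_lt_of_le hx.1 h1
      have hu2 : 0 < u2 := lt_of_lt_of_le hu1 h12
      show _ = p.lam1 F * p.U F ^ 3 * Real.log (min u2 ell / skX N) - p.lam1 F * p.U F ^ 3 * Real.log (min u1 ell / skX N)
      rw [min_eq_left h2', min_eq_left (h12.trans h2'), Real.log_div hu2.ne' hu1.ne', Real.log_div hu2.ne' hx.1.ne', Real.log_div hu1.ne' hx.1.ne']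
      ring
    · have k := ll04c_bd F hF 𝔹 hP env hHe hE.e_lo.le p hok n0
      rw [ha, hpx] at k
      have hb0 : 0 ≤ p.b F 𝔹 ell := (env.b_rg p hok n0 ell (by rw [ha]; exact ⟨hl0.le, le_rfl⟩)).1
      have k2 : (Cb + 𝔹.xiS F.T + CH + 4) * (1 + Real.log (1 / skX N)) ^ 6 ≤ (Cb + 𝔹.xiS F.T + CH + 4) * (C6 * skX N ^ (-δ)) :=
        mul_le_mul_of_nonneg_left h6 hK1
      rw [eC]
      nlinarith
    · have k := hHe.abs p rfl hN2 hl0 (lce_lam_pos hok) (lce_lam_le_one hok hF.pS0.le) v (by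
        show v / ell ≤ 1
        rw [div_le_one hl0]; exact hv.2)
      obtain ⟨_, _, a3⟩ := ll04c_lam1_le F p hok hF.pS0.le hE.e_lo.le
      have k2 : CH * p.lam1 F ≤ CH * skX N ^ (-δ) := mul_le_mul_of_nonneg_left (a3.trans hX1) hCH
      rw [eC]
      linarith
  · -- (2)
    obtain ⟨d, hd, H⟩ := hEq N n4 ρ hρ
    refine ⟨d, hd, fun ell lam cL cE γ hpar u1 u2 h0 h12 h2' hdd => ?_⟩
    have hok := ll04y_ok F hN2 hpar γ
    have ha : (ll04Pt N ell lam cL cE false γ).a = ell := lce_a_direct rfl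
    obtain ⟨_, _, e3, _, e5⟩ := H _ hok rfl u1 u2 h0 h12 (by rw [ha]; exact h2') hdd
    exact ⟨e3, fun hx1 => e5 (Or.inr hx1)⟩
  · -- (3)
    have key : ∀ lam lam' : ℝ, Ll04yPar F N ell lam 0 1 → Ll04yPar F N ell lam' 0 1 → lam ≤ lam' →
        |(ll04Pt N ell lam' 0 1 false γ).b F 𝔹 v - (ll04Pt N ell lam 0 1 false γ).b F 𝔹 v| ≤ K3 * (1 + Real.log (1 / skX N)) ^ 2 * |lam' - lam| ∧
        |(ll04Pt N ell lam' 0 1 false γ).h F 𝔹 v - (ll04Pt N ell lam 0 1 false γ).h F 𝔹 v| ≤ K3 * (1 + Real.log (1 / skX N)) ^ 2 * |lam' - lam| := by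
      intro lam lam' hpar hpar' hle
      have hok := ll04y_ok F hN2 hpar γ
      have hok' := ll04y_ok F hN2 hpar' γ
      set p := ll04Pt N ell lam 0 1 false γ with hp
      have e' : ll04Pt N ell lam' 0 1 false γ = p.wLm lam' := rfl
      have ha : p.a = ell := lce_a_direct rfl
      have ha' : (p.wLm lam').a = ell := lce_a_direct rfl
      have hl0 : 0 < ell := by linarith [hpar.1.1]
      have hl4 : ell ≤ 4 := by have := (lce_a_mem hok).2; rwa [ha] at this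
      obtain ⟨kb, kh⟩ := ll04y_lam_pw F hF 𝔹 hB env hCH2 hHe2 hE p hok n0 rfl lam' hle hpar'.2.1.2
      rw [e']
      refine ⟨kb v ⟨hv.1, hv.2.trans hl4⟩, ?_⟩
      rcases eq_or_lt_of_le hv.1 with h0 | h0
      · have z1 : (p.wLm lam').h F 𝔹 v = 0 := by
          show (if v < skX N then (0 : ℝ) else _) = 0
          rw [if_pos (by rw [← h0]; exact hx.1)]
        have z2 : p.h F 𝔹 v = 0 := by
          show (if v < skX N then (0 : ℝ) else _) = 0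
          rw [if_pos (by rw [← h0]; exact hx.1)]
        rw [z1, z2, sub_self, abs_zero]
        positivity
      · have e1 := venv.eh _ hok' n1
        have e2 := venv.eh p hok n1
        rw [e', ha'] at e1
        rw [ha] at e2 kh
        exact ll04v_sub_end hl0 e1 e2 kh v ⟨h0, hv.2⟩
    have fin : ∀ y : ℝ, 0 ≤ y → K3 * (1 + Real.log (1 / skX N)) ^ 2 * y ≤ ((Cb + 𝔹.xiS F.T + CH + 4) * C6 + CH + K3 * C2) * skX N ^ (-δ) * y := by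
      intro y hy
      refine mul_le_mul_of_nonneg_right ?_ hy
      have : K3 * (1 + Real.log (1 / skX N)) ^ 2 ≤ K3 * (C2 * skX N ^ (-δ)) := mul_le_mul_of_nonneg_left h2 hK30
      rw [eC]
      nlinarith
    rcases le_total lam lam' with hle | hle
    · obtain ⟨k1, k2⟩ := key lam lam' hpar hpar' hle
      exact ⟨k1.trans (fin _ (abs_nonneg _)), k2.trans (fin _ (abs_nonneg _))⟩
    · obtain ⟨k1, k2⟩ := key lam' lam hpar' hpar hle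
      rw [abs_sub_comm, abs_sub_comm lam lam'] at k1 k2
      exact ⟨k1.trans (fin _ (abs_nonneg _)), k2.trans (fin _ (abs_nonneg _))⟩

/-- **THE SUPPLY `L8yClk`** (78, `L08/CSP.lean`) from the P-list of LL 03, for an abstract base.
(SLOPE) = the field `LlSec3.slope` (batch A2 of 272; producer `lch_LlSlope`, `LL/PathsClkH.lean`, from `LceAll`). -/
theorem ll04y_clk (𝔹 : LlBase) (F : LlFix) (hE : LlExpOk F.sS F.eta F.pS) (hP : LlBaseProfile 𝔹 F.T) (h3 : LlSec3 𝔹 F) : Ll04yClk 𝔹 F := by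
  obtain ⟨CH2, hCH2, hHe2⟩ := ll04y_He F 𝔹 h3.ok hP
  exact ll04y_clk_of 𝔹 F hE hP h3 h3.slope hCH2 hHe2

theorem ll04y_eqns_cite : True := by
  have := @Ll04yHe.eq_1
  have := @Ll04yPar.eq_1
  have := @Ll04yClk.eq_1
  trivial

end Claimed.Agent.R286
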