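import Claimed.Agent.R286.Top.Path
import Claimed.Agent.R286.Top.Lc
import Claimed.Agent.R286.LL.PathsDefs
import Claimed.Agent.R286.Defs.Clk

/-!
# Row 286 (S0533), unit LL04 = LL Sec. 4 (04-reduction.tex): DEFINITIONS      (head helper258, co-head helper245; prefix `ll04`, `Ll04`)

THE path `ll04Path` of the dyad comparison (on the physical points `LlPt` of LL/PathsDefs) and the SEVEN SUPPLIES of the unit, as closed `Prop`s.
The map of the unit (owners, exits) is the header of `LL04/Contract.lean`.   STATEMENTS FROZEN (changes only via helper258).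
-/

set_option autoImplicit false

namespace Claimed.Agent.R286

open MeasureTheory Set
open scoped ENNReal

/-! ## 1. THE path -/

/-- clamp of a coordinate of `γ` to `[1/3, 2/3]` -/
noncomputable def ll04Cl (y : ℝ) : ℝ := max (1 / 3) (min (2 / 3) y)

/-- clamp of a segment parameter to `[0, R]` -/
noncomputable def ll04U (R t : ℝ) : ℝ := max 0 (min R t)

/-- the law of `γ`: independent uniform coordinates on `[1/3, 2/3]` (LL (P3), Sec. 4 l.9-10) -/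
noncomputable def ll04Mu (N : ℕ) : Measure (Fin (N + 1) → ℝ) :=
  Measure.pi fun _ => (3 : ℝ≥0∞) • (volume : Measure ℝ).restrict (Icc (1 / 3 : ℝ) (2 / 3))

/-- a physical point with the parameters `γ` -/
noncomputable def ll04Pt (N : ℕ) (ell lam chiL chiE : ℝ) (sm : Bool) (γ : Fin (N + 1) → ℝ) : LlPt where
  N := N
  ell := ell
  lam := lam
  gam0 := ll04Cl (γ 0)
  gu := fun h => if hh : h < N then ll04Cl (γ ⟨h + 1, Nat.succ_lt_succ hh⟩) else 1 / 2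
  chiL := chiL
  chiE := chiE
  sm := sm

/-- the three DIRECT segments at fixed `ℓ`, parameter `τ ∈ [0,1]`:   `i = 0` strength sweep `log λ : 12 log x → p_* log x` at `(χ_lin, χ_e) = (0,1)`;   `i = 1`: `(0,1) → (1,1)`;   `i = 2`: `(1,1) → (1,0)` -/
noncomputable def ll04Dir (F : LlFix) (N : ℕ) (ell : ℝ) (i : Fin 3) (γ : Fin (N + 1) → ℝ) (τ : ℝ) : LlPt :=
  ll04Pt N ell (if i = 0 then skX N ^ (12 * (1 - ll04U 1 τ) + F.pS * ll04U 1 τ) else skX N ^ F.pS)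
    (if i = 0 then 0 else if i = 1 then ll04U 1 τ else 1) (if i = 2 then 1 - ll04U 1 τ else 1) false γ

/-- the SMOOTHED size segment, `θ ∈ [0, Θ]`, `ℓ = e^(θ/6)`, final strength, `(χ_lin, χ_e) = (1,0)` -/
noncomputable def ll04Siz (F : LlFix) (N : ℕ) (Θ : ℝ) (γ : Fin (N + 1) → ℝ) (θ : ℝ) : LlPt :=
  ll04Pt N (Real.exp (ll04U Θ θ / 6)) (skX N ^ F.pS) 1 0 true γ

/-- `ℓ` at the two ends of the dyad comparison `N → N'` -/
noncomputable def ll04Ell (N N' : ℕ) (e : Fin 2) : ℝ := if e = 0 then 1 else Real.exp (Real.log ((N' : ℝ) / N) / 6)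

/-- **THE path of numbers** of the dyad comparison `N → N'` at the test `s` -/
noncomputable def ll04Path (𝔹 : LlBase) (F : LlFix) (N N' : ℕ) (s : ℝ) : SkPath where
  k := N + 1
  μ := ll04Mu N
  dir := fun e i γ τ m => (ll04Dir F N (ll04Ell N N' e) i γ τ).psi F 𝔹 m s
  siz := fun γ θ m => (ll04Siz F N (Real.log ((N' : ℝ) / N)) γ θ).psi F 𝔹 m s

/-! ## 2. The supplies -/

/-- **SUPPLY (INC)** = LL Prop. 4.1 for `ll04Path`.   TEX[LL:prop:increment]      OWNER: LL 09+10 (helper60; chief 75).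
(1) direct segments: integrated in `(γ, τ)`, fixed `m`.
(2) size segment: WEIGHTED form = the literal field `inc_siz` of `SkPath.Ok` (ruling of 60, 02:56Z: an a.e.-`θ` envelope does not pass to the limit chain → path; the weighted form does, by lower semicontinuity).
    On ONE chain the weighted form follows from the ENVELOPE form (after `E_γ` the bound is uniform in `m` BEFORE the integration in `θ`, LL 10-parameters l.173-202) by `ll04e_main` (LL04/AsmEnv, generic on `SkPath`).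
    The stop is asked on all of `m, …, m+r` (weaker than the paper's central stop).
Integrability of the integrands is NOT asked: it is `ll04_int_dir`, `ll04_int_siz` below (unit LL04): use them for Fubini. -/
def Ll04Inc (𝔹 : LlBase) (F : LlFix) : Prop :=
  ∃ c0 : ℝ, 0 < c0 ∧ ∃ ε0 : ℝ, 0 < ε0 ∧ ∀ ε : ℝ, 0 < ε → ε < ε0 → ∀ q : ℝ, 0 < q → ∃ r0 : ℕ, ∀ r : ℕ, r0 ≤ r → ∀ c : ℕ → ℝ, SkStencil r c →
    ∃ (C : ℝ) (N0 : ℕ), ∀ N : ℕ, N0 ≤ N → ∀ N' : ℕ, N ≤ N' → N' ≤ 2 * N →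
      (∀ (e : Fin 2) (i : Fin 3) (m : ℕ), N ≤ 2 * m → m ≤ 3 * N →
        ∫ p, (ll04Path 𝔹 F N N' (q * skX N ^ (1 + ε))).aD (q * skX N ^ (1 + ε)) (skX N ^ ε) e i m p
          ∂((ll04Path 𝔹 F N N' (q * skX N ^ (1 + ε))).μ.prod (volume.restrict (Icc (0 : ℝ) 1))) ≤ C * skX N ^ (5 + c0)) ∧
      ∀ W : ℕ → ℝ → ℝ, (∀ m, Continuous (W m)) → (∀ m θ, 0 ≤ W m θ) → (∀ θ, ∑ m ∈ Finset.range (3 * N + 1), W m θ ≤ 1) →
        (∀ m θ, W m θ ≠ 0 → N ≤ 2 * m ∧ m + r ≤ 3 * N) →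
        ∫ p, ∑ m ∈ Finset.range (3 * N + 1), W m p.2 * (ll04Path 𝔹 F N N' (q * skX N ^ (1 + ε))).aS (q * skX N ^ (1 + ε)) (skX N ^ ε) r c m p
          ∂((ll04Path 𝔹 F N N' (q * skX N ^ (1 + ε))).μ.prod (volume.restrict (Icc (0 : ℝ) (Real.log ((N' : ℝ) / N))))) ≤ C * skX N ^ (5 + c0)

/-- `L¹(dv)` distance of the clocks of two points with the same terminal mass -/
noncomputable def ll04D (𝔹 : LlBase) (F : LlFix) (p p' : LlPt) : ℝ :=
  ∫ v in (0 : ℝ)..p.a, (|p.b F 𝔹 v - p'.b F 𝔹 v| + |p.h F 𝔹 v - p'.h F 𝔹 v|)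

/-- regularity of the clocks along ONE segment `pt γ t` -/
structure Ll04ClkAt (𝔹 : LlBase) (F : LlFix) (C : ℝ) (N : ℕ) (pt : (Fin (N + 1) → ℝ) → ℝ → LlPt) : Prop where
  adm_b : ∀ γ t, GhClk1 (pt γ t).a ((pt γ t).b F 𝔹)
  adm_h : ∀ γ t, GhClk1 (pt γ t).a ((pt γ t).h F 𝔹)
  bd : ∀ γ t, (pt γ t).b F 𝔹 (pt γ t).a + (pt γ t).h F 𝔹 (pt γ t).a ≤ C * skX N ^ (-(1 / 8 : ℝ))
  lip : ∀ γ γ' t t', ll04D 𝔹 F (pt γ t) (pt γ' t') ≤ C * skX N ^ (-(1 / 8 : ℝ)) * (|t - t'| + dist γ γ')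

/-- **SUPPLY (CLK)**: the physical clocks on the four segments.      OWNER: LL 03 (helper272 / helper253).
Paper: admissibility 03 l.356-437; total clocks `O(1)` (direct), `O(M)` (smoothed), `M = log³(1/x)`; dotted clocks `O_∘(λ)` in `log λ` (03 l.469-479), `‖H_lin‖₁, ‖H_e‖₁ = O(1)`, (P2b) in `θ`; `b, h` affine in `γ` with slopes `O(λ)` ((P3), `h_* = K - b q`). -/
def Ll04Clk (𝔹 : LlBase) (F : LlFix) : Prop :=
  ∃ (C : ℝ) (N0 : ℕ), ∀ N : ℕ, N0 ≤ N →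
    (∀ ell ∈ Icc (1 : ℝ) ((2 : ℝ) ^ (1 / 6 : ℝ)), ∀ i : Fin 3, Ll04ClkAt 𝔹 F C N (ll04Dir F N ell i)) ∧
    (∀ Θ ∈ Icc (0 : ℝ) (Real.log 2), Ll04ClkAt 𝔹 F C N (ll04Siz F N Θ))

/-- **SUPPLY (END)**: at the strength `λ = x^12` the direct clocks are the bare data `(T/ℓ², 0)` up to `O_∘(x^12)` in `L¹` (only `x^6` is asked).      OWNER: LL 03 (helper272 / helper253).
Paper 04 l.241-247: `U = 1`, `Υ(1) = 0` so `H_e = 0`, `H_lo = λ^(1+η) log`, `h_* = O(λ)` ((P2) upper bound, `dt = 0` on the top plateau), `ℓ² b_∘ = T + O(λ)`. -/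
def Ll04End (𝔹 : LlBase) (F : LlFix) : Prop :=
  ∃ (C : ℝ) (N0 : ℕ), ∀ N : ℕ, N0 ≤ N → ∀ ell ∈ Icc (1 : ℝ) ((2 : ℝ) ^ (1 / 6 : ℝ)), ∀ γ : Fin (N + 1) → ℝ,
    ∫ v in (0 : ℝ)..ell, (|(ll04Dir F N ell 0 γ 0).b F 𝔹 v - F.T / ell ^ 2| + |(ll04Dir F N ell 0 γ 0).h F 𝔹 v|) ≤ C * skX N ^ (6 : ℝ)

/-- **SUPPLY (A1-Lip)**: LL (A1), first line, integrated along the affine interpolation of the clocks (`0 ≤ B_v ≤ 1`, `|S_v| ≤ 1`).      TEX[LL:found:estimates]      OWNER: LL 02 (helper93) / PE Sec 2 (helper118). -/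
def Ll04A1 (𝔹 : LlBase) : Prop :=
  ∀ (m : ℕ) (a : ℝ) (b h b' h' : ℝ → ℝ), 1 ≤ m → 0 < a → GhClk1 a b → GhClk1 a h → GhClk1 a b' → GhClk1 a h' →
    |𝔹.f m a b h - 𝔹.f m a b' h'| ≤ (∫ v in (0 : ℝ)..a, |b v - b' v|) / 4 + (∫ v in (0 : ℝ)..a, |h v - h' v|) / 2

/-- **SUPPLY (NB)** = LL (4.1) `red:eq-neighbor` at the level of pressures (apply it to the tilted and to the untilted clocks).      TEX[LL:red:lem-site-smoothing]      OWNER: LL04 (helper258), from the crude Gaussian interpolation bound (GI) of LL 02 (helper93).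
Paper 04 l.218-224: append an unused spin; cumulative covariance difference `b(v) [-R²/(2m(m+1)) + (2Rρ+1)/(2(m+1))] + h(v) ρ`, `|.| ≤ 3 b(v)/2 + h(v)`; self corrections differ by `a (b(a)/4 + h(a)/2)`. -/
def Ll04Nb (𝔹 : LlBase) : Prop :=
  ∃ C : ℝ, ∀ (m : ℕ) (a : ℝ) (b h : ℝ → ℝ), 1 ≤ m → 1 ≤ a → a ≤ 4 → GhClk1 a b → GhClk1 a h →
    |((m + 1 : ℕ) : ℝ) * 𝔹.f (m + 1) a b h - (m : ℝ) * 𝔹.f m a b h| ≤ C * (b a + h a)

/-- **SUPPLY (BARE)**: the bare clocks are the completed SK model (04 l.307-314): terminal mass `ℓ`, covariance `T/ℓ²`: `G_m = F_m^c / ℓ`.      OWNER: LL04/Bridge (helper245). -/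
def Ll04Bare (𝔹 : LlBase) (β : ℝ) : Prop :=
  ∀ (m : ℕ) (ell s : ℝ), 1 ≤ m → 0 < ell → 0 < s → s < ell →
    𝔹.kap m ell (fun _ => β ^ 2 / ell ^ 2) (fun _ => 0) s = skLam β m (s / ell * (m : ℝ) ^ (1 / 6 : ℝ))

theorem ll04_eqns_cite : True := by
  have := @ll04Cl.eq_1
  have := @ll04U.eq_1
  have := @ll04Mu.eq_1
  have := @ll04Pt.eq_1
  have := @ll04Dir.eq_1
  have := @ll04Siz.eq_1
  have := @ll04Ell.eq_1
  have := @ll04Path.eq_1
  have := @Ll04Inc.eq_1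
  have := @ll04D.eq_1
  have := @Ll04Clk.eq_1
  have := @Ll04End.eq_1
  have := @Ll04A1.eq_1
  have := @Ll04Nb.eq_1
  have := @Ll04Bare.eq_1
  trivial

end Claimed.Agent.R286
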