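import Claimed.Agent.R286.LL04.NbGen
import Claimed.Agent.R286.LL04.Defs
import Claimed.Agent.R286.LL.PathsBase
import Claimed.Agent.R286.Gk.Split
import Claimed.Agent.R286.Brg.Step
import Claimed.Agent.R286.Exit.ClkLim

/-!
# Row 286 (S0533), unit LL04, file NB: THE NEIGHBOUR BOUND (4.1) FOR THE SK PRESSURES      (helper70; prefix `lnb_sk_`, `lnbS`)

TEX[LL:red:lem-site-smoothing] (04 l.218-224, `red:eq-neighbor`).      SUPPLY `Ll04Nb llBase` of `LL04/Contract.lean`.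

Route (no interpolation, no derivative): on the configurations of `m + 1` sites, with `r = ∑_{i ≥ 1} s_i t_i`, `ε = s_0 t_0`, one revelation `(db, dh)` has the covariance
`db (r + ε)² / (2 (m+1)) + dh (r + ε)` in the system of size `m + 1` and `db r² / (2 m) + dh r` in the system of size `m` (which does not see the site `0`).   Hence
    cov^(m+1) + E₁ = cov^(m) + E₂,      E₁ = db r² / (2 m (m+1)),      E₂ = db ε r / (m+1) + db / (2 (m+1)) + dh ε,
and both `E₁`, `E₂` are covariances of explicit additional features, with diagonals `≤ db / 2` and `≤ db + dh`.   `lnb_add_le` (LL04/NbGen): additional features change the continuation by an amount in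
`[0, (a/2) diag]`;   `ghs_F_cov_congr` (135): only masses and covariances matter;   `lnb_lift`: an unused spin is invisible.

* `lnb_sk_step`   `- (a/4) b_tot ≤ F_(m+1) - F_m ≤ (a/2) (b_tot + h_tot)`   for every admissible step path
* `lnb_sk_pr`     `|(m+1) f_(m+1) - m f_m| ≤ (a/2) (b_tot + h_tot)`   (step paths)
* `lnb_sk_cpr`    the same for bounded monotone clocks (`skCPr`), totals `b a`, `h a`
* `ll04_inst_nb`  `Ll04Nb llBase`
-/

set_option autoImplicit false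

namespace Claimed.Agent.R286

open MeasureTheory ProbabilityTheory Filter Topology

noncomputable section

/-- forget the site `0` -/
def lnbSPi {m : ℕ} (σ : SkCfg (m + 1)) : SkCfg m := fun i => σ i.succ

/-- unnormalised overlap -/
def lnbSR {m : ℕ} (s t : SkCfg m) : ℝ := ∑ i, skSp s i * skSp t i

/-- the additional features of the system of size `m + 1` -/
def lnbSE1 (m : ℕ) (e : SkInc) (s : SkCfg (m + 1)) : Fin m × Fin m → ℝ :=
  fun p => Real.sqrt (e.db / (2 * m * (m + 1))) * (skSp (lnbSPi s) p.1 * skSp (lnbSPi s) p.2)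

/-- the additional features of the system of size `m` -/
def lnbSE2 (m : ℕ) (e : SkInc) (s : SkCfg (m + 1)) : Fin m ⊕ Bool → ℝ :=
  Sum.elim (fun i => Real.sqrt (e.db / (m + 1)) * (skSp s 0 * skSp (lnbSPi s) i))
    fun c => if c then Real.sqrt e.dh * skSp s 0 else Real.sqrt (e.db / (2 * (m + 1)))

theorem lnb_sk_eqns_cite : True := by
  have := @lnbSPi.eq_1
  have := @lnbSR.eq_1
  have := @lnbSE1.eq_1
  have := @lnbSE2.eq_1
  trivial

theorem lnb_sk_R_self {m : ℕ} (s : SkCfg m) : lnbSR s s = m := by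
  simp [lnbSR, sk_d_sp_mul]

theorem lnb_sk_R_succ {m : ℕ} (s t : SkCfg (m + 1)) : lnbSR s t = skSp s 0 * skSp t 0 + lnbSR (lnbSPi s) (lnbSPi t) := by
  unfold lnbSR
  rw [Fin.sum_univ_succ]
  rfl

theorem lnb_sk_ov {m : ℕ} (s t : SkCfg m) : skOv s t = lnbSR s t / m := rfl

theorem lnb_sk_E1 (m : ℕ) (e : SkInc) (hb : 0 ≤ e.db) (s t : SkCfg (m + 1)) :
    ∑ k, lnbSE1 m e s k * lnbSE1 m e t k = e.db / (2 * m * (m + 1)) * lnbSR (lnbSPi s) (lnbSPi t) ^ 2 := by
  have h0 : 0 ≤ e.db / (2 * m * (m + 1)) := by positivity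
  unfold lnbSE1 lnbSR
  rw [Fintype.sum_prod_type, sq, Finset.sum_mul_sum, Finset.mul_sum]
  refine Finset.sum_congr rfl fun i _ => ?_
  rw [Finset.mul_sum]
  refine Finset.sum_congr rfl fun j _ => ?_
  have := Real.mul_self_sqrt h0
  simp only
  linear_combination (skSp (lnbSPi s) i * skSp (lnbSPi s) j * (skSp (lnbSPi t) i * skSp (lnbSPi t) j)) * this

theorem lnb_sk_E2 (m : ℕ) (e : SkInc) (hb : 0 ≤ e.db) (hh : 0 ≤ e.dh) (s t : SkCfg (m + 1)) :
    ∑ k, lnbSE2 m e s k * lnbSE2 m e t k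
      = e.db / (m + 1) * (skSp s 0 * skSp t 0) * lnbSR (lnbSPi s) (lnbSPi t) + e.dh * (skSp s 0 * skSp t 0) + e.db / (2 * (m + 1)) := by
  have h0 : 0 ≤ e.db / ((m : ℝ) + 1) := by positivity
  have h1 : 0 ≤ e.db / (2 * ((m : ℝ) + 1)) := by positivity
  have e0 := Real.mul_self_sqrt h0
  have e1 := Real.mul_self_sqrt h1
  have e2 := Real.mul_self_sqrt hh
  unfold lnbSE2 lnbSR
  rw [Fintype.sum_sum_type, Fintype.sum_bool]
  simp only [Sum.elim_inl, Sum.elim_inr, if_true, Bool.false_eq_true, if_false]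
  have : ∑ i, Real.sqrt (e.db / (m + 1)) * (skSp s 0 * skSp (lnbSPi s) i) * (Real.sqrt (e.db / (m + 1)) * (skSp t 0 * skSp (lnbSPi t) i))
      = e.db / (m + 1) * (skSp s 0 * skSp t 0) * ∑ i, skSp (lnbSPi s) i * skSp (lnbSPi t) i := by
    rw [Finset.mul_sum]
    refine Finset.sum_congr rfl fun i _ => ?_
    linear_combination (skSp s 0 * skSp (lnbSPi s) i * (skSp t 0 * skSp (lnbSPi t) i)) * e0
  rw [this]
  linear_combination (skSp s 0 * skSp t 0) * e2 + e1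

/-- **the covariance identity** -/
theorem lnb_sk_cov {m : ℕ} (hm : 1 ≤ m) (e : SkInc) (hb : 0 ≤ e.db) (hh : 0 ≤ e.dh) (s t : SkCfg (m + 1)) :
    (lnbAdd (e.lv (m + 1)) (lnbSE1 m e)).cov s t = (lnbAdd (lnbPull lnbSPi (e.lv m)) (lnbSE2 m e)).cov s t := by
  rw [lnb_add_cov, lnb_add_cov, lnb_sk_E1 m e hb, lnb_sk_E2 m e hb hh]
  have c1 := sk_d_cov (m + 1) (Nat.succ_pos m) e hb hh s t
  have c2 : (lnbPull lnbSPi (e.lv m)).cov s t = (e.lv m).cov (lnbSPi s) (lnbSPi t) := rfl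
  rw [c1, c2, sk_d_cov m hm e hb hh, lnb_sk_ov, lnb_sk_ov, lnb_sk_R_succ]
  have hε : (skSp s 0 * skSp t 0) ^ 2 = 1 := by
    have h1 := sk_d_sp_mul s 0
    have h2 := sk_d_sp_mul t 0
    calc (skSp s 0 * skSp t 0) ^ 2 = (skSp s 0 * skSp s 0) * (skSp t 0 * skSp t 0) := by ring
      _ = 1 := by rw [h1, h2, one_mul]
  have hm0 : (m : ℝ) ≠ 0 := by
    have : (1 : ℝ) ≤ m := by exact_mod_cast hm
    linarith
  have hm1 : (m : ℝ) + 1 ≠ 0 := by positivity
  set ε := skSp s 0 * skSp t 0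
  set r := lnbSR (lnbSPi s) (lnbSPi t)
  push_cast
  field_simp
  linear_combination (e.db * (m : ℝ)) * hε

theorem lnb_sk_diag1 {m : ℕ} (e : SkInc) (hb : 0 ≤ e.db) (s : SkCfg (m + 1)) : ∑ k, lnbSE1 m e s k ^ 2 ≤ e.db / 2 := by
  have := lnb_sk_E1 m e hb s s
  simp only [← sq] at this
  rw [this, lnb_sk_R_self]
  rcases Nat.eq_zero_or_pos m with rfl | hm
  · simp; positivity
  have hm0 : (0 : ℝ) < m := by exact_mod_cast hm
  have : e.db / (2 * m * (m + 1)) * (m : ℝ) ^ 2 = e.db / 2 * (m / (m + 1)) := by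
    field_simp
  rw [this]
  have h1 : (m : ℝ) / (m + 1) ≤ 1 := by
    rw [div_le_one (by positivity)]
    linarith
  nlinarith

theorem lnb_sk_diag2 {m : ℕ} (e : SkInc) (hb : 0 ≤ e.db) (hh : 0 ≤ e.dh) (s : SkCfg (m + 1)) :
    ∑ k, lnbSE2 m e s k ^ 2 ≤ e.db + e.dh := by
  have := lnb_sk_E2 m e hb hh s s
  simp only [← sq] at this
  rw [this, lnb_sk_R_self]
  have h1 : skSp s 0 ^ 2 = 1 := by rw [sq]; exact sk_d_sp_mul s 0
  rw [h1]
  have hm0 : (0 : ℝ) ≤ m := Nat.cast_nonneg m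
  have : e.db / (m + 1) * 1 * (m : ℝ) + e.dh * 1 + e.db / (2 * (m + 1)) = e.db * ((2 * m + 1) / (2 * (m + 1))) + e.dh := by
    field_simp
    ring
  rw [this]
  have h2 : (2 * (m : ℝ) + 1) / (2 * (m + 1)) ≤ 1 := by
    rw [div_le_one (by positivity)]
    linarith
  nlinarith

/-- an unused spin is invisible -/
theorem lnb_sk_w (m : ℕ) (a : ℝ) (f : SkCfg m → ℝ) :
    ∑ s, (skBase (m + 1) a).w s * f (lnbSPi s) = ∑ s', (skBase m a).w s' * f s' := by
  simp only [skBase, ghUnif, ← Finset.mul_sum]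
  have h1 : ∑ s : SkCfg (m + 1), f (lnbSPi s) = ∑ p : Bool × SkCfg m, f p.2 :=
    ((Fin.consEquiv fun _ : Fin (m + 1) => Bool).symm.sum_comp (fun p : Bool × SkCfg m => f p.2))
  rw [h1, Fintype.sum_prod_type, Fintype.sum_bool]
  simp only [Fintype.card_pi, Fintype.card_bool, Finset.prod_const, Finset.card_univ, Fintype.card_fin]
  push_cast
  rw [pow_succ]
  field_simp
  ring

theorem lnb_sk_tot_nonneg {a : ℝ} {P : SkStp} (hP : SkAdm a P) : 0 ≤ skTotB P ∧ 0 ≤ skTotH P := by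
  constructor
  · refine List.sum_nonneg fun x hx => ?_
    obtain ⟨e, he, rfl⟩ := List.mem_map.1 hx
    exact (hP.2 e he).2.2.1
  · refine List.sum_nonneg fun x hx => ?_
    obtain ⟨e, he, rfl⟩ := List.mem_map.1 hx
    exact (hP.2 e he).2.2.2

theorem lnb_sk_D1 (m : ℕ) (s : SkCfg (m + 1)) : ∀ P : SkStp, (∀ e ∈ P, 0 ≤ e.db) →
    lnbDiag (P.map fun e => (e.lv (m + 1), lnbSE1 m e)) s ≤ skTotB P / 2
  | [], _ => by simp [lnbDiag, skTotB]
  | e :: P, h => by
    have ih := lnb_sk_D1 m s P fun e' he' => h e' (List.mem_cons_of_mem _ he')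
    have h1 := lnb_sk_diag1 (m := m) e (h e List.mem_cons_self) s
    simp only [lnbDiag, skTotB, List.map_cons, List.sum_cons] at ih ⊢
    linarith

theorem lnb_sk_D2 (m : ℕ) (s : SkCfg (m + 1)) : ∀ P : SkStp, (∀ e ∈ P, 0 ≤ e.db ∧ 0 ≤ e.dh) →
    lnbDiag (P.map fun e => (lnbPull lnbSPi (e.lv m), lnbSE2 m e)) s ≤ skTotB P + skTotH P
  | [], _ => by simp [lnbDiag, skTotB, skTotH]
  | e :: P, h => by
    have ih := lnb_sk_D2 m s P fun e' he' => h e' (List.mem_cons_of_mem _ he')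
    have h1 := lnb_sk_diag2 (m := m) e (h e List.mem_cons_self).1 (h e List.mem_cons_self).2 s
    simp only [lnbDiag, skTotB, skTotH, List.map_cons, List.sum_cons] at ih ⊢
    linarith

/-- **(4.1) for the continuations of a step path** -/
theorem lnb_sk_step {m : ℕ} (hm : 1 ≤ m) {a : ℝ} (ha : 0 < a) {P : SkStp} (hP : SkAdm a P) :
    -(a / 4 * skTotB P) ≤ skF (m + 1) a P 0 - skF m a P 0 ∧ skF (m + 1) a P 0 - skF m a P 0 ≤ a / 2 * (skTotB P + skTotH P) := by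
  have hB := sk_stp_base_ok (m + 1) ha
  set L1 : List (GhLv (SkCfg (m + 1)) (SkDr (m + 1)) × (SkCfg (m + 1) → Fin m × Fin m → ℝ)) :=
    P.map fun e => (e.lv (m + 1), lnbSE1 m e) with hL1
  set L2 : List (GhLv (SkCfg (m + 1)) (SkDr m) × (SkCfg (m + 1) → Fin m ⊕ Bool → ℝ)) :=
    P.map fun e => (lnbPull lnbSPi (e.lv m), lnbSE2 m e) with hL2
  have f1 : ghF (skBase (m + 1) a) (L1.map Prod.fst) 0 = skF (m + 1) a P 0 := by
    rw [hL1, List.map_map]
    rfl
  have f2 : ghF (skBase (m + 1) a) (L2.map Prod.fst) 0 = skF m a P 0 := by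
    have := lnb_lift lnbSPi (skBase (m + 1) a) (skBase m a) rfl (lnb_sk_w m a) (skLvs m P) 0
    rw [hL2, List.map_map]
    unfold skF
    rw [← this, skLvs, List.map_map]
    rfl
  have b1 := lnb_add_le hB L1
    (fun p hp => by
      obtain ⟨e, he, rfl⟩ := List.mem_map.1 hp
      exact ⟨(hP.2 e he).1, (hP.2 e he).2.1⟩)
    (List.pairwise_map.2 hP.1) 0 (V := skTotB P / 2) (fun s => lnb_sk_D1 m s P fun e he => (hP.2 e he).2.2.1)
  have b2 := lnb_add_le hB L2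
    (fun p hp => by
      obtain ⟨e, he, rfl⟩ := List.mem_map.1 hp
      exact ⟨(hP.2 e he).1, (hP.2 e he).2.1⟩)
    (List.pairwise_map.2 hP.1) 0 (V := skTotB P + skTotH P) (fun s => lnb_sk_D2 m s P fun e he => (hP.2 e he).2.2)
  have e12 : ghF (skBase (m + 1) a) (L1.map fun p => lnbAdd p.1 p.2) = ghF (skBase (m + 1) a) (L2.map fun p => lnbAdd p.1 p.2) := by
    refine ghs_F_cov_congr hB ?_
    rw [hL1, hL2, List.map_map, List.map_map, List.forall₂_map_left_iff, List.forall₂_map_right_iff, List.forall₂_same]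
    intro e he
    exact ⟨rfl, fun s t => lnb_sk_cov hm e (hP.2 e he).2.2.1 (hP.2 e he).2.2.2 s t⟩
  rw [f1] at b1
  rw [f2] at b2
  rw [e12] at b1
  have hBa : (skBase (m + 1) a).a = a := rfl
  rw [hBa] at b1 b2
  constructor
  · linarith [b1.2, b2.1]
  · linarith [b1.1, b2.2]

/-- **(4.1) for the pressures of a step path** -/
theorem lnb_sk_pr {m : ℕ} (hm : 1 ≤ m) {a : ℝ} (ha : 0 < a) {P : SkStp} (hP : SkAdm a P) :
    |((m + 1 : ℕ) : ℝ) * skPr (m + 1) a P - (m : ℝ) * skPr m a P| ≤ a / 2 * (skTotB P + skTotH P) := by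
  obtain ⟨h1, h2⟩ := lnb_sk_step hm ha hP
  obtain ⟨t1, t2⟩ := lnb_sk_tot_nonneg hP
  have hm0 : (m : ℝ) ≠ 0 := by
    have : (1 : ℝ) ≤ m := by exact_mod_cast hm
    linarith
  have hm1 : ((m + 1 : ℕ) : ℝ) ≠ 0 := by positivity
  have e : ((m + 1 : ℕ) : ℝ) * skPr (m + 1) a P - (m : ℝ) * skPr m a P
      = skF (m + 1) a P 0 - skF m a P 0 - a * (skTotB P / 4 + skTotH P / 2) := by
    unfold skPr
    rw [mul_sub, mul_sub, mul_div_cancel₀ _ hm1, mul_div_cancel₀ _ hm0]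
    push_cast
    ring
  rw [e, abs_le]
  constructor
  · nlinarith
  · nlinarith

theorem lnb_sk_chain_totB (a : ℝ) (b h : ℝ → ℝ) (V : ℝ) : ∀ (ps : List GhPos) (b0 h0 : ℝ), b0 ≤ V → (∀ p ∈ ps, ghAt a b p ≤ V) →
    skTotB (skCStp a b h b0 h0 ps) ≤ V - b0
  | [], b0, h0, h0V, _ => by simpa [skCStp, skTotB] using h0V
  | p :: ps, b0, h0, _, hV => by
    have ih := lnb_sk_chain_totB a b h V ps (ghAt a b p) (ghAt a h p) (hV p List.mem_cons_self)
      fun q hq => hV q (List.mem_cons_of_mem _ hq)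
    simp only [skCStp, skTotB, List.map_cons, List.sum_cons] at ih ⊢
    linarith

theorem lnb_sk_chain_totH (a : ℝ) (b h : ℝ → ℝ) (V : ℝ) : ∀ (ps : List GhPos) (b0 h0 : ℝ), h0 ≤ V → (∀ p ∈ ps, ghAt a h p ≤ V) →
    skTotH (skCStp a b h b0 h0 ps) ≤ V - h0
  | [], b0, h0, h0V, _ => by simpa [skCStp, skTotH] using h0V
  | p :: ps, b0, h0, _, hV => by
    have ih := lnb_sk_chain_totH a b h V ps (ghAt a b p) (ghAt a h p) (hV p List.mem_cons_self)
      fun q hq => hV q (List.mem_cons_of_mem _ hq)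
    simp only [skCStp, skTotH, List.map_cons, List.sum_cons] at ih ⊢
    linarith

theorem lnb_sk_clk_top {a : ℝ} (ha : 0 ≤ a) {c : ℝ → ℝ} (hc : GhClk1 a c) : 0 ≤ c a :=
  hc.2.trans (hc.1 ⟨le_rfl, ha⟩ ⟨ha, le_rfl⟩ ha)

/-- (4.1) on one chain of a pair of clocks -/
theorem lnb_sk_chain {m : ℕ} (hm : 1 ≤ m) {a : ℝ} (ha : 0 < a) {b h : ℝ → ℝ} (hb : GhClk1 a b) (hh : GhClk1 a h) (F : Finset GhPos) :
    |((m + 1 : ℕ) : ℝ) * skPr (m + 1) a (skCStp a b h 0 0 (ghPs a F)) - (m : ℝ) * skPr m a (skCStp a b h 0 0 (ghPs a F))|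
      ≤ a / 2 * (b a + h a) := by
  have hok : ∀ p ∈ ghPs a F, p.Ok a := fun p hp => (gh_os_ps_mem.1 hp).2
  have hA : SkAdm a (skCStp a b h 0 0 (ghPs a F)) :=
    sk_stp_chain_adm ha.le hb hh _ 0 0 (gh_os_ps_pairwise a F) hok
      (fun p hp => gh_os_at_nonneg ha.le hb (hok p hp).2.2.1) (fun p hp => gh_os_at_nonneg ha.le hh (hok p hp).2.2.1)
  have t1 := lnb_sk_chain_totB a b h (b a) (ghPs a F) 0 0 (lnb_sk_clk_top ha.le hb) fun p hp => by
    have := gh_os_at_le_top ha.le hb (hok p hp)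
    rwa [gh_os_at_top a b ha.le] at this
  have t2 := lnb_sk_chain_totH a b h (h a) (ghPs a F) 0 0 (lnb_sk_clk_top ha.le hh) fun p hp => by
    have := gh_os_at_le_top ha.le hh (hok p hp)
    rwa [gh_os_at_top a h ha.le] at this
  refine (lnb_sk_pr hm ha hA).trans ?_
  have : 0 ≤ a / 2 := by positivity
  nlinarith

/-- **(4.1) for the pressures of bounded monotone clocks** -/
theorem lnb_sk_cpr {m : ℕ} (hm : 1 ≤ m) {a : ℝ} (ha : 0 < a) {b h : ℝ → ℝ} (hb : GhClk1 a b) (hh : GhClk1 a h) :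
    |((m + 1 : ℕ) : ℝ) * skCPr (m + 1) a b h - (m : ℝ) * skCPr m a b h| ≤ a / 2 * (b a + h a) := by
  have l1 : Tendsto (fun F : Finset GhPos => skPr (m + 1) a (skCStp a b h 0 0 (ghPs a F))) atTop (𝓝 (skCPr (m + 1) a b h)) :=
    (exit_clk_lim_pr (n := m + 1) (Nat.succ_pos m) ha ⟨hb, hh⟩ 0).2
  have l2 : Tendsto (fun F : Finset GhPos => skPr m a (skCStp a b h 0 0 (ghPs a F))) atTop (𝓝 (skCPr m a b h)) :=
    (exit_clk_lim_pr (n := m) hm ha ⟨hb, hh⟩ 0).2
  exact le_of_tendsto ((l1.const_mul _).sub (l2.const_mul _)).abs (Eventually.of_forall fun F => lnb_sk_chain hm ha hb hh F)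

end

/-- **SUPPLY (NB)** at the concrete base -/
theorem ll04_inst_nb : Ll04Nb llBase := by
  refine ⟨2, fun m a b h hm ha1 ha4 hb hh => ?_⟩
  have ha : 0 < a := by linarith
  have h1 := lnb_sk_cpr hm ha hb hh
  have e : ((m + 1 : ℕ) : ℝ) * llBase.f (m + 1) a b h - (m : ℝ) * llBase.f m a b h
      = ((m + 1 : ℕ) : ℝ) * skCPr (m + 1) a b h - (m : ℝ) * skCPr m a b h := by
    rw [llBase_f (Nat.succ_pos m) ha hb hh, llBase_f (by omega) ha hb hh]
  rw [e]
  refine h1.trans ?_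
  have := lnb_sk_clk_top ha.le hb
  have := lnb_sk_clk_top ha.le hh
  nlinarith

end Claimed.Agent.R286
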