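import Claimed.Agent.R286.LL04.Defs

/-!
# Row 286 (S0533), unit LL04, file AsmLip: `ψ` IS `L¹`-LIPSCHITZ IN THE CLOCKS; LIPSCHITZ KIT      (owner helper258; proofs helper17; prefix `ll04l_`)      no open goal

* `ll04l_tilt_adm`   the tilted clock `b 1_{v ≥ s}` is admissible
* `ll04l_psi_le`     `|ψ_m(b,h;s) - ψ_m(b',h';s)| ≤ ∫_0^a (|b - b'| + |h - h'|)`      from (A1-Lip)
* `ll04l_psi_abs`    `|ψ_m(b,h;s)| ≤ s b(a) / 4`
* `ll04l_kit`        a jointly Lipschitz `f : (ι → ℝ) → ℝ → ℝ`: continuity, absolute continuity, `|deriv| ≤ K`, joint measurability of `deriv`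
-/

set_option autoImplicit false

namespace Claimed.Agent.R286

open MeasureTheory Set

theorem ll04l_nonneg {a : ℝ} {b : ℝ → ℝ} (hb : GhClk1 a b) {v : ℝ} (hv : v ∈ Icc (0 : ℝ) a) : 0 ≤ b v :=
  hb.2.trans (hb.1 ⟨le_refl _, hv.1.trans hv.2⟩ hv hv.1)

theorem ll04l_tilt_adm {a : ℝ} {b : ℝ → ℝ} (hb : GhClk1 a b) (s : ℝ) : GhClk1 a (fun v => if s ≤ v then b v else 0) := by
  refine ⟨fun v hv v' hv' hvv => ?_, ?_⟩
  · by_cases h1 : s ≤ v
    · simp only [if_pos h1, if_pos (h1.trans hvv)]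
      exact hb.1 hv hv' hvv
    · simp only [if_neg h1]
      split_ifs
      · exact ll04l_nonneg hb hv'
      · exact le_refl _
  · simp only []
    split_ifs
    · exact hb.2
    · exact le_refl _

theorem ll04l_ii {a : ℝ} (ha : 0 ≤ a) {b : ℝ → ℝ} (hb : GhClk1 a b) : IntervalIntegrable b volume 0 a := by
  apply MonotoneOn.intervalIntegrable
  rw [uIcc_of_le ha]
  exact hb.1

/-- `ψ` is `L¹`-Lipschitz in the clocks -/
theorem ll04l_psi_le (𝔹 : LlBase) (hA1 : Ll04A1 𝔹) {m : ℕ} (hm : 1 ≤ m) {a : ℝ} (ha : 0 < a) (s : ℝ) {b h b' h' : ℝ → ℝ}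
    (hb : GhClk1 a b) (hh : GhClk1 a h) (hb' : GhClk1 a b') (hh' : GhClk1 a h') :
    |𝔹.psi m a b h s - 𝔹.psi m a b' h' s| ≤ ∫ v in (0 : ℝ)..a, (|b v - b' v| + |h v - h' v|) := by
  have k1 := hA1 m a _ h _ h' hm ha (ll04l_tilt_adm hb s) hh (ll04l_tilt_adm hb' s) hh'
  have k2 := hA1 m a b h b' h' hm ha hb hh hb' hh'
  have ib : IntervalIntegrable (fun v => |b v - b' v|) volume 0 a := ((ll04l_ii ha.le hb).sub (ll04l_ii ha.le hb')).abs
  have ih : IntervalIntegrable (fun v => |h v - h' v|) volume 0 a := ((ll04l_ii ha.le hh).sub (ll04l_ii ha.le hh')).abs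
  have it : IntervalIntegrable (fun v => |(if s ≤ v then b v else 0) - (if s ≤ v then b' v else 0)|) volume 0 a :=
    ((ll04l_ii ha.le (ll04l_tilt_adm hb s)).sub (ll04l_ii ha.le (ll04l_tilt_adm hb' s))).abs
  have k3 : ∫ v in (0 : ℝ)..a, |(if s ≤ v then b v else 0) - (if s ≤ v then b' v else 0)| ≤ ∫ v in (0 : ℝ)..a, |b v - b' v| := by
    refine intervalIntegral.integral_mono_on ha.le it ib fun v _ => ?_
    split_ifs
    · exact le_refl _
    · simp
  have nb : 0 ≤ ∫ v in (0 : ℝ)..a, |b v - b' v| := intervalIntegral.integral_nonneg ha.le fun _ _ => abs_nonneg _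
  have nh : 0 ≤ ∫ v in (0 : ℝ)..a, |h v - h' v| := intervalIntegral.integral_nonneg ha.le fun _ _ => abs_nonneg _
  rw [intervalIntegral.integral_add ib ih]
  unfold LlBase.psi
  have e : 𝔹.f m a (fun v => if s ≤ v then b v else 0) h - 𝔹.f m a b h - (𝔹.f m a (fun v => if s ≤ v then b' v else 0) h' - 𝔹.f m a b' h')
      = (𝔹.f m a (fun v => if s ≤ v then b v else 0) h - 𝔹.f m a (fun v => if s ≤ v then b' v else 0) h') - (𝔹.f m a b h - 𝔹.f m a b' h') := by ring
  rw [e]
  refine (abs_sub _ _).trans ?_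
  linarith

/-- crude bound of `ψ` -/
theorem ll04l_psi_abs (𝔹 : LlBase) (hA1 : Ll04A1 𝔹) {m : ℕ} (hm : 1 ≤ m) {a : ℝ} (ha : 0 < a) {s : ℝ} (hs : 0 ≤ s) {b h : ℝ → ℝ}
    (hb : GhClk1 a b) (hh : GhClk1 a h) : |𝔹.psi m a b h s| ≤ s * b a / 4 := by
  have k1 := hA1 m a _ h b h hm ha (ll04l_tilt_adm hb s) hh hb hh
  have r : a ∈ Icc (0 : ℝ) a := right_mem_Icc.2 ha.le
  have hba : 0 ≤ b a := ll04l_nonneg hb r
  have it : IntervalIntegrable (fun v => |(if s ≤ v then b v else 0) - b v|) volume 0 a :=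
    ((ll04l_ii ha.le (ll04l_tilt_adm hb s)).sub (ll04l_ii ha.le hb)).abs
  have pw : ∀ v ∈ Icc (0 : ℝ) a, |(if s ≤ v then b v else 0) - b v| ≤ b a := by
    intro v hv
    split_ifs
    · simpa using hba
    · rw [zero_sub, abs_neg, abs_of_nonneg (ll04l_nonneg hb hv)]
      exact hb.1 hv r hv.2
  have k2 : ∫ v in (0 : ℝ)..a, |(if s ≤ v then b v else 0) - b v| ≤ s * b a := by
    rcases le_or_gt a s with hsa | hsa
    · calc ∫ v in (0 : ℝ)..a, |(if s ≤ v then b v else 0) - b v| ≤ ∫ _v in (0 : ℝ)..a, b a :=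
            intervalIntegral.integral_mono_on ha.le it intervalIntegrable_const pw
        _ = a * b a := by simp
        _ ≤ s * b a := mul_le_mul_of_nonneg_right hsa hba
    · have i1 : IntervalIntegrable (fun v => |(if s ≤ v then b v else 0) - b v|) volume 0 s :=
        it.mono_set (by rw [uIcc_of_le hs, uIcc_of_le ha.le]; exact Icc_subset_Icc_right hsa.le)
      have i2 : IntervalIntegrable (fun v => |(if s ≤ v then b v else 0) - b v|) volume s a :=
        it.mono_set (by rw [uIcc_of_le hsa.le, uIcc_of_le ha.le]; exact Icc_subset_Icc_left hs)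
      rw [← intervalIntegral.integral_add_adjacent_intervals i1 i2]
      have z : ∫ v in s..a, |(if s ≤ v then b v else 0) - b v| = 0 := by
        rw [← intervalIntegral.integral_zero (a := s) (b := a) (μ := volume) (E := ℝ)]
        refine intervalIntegral.integral_congr fun v hv => ?_
        rw [uIcc_of_le hsa.le] at hv
        simp [hv.1]
      rw [z, add_zero]
      calc ∫ v in (0 : ℝ)..s, |(if s ≤ v then b v else 0) - b v| ≤ ∫ _v in (0 : ℝ)..s, b a :=
            intervalIntegral.integral_mono_on hs i1 intervalIntegrable_const fun v hv => pw v ⟨hv.1, hv.2.trans hsa.le⟩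
        _ = s * b a := by simp
  simp only [sub_self, abs_zero, intervalIntegral.integral_zero, zero_div, add_zero] at k1
  unfold LlBase.psi
  linarith

/-- the Lipschitz kit -/
theorem ll04l_kit {ι : Type} [Fintype ι] (f : (ι → ℝ) → ℝ → ℝ) (K : ℝ) (hf : ∀ γ γ' t t', |f γ t - f γ' t'| ≤ K * (|t - t'| + dist γ γ')) :
    Continuous (Function.uncurry f) ∧ (∀ γ u v, AbsolutelyContinuousOnInterval (f γ) u v) ∧ (∀ γ t, |deriv (f γ) t| ≤ K) ∧
      Measurable (fun p : (ι → ℝ) × ℝ => deriv (f p.1) p.2) := by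
  have hK : 0 ≤ K := by
    have := hf 0 0 0 1
    simp only [zero_sub, abs_neg, abs_one, dist_self, add_zero, mul_one] at this
    exact (abs_nonneg _).trans this
  have hl : ∀ γ, LipschitzWith K.toNNReal (f γ) := fun γ => LipschitzWith.of_dist_le_mul fun t t' => by
    rw [Real.dist_eq, Real.dist_eq, Real.coe_toNNReal K hK]
    simpa using hf γ γ t t'
  have hc : Continuous (Function.uncurry f) := by
    refine (LipschitzWith.of_dist_le_mul (K := (2 * K).toNNReal) fun p p' => ?_).continuous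
    rw [Real.dist_eq, Real.coe_toNNReal (2 * K) (by positivity)]
    refine (hf p.1 p'.1 p.2 p'.2).trans ?_
    have h1 : |p.2 - p'.2| ≤ dist p p' := by rw [← Real.dist_eq]; exact le_max_right _ _
    have h2 : dist p.1 p'.1 ≤ dist p p' := le_max_left _ _
    nlinarith
  refine ⟨hc, fun γ u v => ((hl γ).lipschitzOnWith (s := uIcc u v)).absolutelyContinuousOnInterval, fun γ t => ?_, measurable_deriv_with_param hc⟩
  have := norm_deriv_le_of_lipschitz (x₀ := t) (hl γ)
  rwa [Real.norm_eq_abs, Real.coe_toNNReal K hK] at this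

end Claimed.Agent.R286
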