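import Mathlib

/-!
# Row 286 (S0533), LL Sec. 4, file LL04/Reg : THE CHAIN RULE FOR A PRESSURE ALONG A PATH OF CLOCKS, ABSTRACT FORM      (helper17; prefix `l4r_`, types `L4r*`)      Mathlib only, sorry free

Closes remark R4 of the adversary note of 70 (L01_adv_70.md): "`deriv` in `SkPath.aD`, `aS` is the a.e. derivative of an AC function; the deep part bounds the FORMULA `-1/4 ∫ (B^s-B^0) ḃ - 1/2 ∫ (S^s-S^0) ḣ`; somebody owes `deriv = formula` a.e.".

* clocks = functions `c : U → ℝ` on a finite measure space `(U, ν)` (for the pair `(b,h)`: `U = ℝ ⊕ ℝ`, file LL04/RegBH)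
* `L4rFun ν D A f K M C` : the functional `f` on the convex class `A` is differentiable along affine segments with gradient kernel `K c` (LL (A1) line 1 / PE (1) line 1),
  `|K| ≤ M`, `K c` measurable, `K` Lipschitz (constant `C`, may depend on the size `n`) in the sup norm on `D` (PE Prop 2.14 / exit (G5))
* `L4rPath ν D A t0 t1 c dc` : the path `τ ↦ c τ ∈ A` is uniformly continuous in the sup norm on `D`, and `c τ u - c t0 u = ∫_{t0}^τ dc s u ds` for a.e. `u`, `dc` integrable on `[t0,t1] × U`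
* `l4rPhi ν K c dc s = ∫ K (c s) u * dc s u dν(u)` THE FORMULA;   `l4rSp ν dc s = ∫ |dc s u| dν(u)` the `L¹` speed

RESULTS
* `l4r_mvt`, `l4r_lip` (`L¹` Lipschitz), `l4r_lip_sup`
* `l4r_ftc`    : `f (c τ) - f (c t0) = ∫_{t0}^τ l4rPhi`, `l4rPhi` interval integrable         (no Lebesgue points in `L¹`: mean value theorem on short pieces + Fubini + chaining `l4r_chain`)
* `l4r_ac`     : `τ ↦ f (c τ)` is `AbsolutelyContinuousOnInterval`
* `l4r_deriv`  : for a.e. `τ ∈ [t0,t1]`, `HasDerivAt (fun τ => f (c τ)) (l4rPhi … τ) τ`;   `l4r_deriv_le`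
* `l4r_psi_ac`, `l4r_psi_deriv`, `l4r_psi_deriv_le`, `l4r_psi_var` : the same for a difference `f (c' τ) - f (c τ)` (`ψ = f^s - f^0`)
* families `γ ↦ path`: `l4r_cont_param` (joint continuity), `l4r_int_param`, `l4r_int_stop` (shape of `SkPath.aD`), `l4r_int_stop2` (shape of `SkPath.aS`): integrability on `μ.prod (volume.restrict (Icc t0 t1))`
-/

set_option autoImplicit false

namespace Claimed.Agent.R286

open MeasureTheory Set Filter Topology Function

variable {U : Type} [MeasurableSpace U]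

/-- affine segment of clocks -/
def l4rSeg (θ : ℝ) (c0 c1 : U → ℝ) : U → ℝ := fun u => (1 - θ) * c0 u + θ * c1 u

/-- clamp of the path parameter -/
def l4rCl (t0 t1 τ : ℝ) : ℝ := max t0 (min τ t1)

/-- a functional of clocks with a bounded, sup-norm Lipschitz gradient kernel -/
structure L4rFun (ν : Measure U) (D : Set U) (A : Set (U → ℝ)) (f : (U → ℝ) → ℝ) (K : (U → ℝ) → U → ℝ) (M C : ℝ) : Prop where
  dom : ∀ᵐ u ∂ν, u ∈ D
  seg : ∀ c0 ∈ A, ∀ c1 ∈ A, ∀ θ ∈ Icc (0 : ℝ) 1, l4rSeg θ c0 c1 ∈ A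
  int : ∀ c ∈ A, Integrable c ν
  der : ∀ c0 ∈ A, ∀ c1 ∈ A, ∀ θ ∈ Icc (0 : ℝ) 1,
    HasDerivWithinAt (fun s => f (l4rSeg s c0 c1)) (∫ u, K (l4rSeg θ c0 c1) u * (c1 u - c0 u) ∂ν) (Icc 0 1) θ
  meas : ∀ c ∈ A, Measurable (K c)
  bdd : ∀ c ∈ A, ∀ u, |K c u| ≤ M
  lip : ∀ c ∈ A, ∀ c' ∈ A, ∀ δ : ℝ, 0 ≤ δ → (∀ u ∈ D, |c u - c' u| ≤ δ) → ∀ u, |K c u - K c' u| ≤ C * δ

/-- a path of clocks: uniformly continuous in the sup norm, absolutely continuous in `L¹` with the speed `dc` -/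
structure L4rPath (ν : Measure U) (D : Set U) (A : Set (U → ℝ)) (t0 t1 : ℝ) (c dc : ℝ → U → ℝ) : Prop where
  mem : ∀ τ ∈ Icc t0 t1, c τ ∈ A
  ucont : ∀ ε : ℝ, 0 < ε → ∃ δ : ℝ, 0 < δ ∧ ∀ τ ∈ Icc t0 t1, ∀ τ' ∈ Icc t0 t1, |τ' - τ| < δ → ∀ u ∈ D, |c τ' u - c τ u| ≤ ε
  int : Integrable (uncurry dc) ((volume.restrict (Icc t0 t1)).prod ν)
  ftc : ∀ᵐ u ∂ν, ∀ τ ∈ Icc t0 t1, c τ u - c t0 u = ∫ s in t0..τ, dc s u

/-- the formula for the speed of the functional -/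
noncomputable def l4rPhi (ν : Measure U) (K : (U → ℝ) → U → ℝ) (c dc : ℝ → U → ℝ) (s : ℝ) : ℝ := ∫ u, K (c s) u * dc s u ∂ν

/-- the `L¹` speed of the path -/
noncomputable def l4rSp (ν : Measure U) (dc : ℝ → U → ℝ) (s : ℝ) : ℝ := ∫ u, |dc s u| ∂ν

theorem l4r_eqns_cite : True := by
  have := @l4rSeg.eq_1
  have := @l4rCl.eq_1
  have := @l4rPhi.eq_1
  have := @l4rSp.eq_1
  trivial

theorem l4r_cl_mem {t0 t1 : ℝ} (h : t0 ≤ t1) (τ : ℝ) : l4rCl t0 t1 τ ∈ Icc t0 t1 :=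
  ⟨le_max_left _ _, max_le h (min_le_right _ _)⟩

theorem l4r_cl_of_mem {t0 t1 τ : ℝ} (h : τ ∈ Icc t0 t1) : l4rCl t0 t1 τ = τ := by
  unfold l4rCl
  rw [min_eq_left h.2, max_eq_right h.1]

theorem l4r_cl_lip (t0 t1 τ τ' : ℝ) : |l4rCl t0 t1 τ' - l4rCl t0 t1 τ| ≤ |τ' - τ| := by
  unfold l4rCl
  refine (abs_max_sub_max_le_max _ _ _ _).trans ?_
  rw [sub_self, abs_zero]
  refine max_le (abs_nonneg _) ?_
  refine (abs_min_sub_min_le_max _ _ _ _).trans ?_
  rw [sub_self, abs_zero]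
  exact max_le le_rfl (abs_nonneg _)

theorem l4r_cl_cont (t0 t1 : ℝ) : Continuous (l4rCl t0 t1) := by
  unfold l4rCl
  fun_prop

section fn

variable {ν : Measure U} {D : Set U} {A : Set (U → ℝ)} {f : (U → ℝ) → ℝ} {K : (U → ℝ) → U → ℝ} {M C : ℝ}

theorem l4r_seg_zero (c0 c1 : U → ℝ) : l4rSeg 0 c0 c1 = c0 := by
  funext u; simp [l4rSeg]

theorem l4r_seg_one (c0 c1 : U → ℝ) : l4rSeg 1 c0 c1 = c1 := by
  funext u; simp [l4rSeg]

/-- mean value theorem on a segment -/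
theorem l4r_mvt (hf : L4rFun ν D A f K M C) {c0 c1 : U → ℝ} (h0 : c0 ∈ A) (h1 : c1 ∈ A) :
    ∃ θ ∈ Ioo (0 : ℝ) 1, f c1 - f c0 = ∫ u, K (l4rSeg θ c0 c1) u * (c1 u - c0 u) ∂ν := by
  have hc : ContinuousOn (fun s => f (l4rSeg s c0 c1)) (Icc 0 1) :=
    fun θ hθ => (hf.der c0 h0 c1 h1 θ hθ).continuousWithinAt
  obtain ⟨θ, hθ, h⟩ := exists_hasDerivAt_eq_slope (fun s => f (l4rSeg s c0 c1))
    (fun θ => ∫ u, K (l4rSeg θ c0 c1) u * (c1 u - c0 u) ∂ν) zero_lt_one hc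
    (fun x hx => (hf.der c0 h0 c1 h1 x (Ioo_subset_Icc_self hx)).hasDerivAt (Icc_mem_nhds hx.1 hx.2))
  refine ⟨θ, hθ, ?_⟩
  simp only [l4r_seg_zero, l4r_seg_one] at h
  rw [h]; simp

/-- the `L¹` Lipschitz bound -/
theorem l4r_lip (hf : L4rFun ν D A f K M C) {c0 c1 : U → ℝ} (h0 : c0 ∈ A) (h1 : c1 ∈ A) :
    |f c1 - f c0| ≤ M * ∫ u, |c1 u - c0 u| ∂ν := by
  obtain ⟨θ, hθ, h⟩ := l4r_mvt hf h0 h1
  rw [h]
  have hA := hf.seg c0 h0 c1 h1 θ (Ioo_subset_Icc_self hθ)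
  calc |∫ u, K (l4rSeg θ c0 c1) u * (c1 u - c0 u) ∂ν|
      ≤ ∫ u, |K (l4rSeg θ c0 c1) u * (c1 u - c0 u)| ∂ν := abs_integral_le_integral_abs
    _ ≤ ∫ u, M * |c1 u - c0 u| ∂ν := by
        refine integral_mono_of_nonneg (ae_of_all _ fun _ => abs_nonneg _)
          (((hf.int c1 h1).sub (hf.int c0 h0)).abs.const_mul M) (ae_of_all _ fun u => ?_)
        simp only
        rw [abs_mul]
        exact mul_le_mul_of_nonneg_right (hf.bdd _ hA u) (abs_nonneg _)
    _ = M * ∫ u, |c1 u - c0 u| ∂ν := integral_const_mul _ _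

/-- the sup norm Lipschitz bound -/
theorem l4r_lip_sup [IsFiniteMeasure ν] (hf : L4rFun ν D A f K M C) (hM : 0 ≤ M) {c0 c1 : U → ℝ} (h0 : c0 ∈ A) (h1 : c1 ∈ A) {δ : ℝ}
    (hδ : ∀ u ∈ D, |c1 u - c0 u| ≤ δ) : |f c1 - f c0| ≤ M * (δ * ν.real univ) := by
  refine (l4r_lip hf h0 h1).trans (mul_le_mul_of_nonneg_left ?_ hM)
  calc ∫ u, |c1 u - c0 u| ∂ν ≤ ∫ _u, δ ∂ν := by
        refine integral_mono_ae ((hf.int c1 h1).sub (hf.int c0 h0)).abs (integrable_const _) ?_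
        filter_upwards [hf.dom] with u hu using hδ u hu
    _ = δ * ν.real univ := by rw [integral_const, smul_eq_mul, mul_comm]

end fn

/-- chaining: a function whose increments are `o(1)` times the increments of another one is constant -/
theorem l4r_chain {G Aa : ℝ → ℝ} {t0 t1 : ℝ} (h01 : t0 ≤ t1)
    (h : ∀ ε : ℝ, 0 < ε → ∃ δ : ℝ, 0 < δ ∧ ∀ τ ∈ Icc t0 t1, ∀ τ' ∈ Icc t0 t1, τ ≤ τ' → τ' - τ < δ →
      |G τ' - G τ| ≤ ε * (Aa τ' - Aa τ)) : G t1 = G t0 := by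
  have key : ∀ ε : ℝ, 0 < ε → |G t1 - G t0| ≤ ε * (Aa t1 - Aa t0) := by
    intro ε hε
    obtain ⟨δ, hδ, hh⟩ := h ε hε
    obtain ⟨n, hn⟩ := exists_nat_gt ((t1 - t0) / δ)
    have hn0 : (0 : ℝ) < n := lt_of_le_of_lt (div_nonneg (sub_nonneg.2 h01) hδ.le) hn
    set t : ℕ → ℝ := fun k => t0 + k * ((t1 - t0) / n) with ht
    have hstep : (t1 - t0) / n < δ := by
      rw [div_lt_iff₀ hn0]
      rw [div_lt_iff₀ hδ] at hn
      linarith
    have hstep0 : 0 ≤ (t1 - t0) / n := div_nonneg (sub_nonneg.2 h01) hn0.le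
    have hmem : ∀ k : ℕ, k ≤ n → t k ∈ Icc t0 t1 := by
      intro k hk
      have hk' : (k : ℝ) ≤ n := by exact_mod_cast hk
      constructor
      · simp only [ht]; nlinarith [Nat.cast_nonneg (α := ℝ) k]
      · simp only [ht]
        have : (k : ℝ) * ((t1 - t0) / n) ≤ n * ((t1 - t0) / n) := mul_le_mul_of_nonneg_right hk' hstep0
        have e : (n : ℝ) * ((t1 - t0) / n) = t1 - t0 := by field_simp
        linarith
    have ind : ∀ k : ℕ, k ≤ n → |G (t k) - G t0| ≤ ε * (Aa (t k) - Aa t0) := by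
      intro k
      induction k with
      | zero => intro _; simp [ht]
      | succ k ih =>
        intro hk
        have h1 := ih (Nat.le_of_succ_le hk)
        have e : t (k + 1) - t k = (t1 - t0) / n := by simp only [ht]; push_cast; ring
        have h2 := hh (t k) (hmem k (Nat.le_of_succ_le hk)) (t (k + 1)) (hmem (k + 1) hk) (by linarith) (by linarith)
        calc |G (t (k + 1)) - G t0| = |(G (t (k + 1)) - G (t k)) + (G (t k) - G t0)| := by ring_nf
          _ ≤ |G (t (k + 1)) - G (t k)| + |G (t k) - G t0| := abs_add_le _ _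
          _ ≤ ε * (Aa (t (k + 1)) - Aa (t k)) + ε * (Aa (t k) - Aa t0) := add_le_add h2 h1
          _ = ε * (Aa (t (k + 1)) - Aa t0) := by ring
    have e : t n = t1 := by simp only [ht]; field_simp; ring
    have := ind n le_rfl
    rwa [e] at this
  by_contra hne
  have hpos : 0 < |G t1 - G t0| := abs_pos.2 (sub_ne_zero.2 hne)
  rcases le_or_gt (Aa t1 - Aa t0) 0 with hY | hY
  · have := key 1 one_pos
    linarith
  · have := key (|G t1 - G t0| / (2 * (Aa t1 - Aa t0))) (by positivity)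
    have e : |G t1 - G t0| / (2 * (Aa t1 - Aa t0)) * (Aa t1 - Aa t0) = |G t1 - G t0| / 2 := by field_simp
    rw [e] at this
    linarith

/-- absolute continuity only sees the interval -/
theorem l4r_ac_congr {F G : ℝ → ℝ} {a b k : ℝ} (h : AbsolutelyContinuousOnInterval F a b) (e : ∀ x ∈ uIcc a b, G x = k + F x) :
    AbsolutelyContinuousOnInterval G a b := by
  rw [absolutelyContinuousOnInterval_iff] at h ⊢
  intro ε hε
  obtain ⟨δ, hδ, H⟩ := h ε hε
  refine ⟨δ, hδ, fun E hE hs => ?_⟩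
  have h1 := H E hE hs
  have h2 : ∑ i ∈ Finset.range E.1, dist (G (E.2 i).1) (G (E.2 i).2) = ∑ i ∈ Finset.range E.1, dist (F (E.2 i).1) (F (E.2 i).2) := by
    refine Finset.sum_congr rfl fun i hi => ?_
    rw [e _ (hE.1 i hi).1, e _ (hE.1 i hi).2, dist_add_left]
  rw [h2]; exact h1

section path

variable {ν : Measure U} [IsFiniteMeasure ν] {D : Set U} {A : Set (U → ℝ)} {f : (U → ℝ) → ℝ} {K : (U → ℝ) → U → ℝ} {M C : ℝ}
  {t0 t1 : ℝ} {c dc : ℝ → U → ℝ}

omit [IsFiniteMeasure ν] in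
/-- the clamped path -/
theorem L4rPath.clamp (hp : L4rPath ν D A t0 t1 c dc) (h01 : t0 ≤ t1) : L4rPath ν D A t0 t1 (fun τ => c (l4rCl t0 t1 τ)) dc where
  mem := fun τ _ => hp.mem _ (l4r_cl_mem h01 τ)
  ucont := by
    intro ε hε
    obtain ⟨δ, hδ, h⟩ := hp.ucont ε hε
    refine ⟨δ, hδ, fun τ hτ τ' hτ' hd u hu => ?_⟩
    rw [l4r_cl_of_mem hτ, l4r_cl_of_mem hτ']
    exact h τ hτ τ' hτ' hd u hu
  int := hp.int
  ftc := by
    filter_upwards [hp.ftc] with u hu τ hτ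
    rw [l4r_cl_of_mem hτ, l4r_cl_of_mem (left_mem_Icc.2 h01)]
    exact hu τ hτ

omit [IsFiniteMeasure ν] in
/-- joint measurability of the kernel along the clamped path -/
theorem l4r_K_meas (hf : L4rFun ν D A f K M C) (hp : L4rPath ν D A t0 t1 c dc) (h01 : t0 ≤ t1) :
    Measurable (fun p : ℝ × U => K (c (l4rCl t0 t1 p.1)) p.2) := by
  refine measurable_uncurry_of_continuous_of_measurable (u := fun (s : ℝ) (u : U) => K (c (l4rCl t0 t1 s)) u) (fun u => ?_)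
    (fun s => hf.meas _ (hp.mem _ (l4r_cl_mem h01 s)))
  rw [Metric.continuous_iff]
  intro τ ε hε
  obtain ⟨δ, hδ, h⟩ := hp.ucont (ε / (2 * (|C| + 1))) (by positivity)
  refine ⟨δ, hδ, fun τ' hτ' => ?_⟩
  rw [Real.dist_eq] at hτ' ⊢
  have h1 := h _ (l4r_cl_mem h01 τ) _ (l4r_cl_mem h01 τ') ((l4r_cl_lip t0 t1 τ τ').trans_lt hτ')
  have h2 := hf.lip _ (hp.mem _ (l4r_cl_mem h01 τ')) _ (hp.mem _ (l4r_cl_mem h01 τ)) _ (by positivity) h1 u
  calc |K (c (l4rCl t0 t1 τ')) u - K (c (l4rCl t0 t1 τ)) u| ≤ C * (ε / (2 * (|C| + 1))) := h2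
    _ ≤ |C| * (ε / (2 * (|C| + 1))) := mul_le_mul_of_nonneg_right (le_abs_self _) (by positivity)
    _ < ε := by
      rw [mul_div_assoc', div_lt_iff₀ (by positivity)]
      nlinarith [abs_nonneg C]

/-- integrability on a sub-rectangle -/
theorem l4r_int_sub (hp : L4rPath ν D A t0 t1 c dc) {τ τ' : ℝ} (hτ : τ ∈ Icc t0 t1) (hτ' : τ' ∈ Icc t0 t1) :
    Integrable (uncurry dc) ((volume.restrict (Ioc τ τ')).prod ν) :=
  hp.int.mono_measure (Measure.prod_mono (Measure.restrict_mono (show Ioc τ τ' ⊆ Icc t0 t1 from fun _ hs => ⟨hτ.1.trans hs.1.le, hs.2.trans hτ'.2⟩) le_rfl) le_rfl)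

/-- the `L¹` speed is integrable -/
theorem l4r_sp_int (hp : L4rPath ν D A t0 t1 c dc) {τ τ' : ℝ} (hτ : τ ∈ Icc t0 t1) (hτ' : τ' ∈ Icc t0 t1) :
    IntervalIntegrable (l4rSp ν dc) volume τ τ' := by
  have key : ∀ {a b : ℝ}, a ∈ Icc t0 t1 → b ∈ Icc t0 t1 → IntegrableOn (l4rSp ν dc) (Ioc a b) volume := by
    intro a b ha hb
    exact (l4r_int_sub hp ha hb).integral_norm_prod_left
  exact ⟨key hτ hτ', key hτ' hτ⟩

theorem l4r_sp_nonneg (s : ℝ) : 0 ≤ l4rSp ν dc s := integral_nonneg fun _ => abs_nonneg _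

/-- a bounded measurable kernel against the speed -/
theorem l4r_ker_int (hp : L4rPath ν D A t0 t1 c dc) {H : ℝ × U → ℝ} (hH : Measurable H) (hb : ∀ p, |H p| ≤ M)
    {τ τ' : ℝ} (hτ : τ ∈ Icc t0 t1) (hτ' : τ' ∈ Icc t0 t1) :
    Integrable (fun p : ℝ × U => H p * dc p.1 p.2) ((volume.restrict (Ioc τ τ')).prod ν) :=
  (l4r_int_sub hp hτ hτ').bdd_mul (c := M) hH.aestronglyMeasurable (ae_of_all _ fun p => by rw [Real.norm_eq_abs]; exact hb p)

/-- increments of the clocks -/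
theorem l4r_incr (hp : L4rPath ν D A t0 t1 c dc) {τ τ' : ℝ} (hτ : τ ∈ Icc t0 t1) (hτ' : τ' ∈ Icc t0 t1) (h : τ ≤ τ') :
    ∀ᵐ u ∂ν, c τ' u - c τ u = ∫ s in Ioc τ τ', dc s u := by
  have h01 : t0 ≤ t1 := hτ.1.trans hτ.2
  filter_upwards [hp.ftc, hp.int.prod_left_ae] with u hu hi
  have hi' : ∀ b ∈ Icc t0 t1, IntervalIntegrable (fun s => dc s u) volume t0 b := by
    intro b hb
    rw [intervalIntegrable_iff_integrableOn_Ioc_of_le hb.1]
    exact IntegrableOn.mono_set hi (fun s hs => ⟨hs.1.le, hs.2.trans hb.2⟩)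
  have e := intervalIntegral.integral_interval_sub_left (hi' τ' hτ') (hi' τ hτ)
  rw [← intervalIntegral.integral_of_le h, ← e, ← hu τ' hτ', ← hu τ hτ]
  ring

/-- Fubini for a kernel which does not depend on the path parameter -/
theorem l4r_fub (hp : L4rPath ν D A t0 t1 c dc) {k : U → ℝ} (hk : Measurable k) (hb : ∀ u, |k u| ≤ M)
    {τ τ' : ℝ} (hτ : τ ∈ Icc t0 t1) (hτ' : τ' ∈ Icc t0 t1) (h : τ ≤ τ') :
    ∫ u, k u * (c τ' u - c τ u) ∂ν = ∫ s in Ioc τ τ', ∫ u, k u * dc s u ∂ν := by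
  have h1 : ∫ u, k u * (c τ' u - c τ u) ∂ν = ∫ u, (∫ s in Ioc τ τ', k u * dc s u) ∂ν := by
    refine integral_congr_ae ?_
    filter_upwards [l4r_incr hp hτ hτ' h] with u hu
    rw [hu, integral_const_mul]
  rw [h1]
  have hi := l4r_ker_int (M := M) hp (H := fun p => k p.2) (hk.comp measurable_snd) (fun p => hb p.2) hτ hτ'
  exact (integral_integral_swap (f := fun s u => k u * dc s u) hi).symm

/-- **the local comparison**: on a short piece of the path the increment of the functional is the integral of the formula, up to the oscillation of the kernel -/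
theorem l4r_local (hf : L4rFun ν D A f K M C) (hp : L4rPath ν D A t0 t1 c dc) (hall : ∀ s, c s ∈ A)
    (hKm : Measurable fun p : ℝ × U => K (c p.1) p.2) {τ τ' ε : ℝ} (hτ : τ ∈ Icc t0 t1) (hτ' : τ' ∈ Icc t0 t1) (h : τ ≤ τ') (hε : 0 ≤ ε)
    (hosc : ∀ s ∈ Icc τ τ', ∀ s' ∈ Icc τ τ', ∀ u ∈ D, |c s u - c s' u| ≤ ε) :
    |f (c τ') - f (c τ) - ∫ s in τ..τ', l4rPhi ν K c dc s| ≤ C * ε * ∫ s in τ..τ', l4rSp ν dc s := by
  obtain ⟨θ, hθ, e⟩ := l4r_mvt hf (hall τ) (hall τ')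
  have hA := hf.seg _ (hall τ) _ (hall τ') θ (Ioo_subset_Icc_self hθ)
  set k := K (l4rSeg θ (c τ) (c τ')) with hk
  rw [e, l4r_fub (M := M) hp (hf.meas _ hA) (hf.bdd _ hA) hτ hτ' h, intervalIntegral.integral_of_le h, intervalIntegral.integral_of_le h]
  have i1 := l4r_ker_int (M := M) hp (H := fun p => k p.2) ((hf.meas _ hA).comp measurable_snd) (fun p => hf.bdd _ hA p.2) hτ hτ'
  have i2 := l4r_ker_int (M := M) hp (H := fun p => K (c p.1) p.2) hKm (fun p => hf.bdd _ (hall p.1) p.2) hτ hτ'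
  have j1 := i1.integral_prod_left
  have j2 := i2.integral_prod_left
  have j3 : IntegrableOn (l4rSp ν dc) (Ioc τ τ') volume := (l4r_int_sub hp hτ hτ').integral_norm_prod_left
  unfold l4rPhi
  rw [← integral_sub j1 j2, ← integral_const_mul]
  refine (abs_integral_le_integral_abs).trans ?_
  refine integral_mono_ae (j1.sub j2).abs (j3.const_mul _) ?_
  filter_upwards [ae_restrict_mem measurableSet_Ioc, i1.prod_right_ae, i2.prod_right_ae, (l4r_int_sub hp hτ hτ').prod_right_ae] with s hs a1 a2 a3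
  rw [← integral_sub a1 a2]
  refine (abs_integral_le_integral_abs).trans ?_
  unfold l4rSp
  rw [← integral_const_mul]
  refine integral_mono_ae (a1.sub a2).abs (a3.abs.const_mul _) (ae_of_all _ fun u => ?_)
  simp only
  rw [← sub_mul, abs_mul]
  refine mul_le_mul_of_nonneg_right ?_ (abs_nonneg _)
  refine hf.lip _ hA _ (hall s) ε hε (fun u hu => ?_) u
  have hs' : s ∈ Icc τ τ' := ⟨hs.1.le, hs.2⟩
  have b1 := hosc τ (left_mem_Icc.2 h) s hs' u hu
  have b2 := hosc τ' (right_mem_Icc.2 h) s hs' u hu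
  have e2 : l4rSeg θ (c τ) (c τ') u - c s u = (1 - θ) * (c τ u - c s u) + θ * (c τ' u - c s u) := by
    unfold l4rSeg; ring
  rw [e2]
  calc |(1 - θ) * (c τ u - c s u) + θ * (c τ' u - c s u)| ≤ |(1 - θ) * (c τ u - c s u)| + |θ * (c τ' u - c s u)| := abs_add_le _ _
    _ = (1 - θ) * |c τ u - c s u| + θ * |c τ' u - c s u| := by
        rw [abs_mul, abs_mul, abs_of_pos hθ.1, abs_of_pos (sub_pos.2 hθ.2)]
    _ ≤ (1 - θ) * ε + θ * ε := add_le_add (mul_le_mul_of_nonneg_left b1 (sub_pos.2 hθ.2).le) (mul_le_mul_of_nonneg_left b2 hθ.1.le)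
    _ = ε := by ring

/-- the formula is integrable -/
theorem l4r_phi_int_all (hf : L4rFun ν D A f K M C) (hp : L4rPath ν D A t0 t1 c dc) (hall : ∀ s, c s ∈ A)
    (hKm : Measurable fun p : ℝ × U => K (c p.1) p.2) {τ τ' : ℝ} (hτ : τ ∈ Icc t0 t1) (hτ' : τ' ∈ Icc t0 t1) :
    IntervalIntegrable (l4rPhi ν K c dc) volume τ τ' := by
  have key : ∀ {a b : ℝ}, a ∈ Icc t0 t1 → b ∈ Icc t0 t1 → IntegrableOn (l4rPhi ν K c dc) (Ioc a b) volume := by
    intro a b ha hb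
    exact (l4r_ker_int (M := M) hp (H := fun p => K (c p.1) p.2) hKm (fun p => hf.bdd _ (hall p.1) p.2) ha hb).integral_prod_left
  exact ⟨key hτ hτ', key hτ' hτ⟩

theorem l4r_ftc_all (hf : L4rFun ν D A f K M C) (hp : L4rPath ν D A t0 t1 c dc) (hall : ∀ s, c s ∈ A)
    (hKm : Measurable fun p : ℝ × U => K (c p.1) p.2) {τ : ℝ} (hτ : τ ∈ Icc t0 t1) :
    f (c τ) - f (c t0) = ∫ s in t0..τ, l4rPhi ν K c dc s := by
  have h0 : t0 ∈ Icc t0 t1 := left_mem_Icc.2 (hτ.1.trans hτ.2)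
  have hsub : ∀ σ ∈ Icc t0 τ, σ ∈ Icc t0 t1 := fun σ hσ => ⟨hσ.1, hσ.2.trans hτ.2⟩
  have key := l4r_chain (G := fun σ => f (c σ) - ∫ s in t0..σ, l4rPhi ν K c dc s) (Aa := fun σ => ∫ s in t0..σ, l4rSp ν dc s) hτ.1 ?_
  · simp only [intervalIntegral.integral_same, sub_zero] at key
    linarith
  intro ε hε
  obtain ⟨δ, hδ, h⟩ := hp.ucont (ε / (|C| + 1)) (by positivity)
  refine ⟨δ, hδ, fun σ hσ σ' hσ' hle hlt => ?_⟩
  have m := hsub σ hσ
  have m' := hsub σ' hσ'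
  have loc := l4r_local hf hp hall hKm m m' hle (ε := ε / (|C| + 1)) (by positivity) (fun s hs s' hs' u hu => by
    refine h s' ⟨m.1.trans hs'.1, hs'.2.trans m'.2⟩ s ⟨m.1.trans hs.1, hs.2.trans m'.2⟩ ?_ u hu
    rw [abs_lt]
    constructor <;> linarith [hs.1, hs.2, hs'.1, hs'.2])
  have e1 := intervalIntegral.integral_interval_sub_left (l4r_phi_int_all hf hp hall hKm h0 m') (l4r_phi_int_all hf hp hall hKm h0 m)
  have e2 := intervalIntegral.integral_interval_sub_left (l4r_sp_int hp h0 m') (l4r_sp_int hp h0 m)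
  have hnn : 0 ≤ ∫ s in σ..σ', l4rSp ν dc s := intervalIntegral.integral_nonneg hle fun s _ => l4r_sp_nonneg s
  rw [e2]
  have e3 : f (c σ') - (∫ s in t0..σ', l4rPhi ν K c dc s) - (f (c σ) - ∫ s in t0..σ, l4rPhi ν K c dc s)
      = f (c σ') - f (c σ) - ∫ s in σ..σ', l4rPhi ν K c dc s := by rw [← e1]; ring
  rw [e3]
  refine loc.trans (mul_le_mul_of_nonneg_right ?_ hnn)
  calc C * (ε / (|C| + 1)) ≤ |C| * (ε / (|C| + 1)) := mul_le_mul_of_nonneg_right (le_abs_self _) (by positivity)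
    _ ≤ ε := by
      rw [mul_div_assoc', div_le_iff₀ (by positivity)]
      nlinarith [abs_nonneg C]

theorem l4r_phi_clamp {s : ℝ} (hs : s ∈ Icc t0 t1) : l4rPhi ν K (fun τ => c (l4rCl t0 t1 τ)) dc s = l4rPhi ν K c dc s := by
  unfold l4rPhi
  simp only [l4r_cl_of_mem hs]

/-- **THE CHAIN RULE, integrated form** -/
theorem l4r_ftc (hf : L4rFun ν D A f K M C) (hp : L4rPath ν D A t0 t1 c dc) (h01 : t0 ≤ t1) :
    IntervalIntegrable (l4rPhi ν K c dc) volume t0 t1 ∧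
      ∀ τ ∈ Icc t0 t1, f (c τ) - f (c t0) = ∫ s in t0..τ, l4rPhi ν K c dc s := by
  have hall : ∀ s, (fun τ => c (l4rCl t0 t1 τ)) s ∈ A := fun s => hp.mem _ (l4r_cl_mem h01 s)
  have hKm := l4r_K_meas hf hp h01
  have hp' := hp.clamp h01
  constructor
  · refine (l4r_phi_int_all hf hp' hall hKm (left_mem_Icc.2 h01) (right_mem_Icc.2 h01)).congr_ae ?_
    filter_upwards [ae_restrict_mem measurableSet_uIoc] with s hs
    rw [uIoc_of_le h01] at hs
    exact l4r_phi_clamp ⟨hs.1.le, hs.2⟩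
  · intro τ hτ
    have := l4r_ftc_all hf hp' hall hKm hτ
    simp only [l4r_cl_of_mem hτ, l4r_cl_of_mem (left_mem_Icc.2 h01)] at this
    rw [this]
    refine intervalIntegral.integral_congr fun s hs => ?_
    rw [uIcc_of_le hτ.1] at hs
    exact l4r_phi_clamp ⟨hs.1, hs.2.trans hτ.2⟩

/-- absolute continuity -/
theorem l4r_ac (hf : L4rFun ν D A f K M C) (hp : L4rPath ν D A t0 t1 c dc) (h01 : t0 ≤ t1) :
    AbsolutelyContinuousOnInterval (fun τ => f (c τ)) t0 t1 := by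
  obtain ⟨hi, hF⟩ := l4r_ftc hf hp h01
  refine l4r_ac_congr (k := f (c t0)) (hi.absolutelyContinuousOnInterval_intervalIntegral (c := t0) left_mem_uIcc) fun x hx => ?_
  rw [uIcc_of_le h01] at hx
  rw [← hF x hx]; ring

/-- **THE CHAIN RULE, almost everywhere** -/
theorem l4r_deriv (hf : L4rFun ν D A f K M C) (hp : L4rPath ν D A t0 t1 c dc) (h01 : t0 ≤ t1) :
    ∀ᵐ τ, τ ∈ Icc t0 t1 → HasDerivAt (fun τ => f (c τ)) (l4rPhi ν K c dc τ) τ := by
  obtain ⟨hi, hF⟩ := l4r_ftc hf hp h01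
  have h1 : ∀ᵐ x : ℝ, x ≠ t0 := by simp [ae_iff, measure_singleton]
  have h2 : ∀ᵐ x : ℝ, x ≠ t1 := by simp [ae_iff, measure_singleton]
  filter_upwards [hi.ae_hasDerivAt_integral, h1, h2] with τ hτ n1 n2 hm
  have hd := hτ (by rw [uIcc_of_le h01]; exact hm) t0 left_mem_uIcc
  have hio : τ ∈ Ioo t0 t1 := ⟨lt_of_le_of_ne hm.1 (Ne.symm n1), lt_of_le_of_ne hm.2 n2⟩
  have hd' : HasDerivAt (fun x => f (c t0) + ∫ s in t0..x, l4rPhi ν K c dc s) (l4rPhi ν K c dc τ) τ := hd.const_add _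
  refine hd'.congr_of_eventuallyEq ?_
  filter_upwards [Ioo_mem_nhds hio.1 hio.2] with x hx
  rw [← hF x (Ioo_subset_Icc_self hx)]; ring

/-- the formula is bounded by the `L¹` speed -/
theorem l4r_phi_le (hf : L4rFun ν D A f K M C) {s : ℝ} (hs : c s ∈ A) (hi : Integrable (dc s) ν) :
    |l4rPhi ν K c dc s| ≤ M * l4rSp ν dc s := by
  unfold l4rPhi l4rSp
  rw [← integral_const_mul]
  refine (abs_integral_le_integral_abs).trans ?_
  refine integral_mono_of_nonneg (ae_of_all _ fun _ => abs_nonneg _) (hi.abs.const_mul M) (ae_of_all _ fun u => ?_)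
  simp only
  rw [abs_mul]
  exact mul_le_mul_of_nonneg_right (hf.bdd _ hs u) (abs_nonneg _)

/-- the speed of the functional is bounded by the `L¹` speed of the path -/
theorem l4r_deriv_le (hf : L4rFun ν D A f K M C) (hp : L4rPath ν D A t0 t1 c dc) (h01 : t0 ≤ t1) :
    ∀ᵐ τ, τ ∈ Icc t0 t1 → |deriv (fun τ => f (c τ)) τ| ≤ M * l4rSp ν dc τ := by
  have h3 : ∀ᵐ τ, τ ∈ Icc t0 t1 → Integrable (dc τ) ν := by
    have := hp.int.prod_right_ae
    rwa [ae_restrict_iff' measurableSet_Icc] at this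
  filter_upwards [l4r_deriv hf hp h01, h3] with τ hτ hi hm
  rw [(hτ hm).deriv]
  exact l4r_phi_le hf (hp.mem τ hm) (hi hm)

/-! ### the difference of the functional along two paths (`ψ = f^s - f^0`) -/

variable {c' dc' : ℝ → U → ℝ}

theorem l4r_psi_ac (hf : L4rFun ν D A f K M C) (hp : L4rPath ν D A t0 t1 c dc) (hp' : L4rPath ν D A t0 t1 c' dc') (h01 : t0 ≤ t1) :
    AbsolutelyContinuousOnInterval (fun τ => f (c' τ) - f (c τ)) t0 t1 :=
  (l4r_ac hf hp' h01).sub (l4r_ac hf hp h01)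

theorem l4r_psi_deriv (hf : L4rFun ν D A f K M C) (hp : L4rPath ν D A t0 t1 c dc) (hp' : L4rPath ν D A t0 t1 c' dc') (h01 : t0 ≤ t1) :
    ∀ᵐ τ, τ ∈ Icc t0 t1 → HasDerivAt (fun τ => f (c' τ) - f (c τ)) (l4rPhi ν K c' dc' τ - l4rPhi ν K c dc τ) τ := by
  filter_upwards [l4r_deriv hf hp h01, l4r_deriv hf hp' h01] with τ h1 h2 hm
  exact (h2 hm).sub (h1 hm)

theorem l4r_psi_deriv_le (hf : L4rFun ν D A f K M C) (hp : L4rPath ν D A t0 t1 c dc) (hp' : L4rPath ν D A t0 t1 c' dc') (h01 : t0 ≤ t1) :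
    ∀ᵐ τ, τ ∈ Icc t0 t1 → |deriv (fun τ => f (c' τ) - f (c τ)) τ| ≤ M * (l4rSp ν dc' τ + l4rSp ν dc τ) := by
  have h3 : ∀ᵐ τ, τ ∈ Icc t0 t1 → Integrable (dc τ) ν := by
    have := hp.int.prod_right_ae
    rwa [ae_restrict_iff' measurableSet_Icc] at this
  have h4 : ∀ᵐ τ, τ ∈ Icc t0 t1 → Integrable (dc' τ) ν := by
    have := hp'.int.prod_right_ae
    rwa [ae_restrict_iff' measurableSet_Icc] at this
  filter_upwards [l4r_psi_deriv hf hp hp' h01, h3, h4] with τ hτ i1 i2 hm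
  rw [(hτ hm).deriv]
  have b1 := l4r_phi_le hf (hp.mem τ hm) (i1 hm)
  have b2 := l4r_phi_le hf (hp'.mem τ hm) (i2 hm)
  calc |l4rPhi ν K c' dc' τ - l4rPhi ν K c dc τ| ≤ |l4rPhi ν K c' dc' τ| + |l4rPhi ν K c dc τ| := abs_sub _ _
    _ ≤ M * l4rSp ν dc' τ + M * l4rSp ν dc τ := add_le_add b2 b1
    _ = _ := by ring

/-- total variation of `ψ` along the path -/
theorem l4r_psi_var (hf : L4rFun ν D A f K M C) (hp : L4rPath ν D A t0 t1 c dc) (hp' : L4rPath ν D A t0 t1 c' dc') (h01 : t0 ≤ t1) :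
    ∫ τ in t0..t1, |deriv (fun τ => f (c' τ) - f (c τ)) τ| ≤ M * ((∫ τ in t0..t1, l4rSp ν dc' τ) + ∫ τ in t0..t1, l4rSp ν dc τ) := by
  have l := left_mem_Icc.2 h01
  have r := right_mem_Icc.2 h01
  have i1 := l4r_sp_int hp l r
  have i2 := l4r_sp_int hp' l r
  rw [← intervalIntegral.integral_add i2 i1, ← intervalIntegral.integral_const_mul]
  refine intervalIntegral.integral_mono_ae_restrict h01 (l4r_psi_ac hf hp hp' h01).intervalIntegrable_deriv.abs ((i2.add i1).const_mul M) ?_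
  rw [EventuallyLE, ae_restrict_iff' measurableSet_Icc]
  exact l4r_psi_deriv_le hf hp hp' h01

end path

/-! ### families of paths: joint measurability and integrability of the speed -/

section param

variable {Γ : Type} [TopologicalSpace Γ] [MeasurableSpace Γ] [OpensMeasurableSpace Γ]

/-- joint continuity of the functional along a family of paths which is jointly continuous in the sup norm -/
theorem l4r_cont_param {ν : Measure U} [IsFiniteMeasure ν] {D : Set U} {A : Set (U → ℝ)} {f : (U → ℝ) → ℝ} {K : (U → ℝ) → U → ℝ} {M C : ℝ}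
    (hf : L4rFun ν D A f K M C) (hM : 0 ≤ M) {c : Γ → ℝ → U → ℝ} (hmem : ∀ γ τ, c γ τ ∈ A)
    (hc : ∀ p : Γ × ℝ, ∀ ε : ℝ, 0 < ε → ∀ᶠ p' in 𝓝 p, ∀ u ∈ D, |c p'.1 p'.2 u - c p.1 p.2 u| ≤ ε) :
    Continuous (uncurry fun γ τ => f (c γ τ)) := by
  rw [continuous_iff_continuousAt]
  intro p
  rw [ContinuousAt, Metric.tendsto_nhds]
  intro ε hε
  have hν : 0 ≤ ν.real univ := measureReal_nonneg
  filter_upwards [hc p (ε / (2 * (M * ν.real univ + 1))) (by positivity)] with p' hp'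
  rw [Real.dist_eq]
  refine lt_of_le_of_lt (l4r_lip_sup hf hM (hmem p.1 p.2) (hmem p'.1 p'.2) hp') ?_
  have e : M * (ε / (2 * (M * ν.real univ + 1)) * ν.real univ) = ε * (M * ν.real univ) / (2 * (M * ν.real univ + 1)) := by ring
  rw [e, div_lt_iff₀ (by positivity)]
  have : 0 ≤ M * ν.real univ := by positivity
  nlinarith

/-- integrability of the speed of a jointly continuous family of absolutely continuous functions -/
theorem l4r_int_param {μ : Measure Γ} [IsFiniteMeasure μ] {F : Γ → ℝ → ℝ} {t0 t1 G : ℝ} (h01 : t0 ≤ t1) (hF : Continuous (uncurry F))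
    (hac : ∀ γ, AbsolutelyContinuousOnInterval (F γ) t0 t1) (hG : ∀ γ, ∫ τ in t0..t1, |deriv (F γ) τ| ≤ G) :
    Integrable (fun p : Γ × ℝ => deriv (F p.1) p.2) (μ.prod (volume.restrict (Icc t0 t1))) := by
  have hm : Measurable fun p : Γ × ℝ => deriv (F p.1) p.2 := measurable_deriv_with_param hF
  rw [integrable_prod_iff hm.aestronglyMeasurable]
  constructor
  · refine ae_of_all _ fun γ => ?_
    have := (hac γ).intervalIntegrable_deriv
    rw [intervalIntegrable_iff_integrableOn_Icc_of_le h01] at this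
    exact this
  · refine Integrable.of_bound (hm.norm.stronglyMeasurable.integral_prod_right').aestronglyMeasurable G (ae_of_all _ fun γ => ?_)
    rw [Real.norm_eq_abs, abs_of_nonneg (integral_nonneg fun _ => norm_nonneg _)]
    have := hG γ
    rw [intervalIntegral.integral_of_le h01, ← integral_Icc_eq_integral_Ioc] at this
    exact this

open Classical in
/-- integrability of the STOPPED speed (the shape of `SkPath.aD`) -/
theorem l4r_int_stop {μ : Measure Γ} [IsFiniteMeasure μ] {F : Γ → ℝ → ℝ} {t0 t1 G : ℝ} (h01 : t0 ≤ t1) (hF : Continuous (uncurry F))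
    (hac : ∀ γ, AbsolutelyContinuousOnInterval (F γ) t0 t1) (hG : ∀ γ, ∫ τ in t0..t1, |deriv (F γ) τ| ≤ G) (a b : ℝ) :
    Integrable (fun p : Γ × ℝ => if a * F p.1 p.2 ≤ b then |deriv (F p.1) p.2| else 0) (μ.prod (volume.restrict (Icc t0 t1))) := by
  have h1 := (l4r_int_param (μ := μ) h01 hF hac hG).abs
  have hs : MeasurableSet {p : Γ × ℝ | a * F p.1 p.2 ≤ b} :=
    measurableSet_le ((hF.measurable).const_mul a) measurable_const
  refine (h1.indicator hs).congr (ae_of_all _ fun p => ?_)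
  simp only [indicator_apply, mem_ofPred_eq]

open Classical in
/-- integrability of a stopped combination "speed + bounded term" (the shape of `SkPath.aS`) -/
theorem l4r_int_stop2 {μ : Measure Γ} [IsFiniteMeasure μ] {F : Γ → ℝ → ℝ} {t0 t1 G B : ℝ} (h01 : t0 ≤ t1) (hF : Continuous (uncurry F))
    (hac : ∀ γ, AbsolutelyContinuousOnInterval (F γ) t0 t1) (hG : ∀ γ, ∫ τ in t0..t1, |deriv (F γ) τ| ≤ G)
    {R : Γ × ℝ → ℝ} (hR : Measurable R) (hRb : ∀ p : Γ × ℝ, p.2 ∈ Icc t0 t1 → |R p| ≤ B) {S : Set (Γ × ℝ)} (hS : MeasurableSet S) :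
    Integrable (fun p : Γ × ℝ => if p ∈ S then |deriv (F p.1) p.2 + R p| else 0) (μ.prod (volume.restrict (Icc t0 t1))) := by
  have h1 := l4r_int_param (μ := μ) h01 hF hac hG
  have h2 : Integrable R (μ.prod (volume.restrict (Icc t0 t1))) := by
    refine Integrable.of_bound hR.aestronglyMeasurable B ?_
    have : ∀ᵐ τ ∂(volume.restrict (Icc t0 t1)), τ ∈ Icc t0 t1 := ae_restrict_mem measurableSet_Icc
    filter_upwards [Measure.quasiMeasurePreserving_snd.ae this] with p hp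
    exact hRb p hp
  refine ((h1.add h2).abs.indicator hS).congr (ae_of_all _ fun p => ?_)
  simp only [indicator_apply, Pi.add_apply]

end param

end Claimed.Agent.R286
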