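import Claimed.Agent.R286.LL04.Reg
import Claimed.Agent.R286.Defs.Clk

/-!
# Row 286 (S0533), LL Sec. 4, file LL04/RegBH : THE CHAIN RULE FOR THE PRESSURE ALONG A PATH OF PAIRS OF CLOCKS `(b,h)`      (helper17; prefix `l4s_`, types `L4s*`)      sorry free

The `(b,h)` form of LL04/Reg (abstract file).      USERS: owner of `Ll04Inc` (LL 09+10: `deriv ψ = formula` a.e.), LL04/Asm.

* `L4sFun a f Bv Sv C` : **LL (A1), line 1** for a functional `f b h` of admissible clocks (`GhClk1 a`): derivative `-1/4 ∫_0^a B_v (b1-b0) - 1/2 ∫_0^a S_v (h1-h0)` along affine segments (`l4rSeg` = `ckSeg`),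
  `Bv b h`, `Sv b h` monotone on `[0,a]`, bounded by `1`, Lipschitz (constant `C`, may depend on the size) in the sup norm of the clocks on `[0,a]`.
  INSTANCE for `skCPr n a`, `skCB .. (ghPosA u)`, `skCS .. (ghPosA u)`: `l4k_fun` (file LL04/RegSk, from the exits ClkPr, ClkLip, ClkStat).      For `LlBase`: `f = 𝔹.f m a`, `Bv = 𝔹.Bv m a`, `Sv = 𝔹.Sv m a`.
* `L4sPath a t0 t1 b h db dh` : `τ ↦ (b τ, h τ)` admissible, uniformly continuous in the sup norm on `[0,a]`; `b τ u - b t0 u = ∫_{t0}^τ db s u ds` for a.e. `u ∈ (0,a]`, `db`, `dh` integrable on `[t0,t1] × (0,a]`.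
* `l4sPhi a Bv Sv b h db dh τ = -1/4 ∫_0^a B_u ḃ_τ(u) du - 1/2 ∫_0^a S_u ḣ_τ(u) du` THE FORMULA;      `l4sSp a db dh τ = ∫_0^a |ḃ_τ| + ∫_0^a |ḣ_τ|`
* `l4sTl s c = fun v => if s ≤ v then c v else 0` the tilt of the matrix clock (verbatim the one of `LlBase.psi`);      `L4sPath.tilt`

RESULTS      `l4s_ac`, **`l4s_deriv`** (a.e. `HasDerivAt (fun τ => f (b τ) (h τ)) (l4sPhi … τ) τ`), `l4s_ftc` (integrated), `l4s_deriv_le` (`|deriv| ≤ l4sSp / 2`), `l4s_psi_ac`, **`l4s_psi_deriv`** (`ψ̇` = tilted formula - untilted formula).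
-/

set_option autoImplicit false

namespace Claimed.Agent.R286

open MeasureTheory Set Filter Topology Function

/-- **LL (A1), line 1** for a functional `f` of the pair of clocks on `[0,a]`, with the statistics `Bv`, `Sv` (functions of the mass) -/
structure L4sFun (a : ℝ) (f : (ℝ → ℝ) → (ℝ → ℝ) → ℝ) (Bv Sv : (ℝ → ℝ) → (ℝ → ℝ) → ℝ → ℝ) (C : ℝ) : Prop where
  der : ∀ b0 h0 b1 h1 : ℝ → ℝ, GhClk1 a b0 → GhClk1 a h0 → GhClk1 a b1 → GhClk1 a h1 → ∀ θ ∈ Icc (0 : ℝ) 1,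
    HasDerivWithinAt (fun s => f (l4rSeg s b0 b1) (l4rSeg s h0 h1))
      (-(1 / 4) * (∫ u in (0 : ℝ)..a, Bv (l4rSeg θ b0 b1) (l4rSeg θ h0 h1) u * (b1 u - b0 u))
        - (1 / 2) * ∫ u in (0 : ℝ)..a, Sv (l4rSeg θ b0 b1) (l4rSeg θ h0 h1) u * (h1 u - h0 u)) (Icc 0 1) θ
  monoB : ∀ b h : ℝ → ℝ, GhClk1 a b → GhClk1 a h → MonotoneOn (Bv b h) (Icc 0 a)
  monoS : ∀ b h : ℝ → ℝ, GhClk1 a b → GhClk1 a h → MonotoneOn (Sv b h) (Icc 0 a)
  bdB : ∀ b h : ℝ → ℝ, GhClk1 a b → GhClk1 a h → ∀ u ∈ Icc 0 a, |Bv b h u| ≤ 1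
  bdS : ∀ b h : ℝ → ℝ, GhClk1 a b → GhClk1 a h → ∀ u ∈ Icc 0 a, |Sv b h u| ≤ 1
  lip : ∀ b h b' h' : ℝ → ℝ, GhClk1 a b → GhClk1 a h → GhClk1 a b' → GhClk1 a h' → ∀ δ : ℝ, 0 ≤ δ →
    (∀ u ∈ Icc 0 a, |b u - b' u| ≤ δ) → (∀ u ∈ Icc 0 a, |h u - h' u| ≤ δ) →
      ∀ u ∈ Icc 0 a, |Bv b h u - Bv b' h' u| ≤ C * δ ∧ |Sv b h u - Sv b' h' u| ≤ C * δ

/-- a path of pairs of clocks with the speeds `db`, `dh` -/
structure L4sPath (a t0 t1 : ℝ) (b h db dh : ℝ → ℝ → ℝ) : Prop where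
  admB : ∀ τ ∈ Icc t0 t1, GhClk1 a (b τ)
  admH : ∀ τ ∈ Icc t0 t1, GhClk1 a (h τ)
  ucont : ∀ ε : ℝ, 0 < ε → ∃ δ : ℝ, 0 < δ ∧ ∀ τ ∈ Icc t0 t1, ∀ τ' ∈ Icc t0 t1, |τ' - τ| < δ →
    ∀ u ∈ Icc 0 a, |b τ' u - b τ u| ≤ ε ∧ |h τ' u - h τ u| ≤ ε
  intB : Integrable (uncurry db) ((volume.restrict (Icc t0 t1)).prod (volume.restrict (Ioc 0 a)))
  intH : Integrable (uncurry dh) ((volume.restrict (Icc t0 t1)).prod (volume.restrict (Ioc 0 a)))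
  ftcB : ∀ᵐ u : ℝ, u ∈ Ioc 0 a → ∀ τ ∈ Icc t0 t1, b τ u - b t0 u = ∫ s in t0..τ, db s u
  ftcH : ∀ᵐ u : ℝ, u ∈ Ioc 0 a → ∀ τ ∈ Icc t0 t1, h τ u - h t0 u = ∫ s in t0..τ, dh s u

/-- **THE FORMULA** `-1/4 ∫ B_v ḃ(v) dv - 1/2 ∫ S_v ḣ(v) dv` -/
noncomputable def l4sPhi (a : ℝ) (Bv Sv : (ℝ → ℝ) → (ℝ → ℝ) → ℝ → ℝ) (b h db dh : ℝ → ℝ → ℝ) (τ : ℝ) : ℝ :=
  -(1 / 4) * (∫ u in (0 : ℝ)..a, Bv (b τ) (h τ) u * db τ u) - (1 / 2) * ∫ u in (0 : ℝ)..a, Sv (b τ) (h τ) u * dh τ u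

/-- the `L¹` speed of the pair -/
noncomputable def l4sSp (a : ℝ) (db dh : ℝ → ℝ → ℝ) (τ : ℝ) : ℝ := (∫ u in (0 : ℝ)..a, |db τ u|) + ∫ u in (0 : ℝ)..a, |dh τ u|

/-! ### the pair as one clock on `ℝ ⊕ ℝ` -/

noncomputable def l4sNu (a : ℝ) : Measure (ℝ ⊕ ℝ) :=
  ((volume : Measure ℝ).restrict (Ioc 0 a)).map Sum.inl + ((volume : Measure ℝ).restrict (Ioc 0 a)).map Sum.inr

def l4sD (a : ℝ) : Set (ℝ ⊕ ℝ) := {p | Sum.elim id id p ∈ Icc 0 a}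

def l4sA (a : ℝ) : Set (ℝ ⊕ ℝ → ℝ) := {c | GhClk1 a (fun u => c (Sum.inl u)) ∧ GhClk1 a (fun u => c (Sum.inr u))}

def l4sF (f : (ℝ → ℝ) → (ℝ → ℝ) → ℝ) : (ℝ ⊕ ℝ → ℝ) → ℝ := fun c => f (fun u => c (Sum.inl u)) (fun u => c (Sum.inr u))

noncomputable def l4sK (a : ℝ) (Bv Sv : (ℝ → ℝ) → (ℝ → ℝ) → ℝ → ℝ) : (ℝ ⊕ ℝ → ℝ) → ℝ ⊕ ℝ → ℝ := fun c =>
  Sum.elim (fun u => -(1 / 4) * (Icc 0 a).indicator (Bv (fun u => c (Sum.inl u)) (fun u => c (Sum.inr u))) u)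
    (fun u => -(1 / 2) * (Icc 0 a).indicator (Sv (fun u => c (Sum.inl u)) (fun u => c (Sum.inr u))) u)

theorem l4s_eqns_cite : True := by
  have := @l4sPhi.eq_1
  have := @l4sSp.eq_1
  have := @l4sNu.eq_1
  have := @l4sD.eq_1
  have := @l4sA.eq_1
  have := @l4sF.eq_1
  have := @l4sK.eq_1
  trivial

theorem l4s_emb_inl : MeasurableEmbedding (Sum.inl : ℝ → ℝ ⊕ ℝ) :=
  ⟨Sum.inl_injective, measurable_inl, fun _ hs => measurableSet_inl_image.2 hs⟩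

theorem l4s_emb_inr : MeasurableEmbedding (Sum.inr : ℝ → ℝ ⊕ ℝ) :=
  ⟨Sum.inr_injective, measurable_inr, fun _ hs => measurableSet_inr_image.2 hs⟩

instance l4s_finite (a : ℝ) : IsFiniteMeasure (l4sNu a) := by
  unfold l4sNu
  infer_instance

theorem l4s_integrable_iff {a : ℝ} (F : ℝ ⊕ ℝ → ℝ) :
    Integrable F (l4sNu a) ↔ IntegrableOn (fun u => F (Sum.inl u)) (Ioc 0 a) ∧ IntegrableOn (fun u => F (Sum.inr u)) (Ioc 0 a) := by
  unfold l4sNu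
  rw [integrable_add_measure, l4s_emb_inl.integrable_map_iff, l4s_emb_inr.integrable_map_iff]
  rfl

theorem l4s_integral {a : ℝ} {F : ℝ ⊕ ℝ → ℝ} (hF : Integrable F (l4sNu a)) :
    ∫ p, F p ∂l4sNu a = (∫ u in Ioc 0 a, F (Sum.inl u)) + ∫ u in Ioc 0 a, F (Sum.inr u) := by
  unfold l4sNu at hF ⊢
  rw [integrable_add_measure] at hF
  rw [integral_add_measure hF.1 hF.2, l4s_emb_inl.integral_map, l4s_emb_inr.integral_map]

theorem l4s_ae_iff {a : ℝ} (P : ℝ ⊕ ℝ → Prop) :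
    (∀ᵐ p ∂l4sNu a, P p) ↔ (∀ᵐ u : ℝ, u ∈ Ioc 0 a → P (Sum.inl u)) ∧ ∀ᵐ u : ℝ, u ∈ Ioc 0 a → P (Sum.inr u) := by
  unfold l4sNu
  rw [ae_add_measure_iff, l4s_emb_inl.ae_map_iff, l4s_emb_inr.ae_map_iff, ae_restrict_iff' measurableSet_Ioc, ae_restrict_iff' measurableSet_Ioc]

theorem l4s_prod_integrable_iff {a : ℝ} {μ : Measure ℝ} [SFinite μ] (F : ℝ × (ℝ ⊕ ℝ) → ℝ) :
    Integrable F (μ.prod (l4sNu a)) ↔ Integrable (fun p : ℝ × ℝ => F (p.1, Sum.inl p.2)) (μ.prod (volume.restrict (Ioc 0 a))) ∧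
      Integrable (fun p : ℝ × ℝ => F (p.1, Sum.inr p.2)) (μ.prod (volume.restrict (Ioc 0 a))) := by
  unfold l4sNu
  have e1 : μ.prod (((volume : Measure ℝ).restrict (Ioc 0 a)).map Sum.inl) = (μ.prod (volume.restrict (Ioc 0 a))).map (Prod.map id (Sum.inl : ℝ → ℝ ⊕ ℝ)) := by
    rw [← Measure.map_prod_map μ _ measurable_id measurable_inl, Measure.map_id]
  have e2 : μ.prod (((volume : Measure ℝ).restrict (Ioc 0 a)).map Sum.inr) = (μ.prod (volume.restrict (Ioc 0 a))).map (Prod.map id (Sum.inr : ℝ → ℝ ⊕ ℝ)) := by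
    rw [← Measure.map_prod_map μ _ measurable_id measurable_inr, Measure.map_id]
  rw [Measure.prod_add, integrable_add_measure, e1, e2, (MeasurableEmbedding.id.prodMap l4s_emb_inl).integrable_map_iff,
    (MeasurableEmbedding.id.prodMap l4s_emb_inr).integrable_map_iff]
  rfl

/-- a function which is monotone on `[0,a]`, cut off outside, is measurable -/
theorem l4s_meas_ind {a : ℝ} {g : ℝ → ℝ} (hg : MonotoneOn g (Icc 0 a)) : Measurable ((Icc 0 a).indicator g) := by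
  rcases lt_or_ge a 0 with ha | ha
  · rw [Icc_eq_empty (not_le.2 ha), indicator_empty]
    exact measurable_const
  have l : (0 : ℝ) ∈ Icc 0 a := left_mem_Icc.2 ha
  have r : a ∈ Icc 0 a := right_mem_Icc.2 ha
  obtain ⟨g', hg', e⟩ := hg.exists_monotone_extension
    ⟨g 0, by rintro _ ⟨u, hu, rfl⟩; exact hg l hu hu.1⟩ ⟨g a, by rintro _ ⟨u, hu, rfl⟩; exact hg hu r hu.2⟩
  rw [indicator_congr e]
  exact hg'.measurable.indicator measurableSet_Icc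

theorem l4s_clk_seg {a θ : ℝ} {c0 c1 : ℝ → ℝ} (h0 : GhClk1 a c0) (h1 : GhClk1 a c1) (hθ : θ ∈ Icc (0 : ℝ) 1) : GhClk1 a (l4rSeg θ c0 c1) := by
  have t0 : 0 ≤ 1 - θ := sub_nonneg.2 hθ.2
  refine ⟨fun u hu v hv huv => ?_, ?_⟩
  · unfold l4rSeg
    exact add_le_add (mul_le_mul_of_nonneg_left (h0.1 hu hv huv) t0) (mul_le_mul_of_nonneg_left (h1.1 hu hv huv) hθ.1)
  · unfold l4rSeg
    exact add_nonneg (mul_nonneg t0 h0.2) (mul_nonneg hθ.1 h1.2)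

theorem l4s_clk_int {a : ℝ} {c : ℝ → ℝ} (h : GhClk1 a c) : IntegrableOn c (Ioc 0 a) :=
  (h.1.integrableOn_isCompact isCompact_Icc).mono_set Ioc_subset_Icc_self

section conv

variable {a C : ℝ} {f : (ℝ → ℝ) → (ℝ → ℝ) → ℝ} {Bv Sv : (ℝ → ℝ) → (ℝ → ℝ) → ℝ → ℝ}

theorem l4s_K_meas (hf : L4sFun a f Bv Sv C) {c : ℝ ⊕ ℝ → ℝ} (hc : c ∈ l4sA a) : Measurable (l4sK a Bv Sv c) :=
  Measurable.sumElim ((l4s_meas_ind (hf.monoB _ _ hc.1 hc.2)).const_mul _) ((l4s_meas_ind (hf.monoS _ _ hc.1 hc.2)).const_mul _)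

theorem l4s_K_bdd (hf : L4sFun a f Bv Sv C) {c : ℝ ⊕ ℝ → ℝ} (hc : c ∈ l4sA a) (p : ℝ ⊕ ℝ) : |l4sK a Bv Sv c p| ≤ 1 / 2 := by
  rcases p with u | u
  · simp only [l4sK, Sum.elim_inl, indicator_apply]
    split_ifs with hu
    · have := hf.bdB _ _ hc.1 hc.2 u hu
      rw [abs_mul, abs_neg, abs_of_pos (by norm_num : (0 : ℝ) < 1 / 4)]
      linarith
    · simp
  · simp only [l4sK, Sum.elim_inr, indicator_apply]
    split_ifs with hu
    · have := hf.bdS _ _ hc.1 hc.2 u hu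
      rw [abs_mul, abs_neg, abs_of_pos (by norm_num : (0 : ℝ) < 1 / 2)]
      linarith
    · simp

/-- integral of the kernel against a speed -/
theorem l4s_K_integral (hf : L4sFun a f Bv Sv C) (ha : 0 ≤ a) {c : ℝ ⊕ ℝ → ℝ} (hc : c ∈ l4sA a) {g : ℝ ⊕ ℝ → ℝ} (hg : Integrable g (l4sNu a)) :
    ∫ p, l4sK a Bv Sv c p * g p ∂l4sNu a =
      -(1 / 4) * (∫ u in (0 : ℝ)..a, Bv (fun u => c (Sum.inl u)) (fun u => c (Sum.inr u)) u * g (Sum.inl u))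
        - (1 / 2) * ∫ u in (0 : ℝ)..a, Sv (fun u => c (Sum.inl u)) (fun u => c (Sum.inr u)) u * g (Sum.inr u) := by
  have hi : Integrable (fun p => l4sK a Bv Sv c p * g p) (l4sNu a) :=
    hg.bdd_mul (c := 1 / 2) (l4s_K_meas hf hc).aestronglyMeasurable (ae_of_all _ fun p => by rw [Real.norm_eq_abs]; exact l4s_K_bdd hf hc p)
  rw [l4s_integral hi, intervalIntegral.integral_of_le ha, intervalIntegral.integral_of_le ha, ← integral_const_mul, ← integral_const_mul,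
    sub_eq_add_neg, ← integral_neg]
  congr 1
  · refine setIntegral_congr_fun measurableSet_Ioc fun u hu => ?_
    simp only [l4sK, Sum.elim_inl, indicator_of_mem (Ioc_subset_Icc_self hu)]
    ring
  · refine setIntegral_congr_fun measurableSet_Ioc fun u hu => ?_
    simp only [l4sK, Sum.elim_inr, indicator_of_mem (Ioc_subset_Icc_self hu)]
    ring

/-- the pair functional is a functional of one clock on `ℝ ⊕ ℝ` -/
theorem L4sFun.toR (hf : L4sFun a f Bv Sv C) (ha : 0 ≤ a) (hC : 0 ≤ C) :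
    L4rFun (l4sNu a) (l4sD a) (l4sA a) (l4sF f) (l4sK a Bv Sv) (1 / 2) (C / 2) where
  dom := by
    rw [l4s_ae_iff]
    exact ⟨ae_of_all _ fun u hu => Ioc_subset_Icc_self hu, ae_of_all _ fun u hu => Ioc_subset_Icc_self hu⟩
  seg := fun c0 h0 c1 h1 θ hθ => ⟨l4s_clk_seg h0.1 h1.1 hθ, l4s_clk_seg h0.2 h1.2 hθ⟩
  int := fun c hc => (l4s_integrable_iff c).2 ⟨l4s_clk_int hc.1, l4s_clk_int hc.2⟩
  der := by
    intro c0 h0 c1 h1 θ hθ
    have hA : l4rSeg θ c0 c1 ∈ l4sA a := ⟨l4s_clk_seg h0.1 h1.1 hθ, l4s_clk_seg h0.2 h1.2 hθ⟩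
    have hg : Integrable (fun p => c1 p - c0 p) (l4sNu a) :=
      ((l4s_integrable_iff c1).2 ⟨l4s_clk_int h1.1, l4s_clk_int h1.2⟩).sub ((l4s_integrable_iff c0).2 ⟨l4s_clk_int h0.1, l4s_clk_int h0.2⟩)
    rw [l4s_K_integral hf ha hA hg]
    exact hf.der _ _ _ _ h0.1 h0.2 h1.1 h1.2 θ hθ
  meas := fun c hc => l4s_K_meas hf hc
  bdd := fun c hc p => l4s_K_bdd hf hc p
  lip := by
    intro c hc c' hc' δ hδ hd p
    have key := hf.lip _ _ _ _ hc.1 hc.2 hc'.1 hc'.2 δ hδ (fun u hu => hd (Sum.inl u) hu) (fun u hu => hd (Sum.inr u) hu)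
    have hCδ : 0 ≤ C * δ := mul_nonneg hC hδ
    rcases p with u | u
    · simp only [l4sK, Sum.elim_inl, indicator_apply]
      split_ifs with hu
      · rw [← mul_sub, abs_mul, abs_neg, abs_of_pos (by norm_num : (0 : ℝ) < 1 / 4)]
        have := (key u hu).1
        linarith
      · simp only [mul_zero, sub_self, abs_zero]; linarith
    · simp only [l4sK, Sum.elim_inr, indicator_apply]
      split_ifs with hu
      · rw [← mul_sub, abs_mul, abs_neg, abs_of_pos (by norm_num : (0 : ℝ) < 1 / 2)]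
        have := (key u hu).2
        linarith
      · simp only [mul_zero, sub_self, abs_zero]; linarith

end conv

section pth

variable {a C t0 t1 : ℝ} {f : (ℝ → ℝ) → (ℝ → ℝ) → ℝ} {Bv Sv : (ℝ → ℝ) → (ℝ → ℝ) → ℝ → ℝ} {b h db dh : ℝ → ℝ → ℝ}

theorem L4sPath.toR (hp : L4sPath a t0 t1 b h db dh) :
    L4rPath (l4sNu a) (l4sD a) (l4sA a) t0 t1 (fun τ => Sum.elim (b τ) (h τ)) (fun τ => Sum.elim (db τ) (dh τ)) where
  mem := fun τ hτ => ⟨hp.admB τ hτ, hp.admH τ hτ⟩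
  ucont := by
    intro ε hε
    obtain ⟨δ, hδ, H⟩ := hp.ucont ε hε
    refine ⟨δ, hδ, fun τ hτ τ' hτ' hd p hp' => ?_⟩
    rcases p with u | u
    · exact (H τ hτ τ' hτ' hd u hp').1
    · exact (H τ hτ τ' hτ' hd u hp').2
  int := (l4s_prod_integrable_iff _).2 ⟨hp.intB, hp.intH⟩
  ftc := by
    rw [l4s_ae_iff]
    exact ⟨hp.ftcB, hp.ftcH⟩

/-- for a.e. `τ` the speeds are integrable in the mass -/
theorem l4s_sec_int (hp : L4sPath a t0 t1 b h db dh) :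
    ∀ᵐ τ : ℝ, τ ∈ Icc t0 t1 → Integrable (Sum.elim (db τ) (dh τ)) (l4sNu a) := by
  have := hp.toR.int.prod_right_ae
  rwa [ae_restrict_iff' measurableSet_Icc] at this

theorem l4s_phi_eq (hf : L4sFun a f Bv Sv C) (ha : 0 ≤ a) (hp : L4sPath a t0 t1 b h db dh) {τ : ℝ} (hτ : τ ∈ Icc t0 t1)
    (hi : Integrable (Sum.elim (db τ) (dh τ)) (l4sNu a)) :
    l4rPhi (l4sNu a) (l4sK a Bv Sv) (fun τ => Sum.elim (b τ) (h τ)) (fun τ => Sum.elim (db τ) (dh τ)) τ = l4sPhi a Bv Sv b h db dh τ :=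
  l4s_K_integral hf ha (hp.toR.mem τ hτ) hi

theorem l4s_sp_eq (ha : 0 ≤ a) {τ : ℝ} (hi : Integrable (Sum.elim (db τ) (dh τ)) (l4sNu a)) :
    l4rSp (l4sNu a) (fun τ => Sum.elim (db τ) (dh τ)) τ = l4sSp a db dh τ := by
  unfold l4rSp l4sSp
  rw [l4s_integral hi.abs, intervalIntegral.integral_of_le ha, intervalIntegral.integral_of_le ha]
  rfl

/-- **absolute continuity of the pressure along the path** -/
theorem l4s_ac (hf : L4sFun a f Bv Sv C) (ha : 0 ≤ a) (hC : 0 ≤ C) (hp : L4sPath a t0 t1 b h db dh) (h01 : t0 ≤ t1) :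
    AbsolutelyContinuousOnInterval (fun τ => f (b τ) (h τ)) t0 t1 := by
  have key := l4r_ac (hf.toR ha hC) hp.toR h01
  simpa only [l4sF, Sum.elim_inl, Sum.elim_inr] using key

/-- **THE CHAIN RULE**: `d/dτ f(b_τ, h_τ) = -1/4 ∫ B_v ḃ_τ(v) dv - 1/2 ∫ S_v ḣ_τ(v) dv` for a.e. `τ` -/
theorem l4s_deriv (hf : L4sFun a f Bv Sv C) (ha : 0 ≤ a) (hC : 0 ≤ C) (hp : L4sPath a t0 t1 b h db dh) (h01 : t0 ≤ t1) :
    ∀ᵐ τ : ℝ, τ ∈ Icc t0 t1 → HasDerivAt (fun τ => f (b τ) (h τ)) (l4sPhi a Bv Sv b h db dh τ) τ := by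
  filter_upwards [l4r_deriv (hf.toR ha hC) hp.toR h01, l4s_sec_int hp] with τ h1 h2 hτ
  rw [← l4s_phi_eq hf ha hp hτ (h2 hτ)]
  exact h1 hτ

/-- the chain rule, integrated -/
theorem l4s_ftc (hf : L4sFun a f Bv Sv C) (ha : 0 ≤ a) (hC : 0 ≤ C) (hp : L4sPath a t0 t1 b h db dh) (h01 : t0 ≤ t1) :
    IntervalIntegrable (l4sPhi a Bv Sv b h db dh) volume t0 t1 ∧
      ∀ τ ∈ Icc t0 t1, f (b τ) (h τ) - f (b t0) (h t0) = ∫ s in t0..τ, l4sPhi a Bv Sv b h db dh s := by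
  obtain ⟨h1, h2⟩ := l4r_ftc (hf.toR ha hC) hp.toR h01
  have e : ∀ᵐ τ : ℝ, τ ∈ Icc t0 t1 →
      l4rPhi (l4sNu a) (l4sK a Bv Sv) (fun τ => Sum.elim (b τ) (h τ)) (fun τ => Sum.elim (db τ) (dh τ)) τ = l4sPhi a Bv Sv b h db dh τ := by
    filter_upwards [l4s_sec_int hp] with τ h3 hτ
    exact l4s_phi_eq hf ha hp hτ (h3 hτ)
  constructor
  · refine h1.congr_ae ?_
    rw [uIoc_of_le h01, EventuallyEq, ae_restrict_iff' measurableSet_Ioc]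
    filter_upwards [e] with τ h3 hτ using h3 (Ioc_subset_Icc_self hτ)
  · intro τ hτ
    refine (h2 τ hτ).trans (intervalIntegral.integral_congr_ae ?_)
    rw [uIoc_of_le hτ.1]
    filter_upwards [e] with s h3 hs using h3 ⟨hs.1.le, hs.2.trans hτ.2⟩

/-- the speed of the pressure is at most half the `L¹` speed of the clocks -/
theorem l4s_deriv_le (hf : L4sFun a f Bv Sv C) (ha : 0 ≤ a) (hC : 0 ≤ C) (hp : L4sPath a t0 t1 b h db dh) (h01 : t0 ≤ t1) :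
    ∀ᵐ τ : ℝ, τ ∈ Icc t0 t1 → |deriv (fun τ => f (b τ) (h τ)) τ| ≤ 1 / 2 * l4sSp a db dh τ := by
  filter_upwards [l4r_deriv_le (hf.toR ha hC) hp.toR h01, l4s_sec_int hp] with τ h1 h2 hτ
  rw [← l4s_sp_eq ha (h2 hτ)]
  exact h1 hτ

/-! ### the tilt (LL (A4)): what the matrix clock reveals before the mass `s` is revealed at the mass `s` -/

/-- the tilted clock (as in `LlBase.psi`) -/
noncomputable def l4sTl (s : ℝ) (c : ℝ → ℝ) : ℝ → ℝ := fun v => if s ≤ v then c v else 0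

theorem l4s_tl_eqns_cite : True := by
  have := @l4sTl.eq_1
  trivial

theorem l4s_tl_clk {s : ℝ} {c : ℝ → ℝ} (ha : 0 ≤ a) (hc : GhClk1 a c) : GhClk1 a (l4sTl s c) := by
  have l : (0 : ℝ) ∈ Icc 0 a := left_mem_Icc.2 ha
  refine ⟨fun u hu v hv huv => ?_, ?_⟩
  · unfold l4sTl
    split_ifs with h1 h2 h2
    · exact hc.1 hu hv huv
    · exact absurd (h1.trans huv) h2
    · exact hc.2.trans (hc.1 l hv hv.1)
    · exact le_rfl
  · unfold l4sTl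
    split_ifs
    · exact hc.2
    · exact le_rfl

theorem L4sPath.tilt (hp : L4sPath a t0 t1 b h db dh) (ha : 0 ≤ a) (s : ℝ) :
    L4sPath a t0 t1 (fun τ => l4sTl s (b τ)) h (fun τ => l4sTl s (db τ)) dh where
  admB := fun τ hτ => l4s_tl_clk ha (hp.admB τ hτ)
  admH := hp.admH
  ucont := by
    intro ε hε
    obtain ⟨δ, hδ, H⟩ := hp.ucont ε hε
    refine ⟨δ, hδ, fun τ hτ τ' hτ' hd u hu => ⟨?_, (H τ hτ τ' hτ' hd u hu).2⟩⟩
    unfold l4sTl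
    split_ifs
    · exact (H τ hτ τ' hτ' hd u hu).1
    · simp only [sub_self, abs_zero]; exact hε.le
  intB := by
    have hs : MeasurableSet {p : ℝ × ℝ | s ≤ p.2} := measurableSet_le measurable_const measurable_snd
    refine (hp.intB.indicator hs).congr (ae_of_all _ fun p => ?_)
    simp only [indicator_apply, mem_ofPred_eq, uncurry, l4sTl]
  intH := hp.intH
  ftcB := by
    filter_upwards [hp.ftcB] with u hu hm τ hτ
    unfold l4sTl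
    split_ifs
    · exact hu hm τ hτ
    · simp
  ftcH := hp.ftcH

/-- **`ψ = f^s - f^0` along the path**: absolute continuity -/
theorem l4s_psi_ac (hf : L4sFun a f Bv Sv C) (ha : 0 ≤ a) (hC : 0 ≤ C) (hp : L4sPath a t0 t1 b h db dh) (h01 : t0 ≤ t1) (s : ℝ) :
    AbsolutelyContinuousOnInterval (fun τ => f (l4sTl s (b τ)) (h τ) - f (b τ) (h τ)) t0 t1 :=
  (l4s_ac hf ha hC (hp.tilt ha s) h01).sub (l4s_ac hf ha hC hp h01)

/-- **`ψ = f^s - f^0` along the path**: `ψ̇` = tilted formula minus untilted formula, a.e. -/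
theorem l4s_psi_deriv (hf : L4sFun a f Bv Sv C) (ha : 0 ≤ a) (hC : 0 ≤ C) (hp : L4sPath a t0 t1 b h db dh) (h01 : t0 ≤ t1) (s : ℝ) :
    ∀ᵐ τ : ℝ, τ ∈ Icc t0 t1 → HasDerivAt (fun τ => f (l4sTl s (b τ)) (h τ) - f (b τ) (h τ))
      (l4sPhi a Bv Sv (fun τ => l4sTl s (b τ)) h (fun τ => l4sTl s (db τ)) dh τ - l4sPhi a Bv Sv b h db dh τ) τ := by
  filter_upwards [l4s_deriv hf ha hC (hp.tilt ha s) h01, l4s_deriv hf ha hC hp h01] with τ h1 h2 hτ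
  exact (h1 hτ).sub (h2 hτ)

end pth

end Claimed.Agent.R286
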