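import Claimed.Agent.R286.LL04.RegBH
import Claimed.Agent.R286.Exit.ClkPr
import Claimed.Agent.R286.Exit.ClkLip
import Claimed.Agent.R286.Exit.ClkStat

/-!
# Row 286 (S0533), LL Sec. 4, file LL04/RegSk : THE CHAIN RULE FOR THE SK PRESSURE `skCPr`      (helper17; prefix `l4k_`)      no sorry of its own (cites the exits ClkPr, ClkLip, ClkStat)

* `l4k_fun : L4sFun a (skCPr n a) (skCB .. (ghPosA u)) (skCS .. (ghPosA u)) (18 a² n)` = LL (A1), line 1, for bounded monotone clocks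
* `l4k_ac`, `l4k_deriv`, `l4k_psi_ac`, `l4k_psi_deriv` : the results of LL04/RegBH for `skCPr` (R4 of L01_adv_70.md)
-/

set_option autoImplicit false

namespace Claimed.Agent.R286

open MeasureTheory Set Filter Topology Function

theorem l4k_posA_ok {a u : ℝ} (hu : u ∈ Icc 0 a) : (ghPosA u).Ok a := ⟨hu.1, hu.2, zero_le_one, le_rfl⟩

theorem l4k_posA_le {u v : ℝ} (h : u ≤ v) : ghPosA u ≤ ghPosA v := by
  unfold ghPosA
  rw [Prod.Lex.toLex_le_toLex]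
  rcases h.lt_or_eq with h | h
  · exact Or.inl h
  · exact Or.inr ⟨h, le_rfl⟩

theorem l4k_rt {a : ℝ} {p : GhPos} (hp : p.Ok a) : GhIsRT a 2 (ghR2 p) where
  diag := fun x _ => by simp [ghR2]
  symm := fun x y _ _ => by
    unfold ghR2
    by_cases h : x = y
    · rw [if_pos h, if_pos h.symm]
    · rw [if_neg h, if_neg (Ne.symm h)]
  ultra := fun x y z _ _ _ => by
    unfold ghR2
    by_cases h : x = z
    · rw [if_pos h]; exact le_top
    · rw [if_neg h]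
      by_cases h1 : x = y
      · have h2 : y ≠ z := fun e => h (h1.trans e)
        rw [if_neg h2]; exact min_le_right _ _
      · rw [if_neg h1]; exact min_le_left _ _
  ok := fun x y _ _ p' e => by
    unfold ghR2 at e
    by_cases h : x = y
    · rw [if_pos h] at e; exact absurd e WithTop.top_ne_coe
    · rw [if_neg h] at e
      rw [← WithTop.coe_injective e]; exact hp

theorem l4k_sp_abs {n : ℕ} (σ : SkCfg n) (i : Fin n) : |skSp σ i| = 1 := by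
  unfold skSp Claims.C0461.pmSpin
  split_ifs <;> simp

theorem l4k_ov_abs {n : ℕ} (σ τ : SkCfg n) : |skOv σ τ| ≤ 1 := by
  unfold skOv
  rcases Nat.eq_zero_or_pos n with rfl | hn
  · simp
  have hn' : (0 : ℝ) < n := by exact_mod_cast hn
  rw [abs_div, abs_of_pos hn', div_le_one hn']
  calc |∑ i, skSp σ i * skSp τ i| ≤ ∑ i, |skSp σ i * skSp τ i| := Finset.abs_sum_le_sum_abs _ _
    _ = ∑ _i : Fin n, (1 : ℝ) := by
        refine Finset.sum_congr rfl fun i _ => ?_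
        rw [abs_mul, l4k_sp_abs, l4k_sp_abs, one_mul]
    _ = n := by simp

/-- **the SK pressure of bounded monotone clocks satisfies LL (A1), line 1** (from the exits `ClkPr`, `ClkLip`, `ClkStat` of the clock API) -/
theorem l4k_fun {n : ℕ} {a : ℝ} (hn : 0 < n) (ha : 0 < a) :
    L4sFun a (skCPr n a) (fun b h u => skCB n a b h (ghPosA u)) (fun b h u => skCS n a b h (ghPosA u)) (18 * a ^ 2 * n) where
  der := fun b0 h0 b1 h1 a0 a1 a2 a3 θ hθ => (exit_clk_pr_deriv hn ha ⟨a0, a1⟩ ⟨a2, a3⟩).1 θ hθ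
  monoB := fun b h hb hh u hu v hv huv => (exit_clk_SB hn ha ⟨hb, hh⟩ (l4k_posA_ok hu) (l4k_posA_ok hv) (l4k_posA_le huv)).2.2.1
  monoS := fun b h hb hh u hu v hv huv => (exit_clk_SB hn ha ⟨hb, hh⟩ (l4k_posA_ok hu) (l4k_posA_ok hv) (l4k_posA_le huv)).2.1
  bdB := fun b h hb hh u hu => by
    obtain ⟨_, _, _, h4, h5⟩ := exit_clk_SB hn ha ⟨hb, hh⟩ (l4k_posA_ok hu) (l4k_posA_ok hu) le_rfl
    rw [abs_le]
    constructor <;> nlinarith [sq_nonneg (skCS n a b h (ghPosA u))]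
  bdS := fun b h hb hh u hu => by
    obtain ⟨h1, _, _, h4, h5⟩ := exit_clk_SB hn ha ⟨hb, hh⟩ (l4k_posA_ok hu) (l4k_posA_ok hu) le_rfl
    rw [abs_le]
    constructor <;> nlinarith
  lip := fun b h b' h' hb hh hb' hh' δ _ d1 d2 u hu => by
    have hrt := l4k_rt (l4k_posA_ok hu)
    have k1 := exit_clk_nu_lip hn ha ⟨hb, hh⟩ ⟨hb', hh'⟩ 2 (ghR2 (ghPosA u)) hrt (fun σ => skOv (σ 0) (σ 1) ^ 2) 1 δ δ
      (fun σ => by rw [abs_pow]; exact pow_le_one₀ (abs_nonneg _) (l4k_ov_abs _ _)) d1 d2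
    have k2 := exit_clk_nu_lip hn ha ⟨hb, hh⟩ ⟨hb', hh'⟩ 2 (ghR2 (ghPosA u)) hrt (fun σ => skOv (σ 0) (σ 1)) 1 δ δ
      (fun σ => l4k_ov_abs _ _) d1 d2
    have e : 2 * ((2 : ℕ) : ℝ) * (((2 : ℕ) : ℝ) + 1) * a ^ 2 * n * (δ / 2 + δ) * 1 = 18 * a ^ 2 * n * δ := by push_cast; ring
    rw [e] at k1 k2
    exact ⟨k1, k2⟩

section use

variable {n : ℕ} {a t0 t1 : ℝ} {b h db dh : ℝ → ℝ → ℝ}

theorem l4k_ac (hn : 0 < n) (ha : 0 < a) (hp : L4sPath a t0 t1 b h db dh) (h01 : t0 ≤ t1) :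
    AbsolutelyContinuousOnInterval (fun τ => skCPr n a (b τ) (h τ)) t0 t1 := by
  have hC : (0 : ℝ) ≤ 18 * a ^ 2 * n := by positivity
  have key := l4s_ac (l4k_fun hn ha) ha.le hC hp h01
  exact key

/-- `d/dτ f_n(b_τ,h_τ) = -1/4 ∫ B_v ḃ_τ dv - 1/2 ∫ S_v ḣ_τ dv` a.e. -/
theorem l4k_deriv (hn : 0 < n) (ha : 0 < a) (hp : L4sPath a t0 t1 b h db dh) (h01 : t0 ≤ t1) :
    ∀ᵐ τ : ℝ, τ ∈ Icc t0 t1 → HasDerivAt (fun τ => skCPr n a (b τ) (h τ))
      (-(1 / 4) * (∫ u in (0 : ℝ)..a, skCB n a (b τ) (h τ) (ghPosA u) * db τ u)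
        - (1 / 2) * ∫ u in (0 : ℝ)..a, skCS n a (b τ) (h τ) (ghPosA u) * dh τ u) τ := by
  have hC : (0 : ℝ) ≤ 18 * a ^ 2 * n := by positivity
  have key := l4s_deriv (l4k_fun hn ha) ha.le hC hp h01
  exact key

theorem l4k_psi_ac (hn : 0 < n) (ha : 0 < a) (hp : L4sPath a t0 t1 b h db dh) (h01 : t0 ≤ t1) (s : ℝ) :
    AbsolutelyContinuousOnInterval (fun τ => skCPr n a (l4sTl s (b τ)) (h τ) - skCPr n a (b τ) (h τ)) t0 t1 := by
  have hC : (0 : ℝ) ≤ 18 * a ^ 2 * n := by positivity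
  have key := l4s_psi_ac (l4k_fun hn ha) ha.le hC hp h01 s
  exact key

/-- `ψ̇_n(s)` = tilted formula minus untilted formula, a.e. -/
theorem l4k_psi_deriv (hn : 0 < n) (ha : 0 < a) (hp : L4sPath a t0 t1 b h db dh) (h01 : t0 ≤ t1) (s : ℝ) :
    ∀ᵐ τ : ℝ, τ ∈ Icc t0 t1 → HasDerivAt (fun τ => skCPr n a (l4sTl s (b τ)) (h τ) - skCPr n a (b τ) (h τ))
      ((-(1 / 4) * (∫ u in (0 : ℝ)..a, skCB n a (l4sTl s (b τ)) (h τ) (ghPosA u) * l4sTl s (db τ) u)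
          - (1 / 2) * ∫ u in (0 : ℝ)..a, skCS n a (l4sTl s (b τ)) (h τ) (ghPosA u) * dh τ u)
        - (-(1 / 4) * (∫ u in (0 : ℝ)..a, skCB n a (b τ) (h τ) (ghPosA u) * db τ u)
          - (1 / 2) * ∫ u in (0 : ℝ)..a, skCS n a (b τ) (h τ) (ghPosA u) * dh τ u)) τ := by
  have hC : (0 : ℝ) ≤ 18 * a ^ 2 * n := by positivity
  have key := l4s_psi_deriv (l4k_fun hn ha) ha.le hC hp h01 s
  exact key

end use

end Claimed.Agent.R286
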